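import Vale.Agent.P146.Gap.Defs

/-! COMP: refinement of the exponents of a competitor. -/

set_option linter.all false

open MeasureTheory ProbabilityTheory Filter Topology Set

namespace Vale.Agent.P146.Gap

open Vale.Agent.P157.Par

/-! ### Refinement of the exponents -/

/-- The refined exponents: every gap is divided into `N` equal pieces. -/
noncomputable def comp_m (N : ℕ) (m : ℕ → ℝ) (l : ℕ) : ℝ :=
  m (l / N) + ((l % N : ℕ) : ℝ) / N * (m (l / N + 1) - m (l / N))

theorem comp_div {N : ℕ} (i : ℕ) {j : ℕ} (hj : j < N) : (i * N + j) / N = i := by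
  rw [Nat.add_comm, Nat.add_mul_div_right _ _ (by omega), Nat.div_eq_of_lt hj, Nat.zero_add]

theorem comp_m_eq {N : ℕ} (hN : 0 < N) (m : ℕ → ℝ) (i : ℕ) {j : ℕ} (hj : j ≤ N) :
    comp_m N m (i * N + j) = m i + (j : ℝ) / N * (m (i + 1) - m i) := by
  rcases hj.lt_or_eq with h | rfl
  · unfold comp_m
    have h2 : (i * N + j) % N = j := by
      rw [Nat.add_comm, Nat.add_mul_mod_self_right, Nat.mod_eq_of_lt h]
    rw [comp_div i h, h2]
  · unfold comp_m
    have h1 : (i * j + j) / j = i + 1 := by
      rw [← Nat.succ_mul, Nat.mul_div_cancel _ hN]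
    have h2 : (i * j + j) % j = 0 := by
      rw [← Nat.succ_mul, Nat.mul_mod_left]
    have hj0 : (j : ℝ) ≠ 0 := by positivity
    rw [h1, h2]
    simp only [Nat.cast_zero, zero_div, zero_mul, add_zero, div_self hj0, one_mul]
    ring

theorem comp_gstep_zero {g : ℝ} (hg : g ≠ 0) (F : ℝ → ℝ) : gstep g 0 F = F := by
  funext x
  simp only [gstep, Real.sqrt_zero, zero_mul, add_zero, integral_const, probReal_univ,
    one_smul, Real.log_exp]
  field_simp

theorem comp_block {N : ℕ} {m r : ℕ → ℝ} (i : ℕ) (F : ℝ → ℝ)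
    (hp : ∀ l, 1 ≤ l → l < (i + 1) * N → comp_m N m l ≠ 0) : ∀ j, j < N →
    cascade (comp_m N m) (fun l => r (l / N)) (i * N + j) F =
      cascade (comp_m N m) (fun l => r (l / N)) (i * N) F := by
  intro j
  induction j with
  | zero => intro _; rfl
  | succ j ih =>
    intro hj
    rw [← Nat.add_assoc, cascade_succ_def, comp_div i (by omega : j < N), Nat.add_assoc,
      comp_div i hj, sub_self, comp_gstep_zero, ih (by omega)]
    refine hp _ (by omega) ?_
    rw [Nat.succ_mul]
    omega

theorem comp_casc {N : ℕ} (hN : 0 < N) {m r : ℕ → ℝ} : ∀ (i : ℕ) (F : ℝ → ℝ),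
    (∀ l, 1 ≤ l → l < (i + 1) * N → comp_m N m l ≠ 0) →
    cascade (comp_m N m) (fun l => r (l / N)) (i * N) F = cascade m r i F := by
  intro i
  induction i with
  | zero => intro F _; rw [Nat.zero_mul]; rfl
  | succ i ih =>
    intro F hp
    have e : (i + 1) * N = i * N + (N - 1) + 1 := by rw [Nat.succ_mul]; omega
    have hp' : ∀ l, 1 ≤ l → l < (i + 1) * N → comp_m N m l ≠ 0 := fun l hl1 hl =>
      hp l hl1 (by rw [Nat.succ_mul (i + 1)]; omega)
    rw [e, cascade_succ_def, comp_block i _ hp' (N - 1) (by omega), ih _ hp', cascade_succ_def]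
    have h1 : i * N + (N - 1) + 1 = i * N + N := by omega
    have h2 : (i * N + N) / N = i + 1 := by rw [← Nat.succ_mul, Nat.mul_div_cancel _ hN]
    have hN0 : (N : ℝ) ≠ 0 := by positivity
    rw [h1, h2, comp_div i (by omega : N - 1 < N), comp_m_eq hN m i le_rfl, div_self hN0, one_mul]
    congr 2
    ring

theorem comp_sum {N : ℕ} (hN : 0 < N) (m f : ℕ → ℝ) (n : ℕ) :
    ∑ l ∈ Finset.range (n * N), (comp_m N m (l + 1) - comp_m N m l) * f (l / N) =
      ∑ i ∈ Finset.range n, (m (i + 1) - m i) * f i := by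
  induction n with
  | zero => simp
  | succ n ih =>
    rw [Nat.succ_mul, Finset.sum_range_add, ih, Finset.sum_range_succ]
    congr 1
    have h1 : ∀ j ∈ Finset.range N, (comp_m N m (n * N + j + 1) - comp_m N m (n * N + j)) *
        f ((n * N + j) / N) = 1 / N * ((m (n + 1) - m n) * f n) := by
      intro j hj
      have hj' := Finset.mem_range.1 hj
      rw [comp_div n hj', Nat.add_assoc, comp_m_eq hN m n (by omega), comp_m_eq hN m n hj'.le]
      push_cast
      ring
    rw [Finset.sum_congr rfl h1, Finset.sum_const, Finset.card_range, nsmul_eq_mul]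
    have hN0 : (N : ℝ) ≠ 0 := by positivity
    field_simp

theorem comp_m_mono {k : ℕ} {m : ℕ → ℝ} (hm : Exponents k m) : ∀ l ≤ k + 1, 0 ≤ m l ∧ m l ≤ 1 := by
  have h1 : ∀ l ≤ k + 1, 0 ≤ m l := by
    intro l
    induction l with
    | zero => intro _; rw [hm.1]
    | succ l ih => intro hl; exact (ih (by omega)).trans (hm.2.2 l (by omega)).le
  have h2 : ∀ j, j ≤ k + 1 → m (k + 1 - j) ≤ 1 := by
    intro j
    induction j with
    | zero => intro _; rw [Nat.sub_zero, hm.2.1]
    | succ j ih =>
      intro hj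
      have := hm.2.2 (k + 1 - (j + 1)) (by omega)
      rw [show k + 1 - (j + 1) + 1 = k + 1 - j by omega] at this
      exact this.le.trans (ih (by omega))
  intro l hl
  refine ⟨h1 l hl, ?_⟩
  have := h2 (k + 1 - l) (by omega)
  rwa [show k + 1 - (k + 1 - l) = l by omega] at this

theorem refine_exp {b : ℝ} {k : ℕ} {m q : ℕ → ℝ} (hm : Exponents k m) (hq : Path k q)
    (hq1 : q k ≤ 1) {η : ℝ} (hη : 0 < η) :
    ∃ (k' : ℕ) (m' q' : ℕ → ℝ), Exponents k' m' ∧ (∀ l ≤ k', m' (l + 1) - m' l ≤ η) ∧
      Path k' q' ∧ q' k' ≤ 1 ∧ SKpar b k' m' q' = SKpar b k m q := by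
  obtain ⟨N, hNη⟩ := exists_nat_gt (1 / η)
  have hN0 : (0 : ℝ) < N := (by positivity : (0:ℝ) < 1 / η).trans hNη
  have hN : 0 < N := by exact_mod_cast hN0
  have hk1 : k * N + (N - 1) + 1 = (k + 1) * N := by rw [Nat.succ_mul]; omega
  have hstep : ∀ l ≤ k * N + (N - 1), l / N ≤ k ∧ comp_m N m (l + 1) - comp_m N m l =
      (m (l / N + 1) - m (l / N)) / N := by
    intro l hl
    have hd : l / N < k + 1 := by
      rw [Nat.div_lt_iff_lt_mul hN]; omega
    have hmod : l % N < N := Nat.mod_lt _ hN
    refine ⟨by omega, ?_⟩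
    have e := Nat.div_add_mod' l N
    have h1 : comp_m N m (l + 1) = m (l / N) + ((l % N + 1 : ℕ) : ℝ) / N *
        (m (l / N + 1) - m (l / N)) := by
      rw [← comp_m_eq hN m (l / N) (by omega : l % N + 1 ≤ N), ← Nat.add_assoc, e]
    rw [h1]
    unfold comp_m
    push_cast
    field_simp
    ring
  have hpos : ∀ l, 1 ≤ l → l ≤ (k + 1) * N → 0 < comp_m N m l := by
    intro l
    induction l with
    | zero => intro h; omega
    | succ l ih =>
      intro _ hl
      obtain ⟨h1, h2⟩ := hstep l (by omega)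
      have h3 : 0 < (m (l / N + 1) - m (l / N)) / N :=
        div_pos (sub_pos.2 (hm.2.2 _ h1)) hN0
      rcases Nat.eq_zero_or_pos l with h0 | h0
      · have h4 : comp_m N m l = 0 := by
          rw [h0]; simp [comp_m, hm.1]
        linarith
      · have := ih h0 (by omega)
        linarith
  refine ⟨k * N + (N - 1), comp_m N m, fun l => q (l / N), ⟨?_, ?_, fun l hl => ?_⟩,
    fun l hl => ?_, ⟨?_, fun l hl => ?_⟩, ?_, ?_⟩
  · simp [comp_m, hm.1]
  · rw [hk1, Nat.succ_mul, comp_m_eq hN m k le_rfl, div_self hN0.ne', one_mul, hm.2.1]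
    ring
  · obtain ⟨h1, h2⟩ := hstep l hl
    have h3 : 0 < (m (l / N + 1) - m (l / N)) / N :=
        div_pos (sub_pos.2 (hm.2.2 _ h1)) hN0
    linarith
  · obtain ⟨h1, h2⟩ := hstep l hl
    rw [h2, div_le_iff₀ hN0]
    have h3 := (comp_m_mono hm (l / N) (by omega)).1
    have h4 := (comp_m_mono hm (l / N + 1) (by omega)).2
    have h5 : 1 < η * N := by
      rw [div_lt_iff₀ hη] at hNη
      linarith
    linarith
  · simpa using hq.1
  · obtain ⟨h1, -⟩ := hstep (l + 1) (by omega)
    simp only
    rcases (by rw [Nat.succ_div]; split_ifs <;> simp : (l + 1) / N = l / N ∨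
      (l + 1) / N = l / N + 1) with h | h
    · rw [h]
    · rw [h]
      exact hq.2 _ (by omega)
  · simp only
    rw [comp_div k (by omega)]
    exact hq1
  · unfold SKpar spinPart
    have hc := fun F => comp_casc hN (m := m) (r := fun l => b ^ 2 * q l) k F
      (fun l hl1 hl => (hpos l hl1 hl.le).ne')
    have hb := fun F => comp_block (N := N) (m := m) (r := fun l => b ^ 2 * q l) k F
      (fun l hl1 hl => (hpos l hl1 hl.le).ne') (N - 1) (by omega)
    simp only at hc hb ⊢
    rw [hk1, comp_sum hN m (fun l => q l ^ 2) (k + 1), hb, hc, comp_div k (by omega),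
      Nat.zero_div]

/-! ### Lipschitz functions -/

theorem comp_int {F : ℝ → ℝ} {L : NNReal} (hF : LipschitzWith L F) (m v x : ℝ) :
    Integrable (fun z => Real.exp (m * F (x + √v * z))) (gaussianReal 0 1) := by
  have hF0 : ∀ y, |F y| ≤ |F 0| + L * |y| := by
    intro y
    have h := hF.dist_le_mul y 0
    rw [Real.dist_eq, Real.dist_eq, sub_zero] at h
    have := abs_sub_abs_le_abs_sub (F y) (F 0)
    linarith
  set c : ℝ := |m| * L * √v with hc
  have hc0 : 0 ≤ c := by positivity
  have hint : Integrable (fun z : ℝ => Real.exp (|m| * (|F 0| + L * |x|)) *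
      (Real.exp (c * z) + Real.exp (-c * z))) (gaussianReal 0 1) :=
    ((integrable_exp_mul_gaussianReal c).add (integrable_exp_mul_gaussianReal (-c))).const_mul _
  refine hint.mono' ?_ (Filter.Eventually.of_forall fun z => ?_)
  · have := hF.continuous
    exact (by fun_prop : Continuous fun z : ℝ =>
      Real.exp (m * F (x + √v * z))).aestronglyMeasurable
  · rw [Real.norm_eq_abs, Real.abs_exp]
    have h1 : m * F (x + √v * z) ≤ |m| * (|F 0| + L * |x|) + c * |z| := by
      calc m * F (x + √v * z) ≤ |m * F (x + √v * z)| := le_abs_self _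
        _ = |m| * |F (x + √v * z)| := abs_mul _ _
        _ ≤ |m| * (|F 0| + L * (|x| + √v * |z|)) := by
            have h2 := hF0 (x + √v * z)
            have h3 : |x + √v * z| ≤ |x| + √v * |z| := by
              refine (abs_add_le _ _).trans ?_
              rw [abs_mul, abs_of_nonneg (Real.sqrt_nonneg v)]
            have h4 : (L : ℝ) * |x + √v * z| ≤ L * (|x| + √v * |z|) :=
              mul_le_mul_of_nonneg_left h3 L.2
            exact mul_le_mul_of_nonneg_left (by linarith) (abs_nonneg m)
        _ = _ := by rw [hc]; ring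
    refine (Real.exp_le_exp.2 h1).trans ?_
    rw [Real.exp_add]
    refine mul_le_mul_of_nonneg_left ?_ (Real.exp_pos _).le
    rcases le_total 0 z with hz | hz
    · rw [abs_of_nonneg hz]
      linarith [Real.exp_pos (-c * z)]
    · rw [abs_of_nonpos hz]
      have : c * -z = -c * z := by ring
      rw [this]
      linarith [Real.exp_pos (c * z)]

theorem comp_pos {F : ℝ → ℝ} {L : NNReal} (hF : LipschitzWith L F) (m v x : ℝ) :
    0 < ∫ z, Real.exp (m * F (x + √v * z)) ∂(gaussianReal 0 1) :=
  integral_exp_pos (comp_int hF m v x)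

theorem comp_lip {m v : ℝ} (hm : 0 < m) {F : ℝ → ℝ} {L : NNReal} (hF : LipschitzWith L F) :
    LipschitzWith L (gstep m v F) := by
  have key : ∀ x y, gstep m v F x ≤ gstep m v F y + L * |x - y| := by
    intro x y
    unfold gstep
    have h1 : ∫ z, Real.exp (m * F (x + √v * z)) ∂(gaussianReal 0 1) ≤
        Real.exp (m * (L * |x - y|)) * ∫ z, Real.exp (m * F (y + √v * z)) ∂(gaussianReal 0 1) := by
      rw [← integral_const_mul]
      refine integral_mono (comp_int hF m v x)
        ((comp_int hF m v y).const_mul _) fun z => ?_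
      simp only
      rw [← Real.exp_add, Real.exp_le_exp, ← mul_add]
      refine mul_le_mul_of_nonneg_left ?_ hm.le
      have h := hF.dist_le_mul (x + √v * z) (y + √v * z)
      rw [Real.dist_eq, Real.dist_eq] at h
      have e : x + √v * z - (y + √v * z) = x - y := by ring
      rw [e] at h
      have := le_abs_self (F (x + √v * z) - F (y + √v * z))
      linarith
    have h2 := Real.log_le_log (comp_pos hF m v x) h1
    rw [Real.log_mul (Real.exp_pos _).ne' (comp_pos hF m v y).ne', Real.log_exp] at h2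
    have h3 := mul_le_mul_of_nonneg_left h2 (by positivity : 0 ≤ 1 / m)
    rw [mul_add] at h3
    have h4 : 1 / m * (m * (L * |x - y|)) = L * |x - y| := by field_simp
    linarith
  refine LipschitzWith.of_dist_le_mul fun x y => ?_
  rw [Real.dist_eq, Real.dist_eq, abs_le]
  have h1 := key x y
  have h2 := key y x
  rw [abs_sub_comm y x] at h2
  constructor <;> linarith

theorem comp_casc_lip {F : ℝ → ℝ} {L : NNReal} {m r : ℕ → ℝ} : ∀ (k : ℕ) (F : ℝ → ℝ),
    LipschitzWith L F → (∀ l, 1 ≤ l → l ≤ k → 0 < m l) → LipschitzWith L (cascade m r k F) := by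
  intro k
  induction k with
  | zero => intro F hF _; exact hF
  | succ k ih =>
    intro F hF hm
    rw [cascade_succ_def]
    exact ih _ (comp_lip (hm _ (by omega) le_rfl) hF) fun l h1 h2 => hm l h1 (by omega)

/-- The first level of a cascade. -/
theorem comp_shift {m r : ℕ → ℝ} : ∀ (k : ℕ) (F : ℝ → ℝ), cascade m r (k + 1) F =
    gstep (m 1) (r 1 - r 0) (cascade (fun l => m (l + 1)) (fun l => r (l + 1)) k F) := by
  intro k
  induction k with
  | zero => intro F; rw [cascade_succ_def]; rfl
  | succ k ih =>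
    intro F
    rw [cascade_succ_def, ih, cascade_succ_def]

theorem comp_lc : LipschitzWith 1 (fun x : ℝ => Real.log (Real.cosh x)) := by
  have key : ∀ x y : ℝ, Real.log (Real.cosh x) ≤ Real.log (Real.cosh y) + |x - y| := by
    intro x y
    have h1 : Real.cosh x ≤ Real.cosh y * Real.exp |x - y| := by
      have e : x = y + (x - y) := by ring
      have h2 : Real.cosh x = Real.cosh y * Real.cosh (x - y) + Real.sinh y * Real.sinh (x - y) := by
        rw [← Real.cosh_add]; congr 1
      have h3 : Real.sinh y * Real.sinh (x - y) ≤ Real.cosh y * |Real.sinh (x - y)| := by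
        refine (le_abs_self _).trans ?_
        rw [abs_mul]
        refine mul_le_mul_of_nonneg_right ?_ (abs_nonneg _)
        rw [abs_le]
        rw [Real.sinh_eq, Real.cosh_eq]
        have := Real.exp_pos y
        have := Real.exp_pos (-y)
        constructor <;> linarith
      have h4 : Real.cosh (x - y) + |Real.sinh (x - y)| = Real.exp |x - y| := by
        rw [← Real.cosh_abs, Real.abs_sinh, Real.cosh_add_sinh]
      rw [h2, ← h4, mul_add]
      linarith
    have h5 := Real.log_le_log (Real.cosh_pos x) h1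
    rwa [Real.log_mul (Real.cosh_pos y).ne' (Real.exp_pos _).ne', Real.log_exp] at h5
  refine LipschitzWith.of_dist_le_mul fun x y => ?_
  rw [Real.dist_eq, Real.dist_eq, abs_le]
  have h1 := key x y
  have h2 := key y x
  rw [abs_sub_comm y x] at h2
  simp only [NNReal.coe_one, one_mul]
  constructor <;> linarith

/-- The sum of two independent Gaussian variables. -/
theorem comp_conv {h : ℝ → ℝ} (hh : Measurable h) {a v : ℝ} (ha : 0 ≤ a) (hv : 0 ≤ v)
    (hi : Integrable (fun z => h (√(a + v) * z)) (gaussianReal 0 1)) :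
    ∫ z, ∫ w, h (√a * z + √v * w) ∂(gaussianReal 0 1) ∂(gaussianReal 0 1) =
      ∫ z, h (√(a + v) * z) ∂(gaussianReal 0 1) := by
  have e : ∀ b : ℝ, ∀ hb : 0 ≤ b, (gaussianReal 0 1).map (fun z => √b * z) =
      gaussianReal 0 ⟨b, hb⟩ := by
    intro b hb
    rw [gaussianReal_map_const_mul]
    simp only [mul_zero, mul_one]
    congr 1
    apply NNReal.eq
    simp [Real.sq_sqrt hb]
    rfl
  have e2 : ((gaussianReal 0 1).prod (gaussianReal 0 1)).map
      (fun p : ℝ × ℝ => √a * p.1 + √v * p.2) =
      (gaussianReal 0 1).map (fun z => √(a + v) * z) := by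
    rw [e (a + v) (by positivity)]
    have h1 : ((gaussianReal 0 1).prod (gaussianReal 0 1)).map
        (fun p : ℝ × ℝ => √a * p.1 + √v * p.2) =
        (((gaussianReal 0 1).map (fun z => √a * z)).prod
          ((gaussianReal 0 1).map (fun z => √v * z))).map (fun p : ℝ × ℝ => p.1 + p.2) := by
      rw [Measure.map_prod_map _ _ (by fun_prop) (by fun_prop),
        Measure.map_map (by fun_prop) (by fun_prop)]
      rfl
    rw [h1, e a ha, e v hv]
    have h2 := gaussianReal_conv_gaussianReal (m₁ := 0) (m₂ := 0) (v₁ := ⟨a, ha⟩) (v₂ := ⟨v, hv⟩)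
    unfold Measure.conv at h2
    rw [h2, add_zero]
    rfl
  have hm : Measurable (fun p : ℝ × ℝ => √a * p.1 + √v * p.2) := by fun_prop
  have hm2 : Measurable (fun z : ℝ => √(a + v) * z) := by fun_prop
  have h3 : ∫ z, h (√(a + v) * z) ∂(gaussianReal 0 1) =
      ∫ p : ℝ × ℝ, h (√a * p.1 + √v * p.2) ∂((gaussianReal 0 1).prod (gaussianReal 0 1)) := by
    rw [← integral_map (φ := fun z => √(a + v) * z) hm2.aemeasurable hh.aestronglyMeasurable, ← e2,
      integral_map hm.aemeasurable hh.aestronglyMeasurable]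
  rw [h3, integral_prod]
  have h4 : Integrable h ((gaussianReal 0 1).map (fun z => √(a + v) * z)) :=
    (integrable_map_measure hh.aestronglyMeasurable hm2.aemeasurable).2 hi
  rw [← e2] at h4
  exact (integrable_map_measure hh.aestronglyMeasurable hm.aemeasurable).1 h4

theorem comp_exp {m v : ℝ} (hm : 0 < m) {F : ℝ → ℝ} {L : NNReal} (hF : LipschitzWith L F)
    (x : ℝ) : Real.exp (m * gstep m v F x) =
      ∫ z, Real.exp (m * F (x + √v * z)) ∂(gaussianReal 0 1) := by
  unfold gstep
  rw [← mul_assoc, mul_one_div_cancel hm.ne', one_mul, Real.exp_log (comp_pos hF m v x)]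

/-- The semigroup property. -/
theorem comp_add {g v v' : ℝ} (hg : 0 < g) (hv : 0 ≤ v) (hv' : 0 ≤ v') {F : ℝ → ℝ} {L : NNReal}
    (hF : LipschitzWith L F) : gstep g v (gstep g v' F) = gstep g (v + v') F := by
  funext x
  have h1 : gstep g v (gstep g v' F) x = 1 / g * Real.log (∫ z, Real.exp (g *
      gstep g v' F (x + √v * z)) ∂(gaussianReal 0 1)) := rfl
  rw [h1]
  have h2 : ∀ z, Real.exp (g * gstep g v' F (x + √v * z)) =
      ∫ w, Real.exp (g * F (x + (√v * z + √v' * w))) ∂(gaussianReal 0 1) := by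
    intro z
    rw [comp_exp hg hF]
    simp only [add_assoc]
  simp only [h2]
  have h3 := comp_conv (h := fun u => Real.exp (g * F (x + u)))
    (by have := hF.continuous; fun_prop) hv hv' (comp_int hF g (v + v') x)
  rw [h3]
  rfl

/-- A Lipschitz function is integrable. -/
theorem comp_int_lip {F : ℝ → ℝ} {L : NNReal} (hF : LipschitzWith L F) (v : ℝ) :
    Integrable (fun z => F (√v * z)) (gaussianReal 0 1) := by
  have h1 := comp_int hF 1 v 0
  have h2 := comp_int hF (-1) v 0
  simp only [zero_add] at h1 h2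
  refine (h1.add h2).mono' ?_ (Filter.Eventually.of_forall fun z => ?_)
  · have := hF.continuous
    exact (by fun_prop : Continuous fun z : ℝ => F (√v * z)).aestronglyMeasurable
  · rw [Real.norm_eq_abs]
    simp only [Pi.add_apply, one_mul, neg_mul]
    have h3 := Real.add_one_le_exp (F (√v * z))
    have h4 := Real.add_one_le_exp (-F (√v * z))
    have h5 := Real.exp_pos (F (√v * z))
    have h6 := Real.exp_pos (-F (√v * z))
    rcases abs_cases (F (√v * z)) with h | h <;> linarith

theorem comp_mgf (t : ℝ) :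
    ∫ z, Real.exp (t * z) ∂(gaussianReal 0 1) = Real.exp (t ^ 2 / 2) := by
  have h := congrFun (mgf_id_gaussianReal (μ := 0) (v := 1)) t
  simp only [mgf, id, NNReal.coe_one, zero_mul, zero_add, one_mul] at h
  exact h

/-- The step is bounded by the average. -/
theorem comp_mean {g v : ℝ} (hg : 0 < g) (hv : 0 ≤ v) {F : ℝ → ℝ} (hF : LipschitzWith 1 F) :
    gstep g v F 0 ≤ ∫ z, F (√v * z) ∂(gaussianReal 0 1) + g * v := by
  set A : ℝ → ℝ := fun z => F (√v * z) with hA
  set E : ℝ := ∫ z, A z ∂(gaussianReal 0 1) with hE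
  have hi : Integrable A (gaussianReal 0 1) := comp_int_lip hF v
  have i1 : Integrable (fun z => Real.exp (g * A z)) (gaussianReal 0 1) := by
    have := comp_int hF g v 0
    simpa only [zero_add] using this
  have i2 : Integrable (fun z => Real.exp (-g * A z)) (gaussianReal 0 1) := by
    have := comp_int hF (-g) v 0
    simpa only [zero_add] using this
  set P : ℝ := ∫ z, Real.exp (g * A z) ∂(gaussianReal 0 1) with hP
  set M : ℝ := ∫ z, Real.exp (-g * A z) ∂(gaussianReal 0 1) with hM
  have hP0 : 0 < P := integral_exp_pos i1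
  have hM1 : Real.exp (-(g * E)) ≤ M := by
    have h1 : ∀ z, Real.exp (-(g * E)) * (1 + (g * E - g * A z)) ≤ Real.exp (-g * A z) := by
      intro z
      have h2 := mul_le_mul_of_nonneg_left (Real.add_one_le_exp (g * E - g * A z))
        (Real.exp_pos (-(g * E))).le
      rw [← Real.exp_add, show -(g * E) + (g * E - g * A z) = -g * A z by ring] at h2
      linarith
    have i3 : Integrable (fun z => g * E - g * A z) (gaussianReal 0 1) :=
      (integrable_const _).sub (hi.const_mul g)
    have i4 : Integrable (fun z => 1 + (g * E - g * A z)) (gaussianReal 0 1) :=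
      (integrable_const _).add i3
    have h3 := integral_mono (i4.const_mul (Real.exp (-(g * E)))) i2 h1
    have h4 : ∫ z, Real.exp (-(g * E)) * (1 + (g * E - g * A z)) ∂(gaussianReal 0 1) =
        Real.exp (-(g * E)) := by
      rw [integral_const_mul, integral_add (integrable_const _) i3,
        integral_sub (integrable_const _) (hi.const_mul g), integral_const_mul,
        integral_const_mul, ← hE]
      simp
    rw [h4] at h3
    exact h3
  set c : ℝ := g * √v with hc
  have hc2 : c ^ 2 = g ^ 2 * v := by rw [hc, mul_pow, Real.sq_sqrt hv]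
  have hPM : P * M ≤ Real.exp (g ^ 2 * v) := by
    have j1 := i1.mul_prod i2
    have j2 := i2.mul_prod i1
    have k1 := (integrable_exp_mul_gaussianReal (μ := 0) (v := 1) c).mul_prod
      (integrable_exp_mul_gaussianReal (μ := 0) (v := 1) (-c))
    have k2 := (integrable_exp_mul_gaussianReal (μ := 0) (v := 1) (-c)).mul_prod
      (integrable_exp_mul_gaussianReal (μ := 0) (v := 1) c)
    have hle : ∀ p : ℝ × ℝ, Real.exp (g * A p.1) * Real.exp (-g * A p.2) +
        Real.exp (-g * A p.1) * Real.exp (g * A p.2) ≤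
        Real.exp (c * p.1) * Real.exp (-c * p.2) + Real.exp (-c * p.1) * Real.exp (c * p.2) := by
      intro p
      have e1 : ∀ s t u : ℝ, Real.exp (s * t) * Real.exp (-s * u) +
          Real.exp (-s * t) * Real.exp (s * u) = 2 * Real.cosh (s * (t - u)) := by
        intro s t u
        rw [← Real.exp_add, ← Real.exp_add, Real.cosh_eq]
        rw [show s * t + -s * u = s * (t - u) by ring, show -s * t + s * u = -(s * (t - u)) by ring]
        ring
      rw [e1, e1]
      refine mul_le_mul_of_nonneg_left (Real.cosh_le_cosh.2 ?_) (by norm_num)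
      rw [hc, abs_mul, abs_mul, abs_mul, abs_of_pos hg, mul_assoc]
      refine mul_le_mul_of_nonneg_left ?_ hg.le
      have h := hF.dist_le_mul (√v * p.1) (√v * p.2)
      rw [Real.dist_eq, Real.dist_eq, ← mul_sub, abs_mul] at h
      simpa using h
    have h5 := integral_mono (j1.add j2) (k1.add k2) hle
    have h6 : ∫ p : ℝ × ℝ, (Real.exp (g * A p.1) * Real.exp (-g * A p.2) +
        Real.exp (-g * A p.1) * Real.exp (g * A p.2))
        ∂((gaussianReal 0 1).prod (gaussianReal 0 1)) = P * M + M * P := by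
      rw [integral_add j1 j2]
      congr 1
      · exact integral_prod_mul (fun z => Real.exp (g * A z)) (fun z => Real.exp (-g * A z))
      · exact integral_prod_mul (fun z => Real.exp (-g * A z)) (fun z => Real.exp (g * A z))
    have h7 : ∫ p : ℝ × ℝ, (Real.exp (c * p.1) * Real.exp (-c * p.2) +
        Real.exp (-c * p.1) * Real.exp (c * p.2))
        ∂((gaussianReal 0 1).prod (gaussianReal 0 1)) =
        Real.exp (g ^ 2 * v) + Real.exp (g ^ 2 * v) := by
      rw [integral_add k1 k2]
      have e3 : Real.exp (c ^ 2 / 2) * Real.exp ((-c) ^ 2 / 2) = Real.exp (g ^ 2 * v) := by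
        rw [← Real.exp_add, neg_sq, ← hc2]; congr 1; ring
      congr 1
      · rw [← e3, ← comp_mgf c, ← comp_mgf (-c)]
        exact integral_prod_mul (fun z => Real.exp (c * z)) (fun z => Real.exp (-c * z))
      · rw [← e3, mul_comm, ← comp_mgf c, ← comp_mgf (-c)]
        exact integral_prod_mul (fun z => Real.exp (-c * z)) (fun z => Real.exp (c * z))
    have h8 : P * M + M * P ≤ Real.exp (g ^ 2 * v) + Real.exp (g ^ 2 * v) := by
      rw [← h6, ← h7]; exact h5
    linarith [mul_comm P M]
  have h9 : P ≤ Real.exp (g * E + g ^ 2 * v) := by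
    have h10 : P * Real.exp (-(g * E)) ≤ Real.exp (g ^ 2 * v) :=
      (mul_le_mul_of_nonneg_left hM1 hP0.le).trans hPM
    have h11 := mul_le_mul_of_nonneg_right h10 (Real.exp_pos (g * E)).le
    rw [mul_assoc, ← Real.exp_add, neg_add_cancel, Real.exp_zero, mul_one, ← Real.exp_add,
      add_comm] at h11
    exact h11
  have h12 := Real.log_le_log hP0 h9
  rw [Real.log_exp] at h12
  have h13 : gstep g v F 0 = 1 / g * Real.log P := by
    unfold gstep
    simp only [zero_add, hP, hA]
  rw [h13, one_div, ← div_eq_inv_mul, div_le_iff₀ hg]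
  calc Real.log P ≤ g * E + g ^ 2 * v := h12
    _ = (E + g * v) * g := by ring

/-- Replacing the first value of the path by `0`; the conjunction in the brackets is `BPath b k r`
of the file `Minb.lean`, unfolded. -/
theorem zero_start {b : ℝ} (hb : 0 < b) {k : ℕ} {m q : ℕ → ℝ} (hm : Exponents k m)
    (hq : Path k q) (hq1 : q k ≤ 1) :
    ∃ r : ℕ → ℝ, (r 0 = 0 ∧ Path k r ∧ r k ≤ b ^ 2) ∧
      SKr b k m r ≤ SKpar b k m q + m 1 * b ^ 2 := by
  have hmpos : ∀ l ≤ k, 0 < m (l + 1) := fun l hl =>
    ((comp_m_mono hm l (by omega)).1).trans_lt (hm.2.2 l hl)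
  have hqle : ∀ l ≤ k, 0 ≤ q l ∧ q l ≤ q k := by
    have h1 : ∀ l, l ≤ k → 0 ≤ q l := by
      intro l
      induction l with
      | zero => intro _; exact hq.1
      | succ l ih => intro hl; exact (ih (by omega)).trans (hq.2 l (by omega))
    have h2 : ∀ j, j ≤ k → q (k - j) ≤ q k := by
      intro j
      induction j with
      | zero => intro _; exact le_rfl
      | succ j ih =>
        intro hj
        have := hq.2 (k - (j + 1)) (by omega)
        rw [show k - (j + 1) + 1 = k - j by omega] at this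
        exact this.trans (ih (by omega))
    intro l hl
    have := h2 (k - l) (by omega)
    rw [show k - (k - l) = l by omega] at this
    exact ⟨h1 l hl, this⟩
  have hb2 : 0 < b ^ 2 := by positivity
  set r : ℕ → ℝ := fun l => if l = 0 then 0 else b ^ 2 * q l with hr
  have hr0 : r 0 = 0 := by simp [hr]
  have hrl : ∀ l, r (l + 1) = b ^ 2 * q (l + 1) := fun l => by simp [hr]
  have hq01 := hqle 0 (by omega)
  refine ⟨r, ⟨hr0, ⟨hr0.ge, fun l hl => ?_⟩, ?_⟩, ?_⟩
  · rcases Nat.eq_zero_or_pos l with rfl | h0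
    · rw [hr0, hrl]
      exact mul_nonneg hb2.le (hqle _ (by omega)).1
    · obtain ⟨l', rfl⟩ : ∃ l', l = l' + 1 := ⟨l - 1, by omega⟩
      rw [hrl, hrl]
      exact mul_le_mul_of_nonneg_left (hq.2 _ hl) hb2.le
  · rcases Nat.eq_zero_or_pos k with rfl | h0
    · rw [hr0]; exact hb2.le
    · obtain ⟨l', rfl⟩ : ∃ l', k = l' + 1 := ⟨k - 1, by omega⟩
      rw [hrl]
      nlinarith
  have hsum : (∑ l ∈ Finset.range (k + 1), (m (l + 1) - m l) * r l ^ 2) / (4 * b ^ 2) ≤
      b ^ 2 / 4 * ∑ l ∈ Finset.range (k + 1), (m (l + 1) - m l) * q l ^ 2 := by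
    rw [div_le_iff₀ (by positivity)]
    have e : b ^ 2 / 4 * (∑ l ∈ Finset.range (k + 1), (m (l + 1) - m l) * q l ^ 2) *
        (4 * b ^ 2) = ∑ l ∈ Finset.range (k + 1), (m (l + 1) - m l) * (b ^ 2 * q l) ^ 2 := by
      rw [mul_assoc, Finset.sum_mul, Finset.mul_sum]
      refine Finset.sum_congr rfl fun l _ => ?_
      ring
    rw [e]
    refine Finset.sum_le_sum fun l hl => ?_
    have hl' := Finset.mem_range.1 hl
    refine mul_le_mul_of_nonneg_left ?_ (sub_nonneg.2 (hm.2.2 l (by omega)).le)
    rcases Nat.eq_zero_or_pos l with rfl | h0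
    · rw [hr0, zero_pow two_ne_zero]
      exact sq_nonneg _
    · obtain ⟨l', rfl⟩ : ∃ l', l = l' + 1 := ⟨l - 1, by omega⟩
      rw [hrl]
  have hspin : spinPart k m r ≤ spinPart k m (fun l => b ^ 2 * q l) + m 1 * b ^ 2 := by
    unfold spinPart
    rw [hr0]
    simp only [Real.sqrt_zero, zero_mul, integral_const, probReal_univ, one_smul]
    rcases Nat.eq_zero_or_pos k with rfl | h0
    · have e0 : ∀ F x, cascade m r 0 F x = F x := fun _ _ => rfl
      have e1 : ∀ F x, cascade m (fun l => b ^ 2 * q l) 0 F x = F x := fun _ _ => rfl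
      simp only [e0, e1, Real.cosh_zero, Real.log_one, hr0]
      have h1 : 0 ≤ ∫ z, Real.log (Real.cosh (√(b ^ 2 * q 0) * z)) ∂(gaussianReal 0 1) :=
        integral_nonneg fun z => Real.log_nonneg (Real.one_le_cosh _)
      have h2 : m 1 = 1 := hm.2.1
      rw [h2]
      nlinarith [hq01.1, hq1]
    · obtain ⟨k', rfl⟩ : ∃ k', k = k' + 1 := ⟨k - 1, by omega⟩
      rw [hrl]
      set F₁ : ℝ → ℝ := cascade (fun l => m (l + 1)) (fun l => r (l + 1)) k'
        (fun x => Real.log (Real.cosh x)) with hF₁
      have hF₁' : cascade (fun l => m (l + 1)) (fun l => b ^ 2 * q (l + 1)) k'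
        (fun x => Real.log (Real.cosh x)) = F₁ := by
        rw [hF₁]
        congr 1
      have hL : LipschitzWith 1 F₁ := comp_casc_lip (F := F₁) k' _ comp_lc
        fun l h1 h2 => hmpos l (by omega)
      have hm1 : 0 < m 1 := hmpos 0 (by omega)
      have hq10 : 0 ≤ b ^ 2 * q 1 - b ^ 2 * q 0 := by
        have := mul_le_mul_of_nonneg_left (hq.2 0 (by omega)) hb2.le
        simp only [zero_add] at this
        linarith
      have hq0 : 0 ≤ b ^ 2 * q 0 := mul_nonneg hb2.le hq01.1
      rw [comp_shift, comp_shift, hF₁', hr0, sub_zero]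
      have e1 : r 1 = b ^ 2 * q 0 + (b ^ 2 * q 1 - b ^ 2 * q 0) := by
        rw [show r 1 = b ^ 2 * q 1 from hrl 0]; ring
      rw [e1, ← comp_add hm1 hq0 hq10 hL]
      have h2 := comp_mean hm1 hq0 (comp_lip (v := b ^ 2 * q 1 - b ^ 2 * q 0) hm1 hL)
      have h3 : m 1 * (b ^ 2 * q 0) ≤ m 1 * b ^ 2 := by
        refine mul_le_mul_of_nonneg_left ?_ hm1.le
        nlinarith [hq01.2]
      linarith
  unfold SKr SKpar
  linarith

end Vale.Agent.P146.Gap
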