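import Vale.Agent.P146.Gap.BetaStep

/-! # P146 / Gap: `β' ≤ Y β` on the half line is preserved by the Parisi flow
(section THETA of the skeleton) -/

open MeasureTheory ProbabilityTheory Filter Topology Set

namespace Vale.Agent.P146.Gap

open Vale.Agent.P157.Par

variable {C g : ℝ} {F G : ℝ → ℝ}

theorem theta_iter_even (hG : ∀ x, G (-x) = G x) (n : ℕ) (x : ℝ) :
    iteratedDeriv n G (-x) = (-1) ^ n * iteratedDeriv n G x := by
  have h1 := iteratedDeriv_comp_neg n G x
  have h2 : (fun x => G (-x)) = G := funext hG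
  rw [h2, smul_eq_mul] at h1
  rw [h1, ← mul_assoc, ← pow_add, ← two_mul, pow_mul]
  norm_num

theorem theta_bet_even (hG : ∀ x, G (-x) = G x) (g x : ℝ) : bet g G (-x) = bet g G x := by
  simp only [bet, theta_iter_even hG]
  norm_num
  ring

theorem theta_hf_even (hG : ∀ x, G (-x) = G x) (g x : ℝ) : hf g G (-x) = hf g G x := by
  simp only [hf, theta_iter_even hG, hG]
  norm_num

theorem theta_th_even (hG : ∀ x, G (-x) = G x) (g x : ℝ) : th g G (-x) = th g G x := by
  rw [th, th, theta_bet_even hG, theta_hf_even hG]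

theorem theta_abs (hG : ∀ x, G (-x) = G x) (x : ℝ) : G |x| = G x := by
  rcases abs_choice x with h | h <;> rw [h]
  exact hG x

theorem theta_Y_zero (hG : ∀ x, G (-x) = G x) (g : ℝ) : Yf g G 0 = 0 := by
  have h1 := theta_iter_even hG 1 0
  have h3 := theta_iter_even hG 3 0
  norm_num at h1 h3
  have h1' : iteratedDeriv 1 G 0 = 0 := by
    have : iteratedDeriv 1 G 0 = - iteratedDeriv 1 G 0 := by simpa using h1
    linarith
  have h3' : iteratedDeriv 3 G 0 = 0 := by
    have : iteratedDeriv 3 G 0 = - iteratedDeriv 3 G 0 := by simpa using h3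
    linarith
  rw [Yf, h1', h3']
  simp

theorem theta_hf_hasDerivAt (hG : SmB G) {x : ℝ} (hp : 0 < iteratedDeriv 2 G x) (g : ℝ) :
    HasDerivAt (hf g G) (-(Yf g G x) * hf g G x) x := by
  have h0 := beta_iter hG 0 x
  rw [iteratedDeriv_zero] at h0
  have h2 := beta_iter hG 2 x
  have hp' : iteratedDeriv 2 G x ≠ 0 := hp.ne'
  have h := h2.mul ((h0.const_mul g).exp)
  refine h.congr_deriv ?_
  simp only [hf, Yf]
  field_simp
  ring

theorem theta_Yf_hasDerivAt (hG : SmB G) {x : ℝ} (hp : 0 < iteratedDeriv 2 G x) (g : ℝ) :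
    HasDerivAt (Yf g G) (g * iteratedDeriv 2 G x + bet g G x) x := by
  have h1 := beta_iter hG 1 x
  have h2 := beta_iter hG 2 x
  have h3 := beta_iter hG 3 x
  have hp' : iteratedDeriv 2 G x ≠ 0 := hp.ne'
  have h := ((h3.div h2 hp').neg).sub (h1.const_mul g)
  refine h.congr_deriv ?_
  simp only [bet]
  field_simp
  ring

/-- `ϑ'`. -/
noncomputable def theta_p (g : ℝ) (G : ℝ → ℝ) (x : ℝ) : ℝ :=
  (betp g G x - Yf g G x * bet g G x) * hf g G x

/-- `ϑ''`. -/
noncomputable def theta_pp (g : ℝ) (G : ℝ → ℝ) (x : ℝ) : ℝ :=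
  (beta_pp g G x - (g * iteratedDeriv 2 G x + bet g G x) * bet g G x - 2 * Yf g G x * betp g G x
    + Yf g G x ^ 2 * bet g G x) * hf g G x

theorem theta_hasDerivAt (hG : SmB G) {x : ℝ} (hp : 0 < iteratedDeriv 2 G x) (g : ℝ) :
    HasDerivAt (th g G) (theta_p g G x) x := by
  have h := (beta_hasDerivAt hG hp g).mul (theta_hf_hasDerivAt hG hp g)
  refine h.congr_deriv ?_
  simp only [theta_p]
  ring

theorem theta_p_hasDerivAt (hG : SmB G) {x : ℝ} (hp : 0 < iteratedDeriv 2 G x) (g : ℝ) :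
    HasDerivAt (theta_p g G) (theta_pp g G x) x := by
  have h := ((beta_p_hasDerivAt hG hp g).sub ((theta_Yf_hasDerivAt hG hp g).mul
    (beta_hasDerivAt hG hp g))).mul (theta_hf_hasDerivAt hG hp g)
  refine h.congr_deriv ?_
  simp only [theta_pp, Pi.sub_apply, Pi.mul_apply]
  ring

theorem theta_hf_s (h : SmB F) (hg : 0 < g) {s : ℝ} (hs : 0 < s) {x : ℝ}
    (hp : 0 < iteratedDeriv 2 (gstep g s F) x) :
    HasDerivAt (fun s => hf g (gstep g s F) x)
      ((1 / 2 * (Yf g (gstep g s F) x ^ 2 - (g * iteratedDeriv 2 (gstep g s F) x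
        + bet g (gstep g s F) x)) + g * iteratedDeriv 2 (gstep g s F) x)
          * hf g (gstep g s F) x) s := by
  have h0 := fj_s0 h hg hs x
  have h2 := fj_s2 h hg hs x
  have hp' : iteratedDeriv 2 (gstep g s F) x ≠ 0 := hp.ne'
  simp only [fj, iteratedDeriv_zero] at h0 h2
  have h := h2.mul ((h0.const_mul g).exp)
  refine h.congr_deriv ?_
  simp only [hf, Yf, bet]
  field_simp
  ring

theorem theta_s (h : SmB F) (hg : 0 < g) {s : ℝ} (hs : 0 < s) {x : ℝ}
    (hp : 0 < iteratedDeriv 2 (gstep g s F) x) :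
    HasDerivAt (fun s => th g (gstep g s F) x)
      (1 / 2 * theta_pp g (gstep g s F) x - bet g (gstep g s F) x * th g (gstep g s F) x) s := by
  have h := (beta_s h hg hs hp).mul (theta_hf_s h hg hs hp)
  refine h.congr_deriv ?_
  simp only [theta_pp, th]
  ring

theorem theta_hf_pos {x : ℝ} (hp : 0 < iteratedDeriv 2 G x) (g : ℝ) : 0 < hf g G x := by
  rw [hf]; positivity

theorem theta_hf_cont (h : Adm C F) (hg : 0 < g) :
    Continuous (fun p : ℝ × ℝ => hf g (gstep g p.1 F) p.2) := by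
  have h2 := fj_cont h.smb hg 2
  have h0 := fj_cont h.smb hg 0
  simp only [fj, iteratedDeriv_zero] at h0 h2
  exact h2.mul (Real.continuous_exp.comp (continuous_const.mul h0))

theorem theta_cont (h : Adm C F) (hg : 0 < g) (hg1 : g ≤ 1) (S : ℝ) :
    ContinuousOn (fun p : ℝ × ℝ => th g (gstep g p.1 F) p.2) (Icc 0 S ×ˢ univ) :=
  (beta_cont h hg hg1 S).mul (theta_hf_cont h hg).continuousOn

/-- `h` is nonincreasing on the half line. -/
theorem theta_hf_anti (hG : Adm C G) (hb : ∀ x, 0 ≤ bet g G x) (hg : 0 < g) :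
    AntitoneOn (hf g G) (Ici 0) := by
  have hY : ∀ x, 0 ≤ x → 0 ≤ Yf g G x := by
    have hmono : Monotone (Yf g G) := by
      apply monotone_of_deriv_nonneg
      · exact fun x => (theta_Yf_hasDerivAt hG.smb (hG.pos x) g).differentiableAt
      · intro x
        rw [(theta_Yf_hasDerivAt hG.smb (hG.pos x) g).deriv]
        have := mul_pos hg (hG.pos x)
        linarith [hb x]
    intro x hx
    rw [← theta_Y_zero hG.even g]
    exact hmono hx
  apply antitoneOn_of_deriv_nonpos (convex_Ici 0)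
  · exact fun x _ => (theta_hf_hasDerivAt hG.smb (hG.pos x) g).continuousAt.continuousWithinAt
  · exact fun x _ =>
      (theta_hf_hasDerivAt hG.smb (hG.pos x) g).differentiableAt.differentiableWithinAt
  · intro x hx
    rw [interior_Ici] at hx
    rw [(theta_hf_hasDerivAt hG.smb (hG.pos x) g).deriv]
    have h1 := hY x (le_of_lt hx)
    have h2 := theta_hf_pos (hG.pos x) g
    nlinarith

theorem theta_anti_zero (h : Good g C F) : AntitoneOn (th g F) (Ici 0) := by
  have hA := h.adm
  apply antitoneOn_of_deriv_nonpos (convex_Ici 0)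
  · exact fun x _ => (theta_hasDerivAt hA.smb (hA.pos x) g).continuousAt.continuousWithinAt
  · exact fun x _ =>
      (theta_hasDerivAt hA.smb (hA.pos x) g).differentiableAt.differentiableWithinAt
  · intro x hx
    rw [interior_Ici] at hx
    rw [(theta_hasDerivAt hA.smb (hA.pos x) g).deriv, theta_p]
    have h1 := h.betp_le x (le_of_lt hx)
    have h2 := theta_hf_pos (hA.pos x) g
    nlinarith

/-- Reflection at `a`. -/
theorem theta_reflect (h : Good g C F) (hg : 0 < g) (hg1 : g ≤ 1) {s : ℝ} (hs : 0 < s) {a : ℝ}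
    (ha : 0 < a) {x : ℝ} (hx : a ≤ x) :
    th g (gstep g s F) x ≤ th g (gstep g s F) (2 * a - x) := by
  have hA := h.adm
  obtain ⟨B, hB0, hB1, hB2⟩ := beta_bound hA hg hg1 s
  have hsm : ∀ t, SmB (gstep g t F) := fun t => smB_gstep hA.smb hg t
  have hst : ∀ t ∈ Icc 0 s, Adm (C * Real.exp (2 * g * t)) (gstep g t F) :=
    fun t ht => hA.step hg hg1 ht.1
  have hbet : ∀ t ∈ Icc 0 s, ∀ x, 0 ≤ bet g (gstep g t F) x :=
    fun t ht => bet_step hA h.bet_nonneg hg hg1 ht.1
  have hhf : ∀ t ∈ Icc 0 s, ∀ x y : ℝ, |x| ≤ |y| →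
      hf g (gstep g t F) y ≤ hf g (gstep g t F) x := by
    intro t ht x y hxy
    rw [← theta_abs (theta_hf_even (hst t ht).even g) x,
      ← theta_abs (theta_hf_even (hst t ht).even g) y]
    exact theta_hf_anti (hst t ht) (hbet t ht) hg (abs_nonneg x) (abs_nonneg y) hxy
  have hth0 : ∀ x y : ℝ, |x| ≤ |y| → th g F y ≤ th g F x := by
    intro x y hxy
    rw [← theta_abs (theta_th_even hA.even g) x, ← theta_abs (theta_th_even hA.even g) y]
    exact theta_anti_zero h (abs_nonneg x) (abs_nonneg y) hxy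
  obtain ⟨K, hK⟩ : ∃ K : ℝ, ∀ t ∈ Icc 0 s, hf g (gstep g t F) 0 ≤ K := by
    have hc : ContinuousOn (fun t : ℝ => hf g (gstep g t F) 0) (Icc 0 s) :=
      ((theta_hf_cont hA hg).comp (by fun_prop : Continuous fun t : ℝ => (t, (0 : ℝ)))).continuousOn
    obtain ⟨K, hK⟩ := isCompact_Icc.bddAbove_image hc
    exact ⟨K, fun t ht => hK (mem_image_of_mem _ ht)⟩
  have hhpos : ∀ t ∈ Icc 0 s, ∀ x, 0 < hf g (gstep g t F) x :=
    fun t ht x => theta_hf_pos ((hst t ht).pos x) g
  have hK0 : 0 ≤ K := (hhpos 0 ⟨le_rfl, hs.le⟩ 0).le.trans (hK 0 ⟨le_rfl, hs.le⟩)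
  have hthb : ∀ t ∈ Icc 0 s, ∀ x, |th g (gstep g t F) x| ≤ B * K := by
    intro t ht x
    rw [th, abs_mul, abs_of_pos (hhpos t ht x)]
    have h1 : hf g (gstep g t F) x ≤ K :=
      (hhf t ht 0 x (by simp)).trans (hK t ht)
    exact mul_le_mul (hB1 t ht x) h1 (hhpos t ht x).le hB0
  have hthn : ∀ t ∈ Icc 0 s, ∀ x, 0 ≤ th g (gstep g t F) x :=
    fun t ht x => mul_nonneg (hbet t ht x) (hhpos t ht x).le
  have hrefl : ∀ x : ℝ, HasDerivAt (fun x : ℝ => 2 * a - x) (-1) x := by
    intro x
    simpa using (hasDerivAt_id x).const_sub (2 * a)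
  have habs : ∀ x : ℝ, a ≤ x → |2 * a - x| ≤ |x| := by
    intro x hx
    rw [abs_of_pos (ha.trans_le hx), abs_le]
    constructor <;> linarith
  have main := maxp_half (S := s) (B := 2 * (B * K)) (a := a)
    (w := fun t x => th g (gstep g t F) (2 * a - x) - th g (gstep g t F) x)
    (ws := fun t x => (1 / 2 * theta_pp g (gstep g t F) (2 * a - x)
        - bet g (gstep g t F) (2 * a - x) * th g (gstep g t F) (2 * a - x))
        - (1 / 2 * theta_pp g (gstep g t F) x - bet g (gstep g t F) x * th g (gstep g t F) x))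
    (wx := fun t x => theta_p g (gstep g t F) (2 * a - x) * (-1) - theta_p g (gstep g t F) x)
    (wxx := fun t x => theta_pp g (gstep g t F) (2 * a - x) * (-1) * (-1)
        - theta_pp g (gstep g t F) x)
    (b := fun _ _ => 0)
    (c := fun t x => -((th g (gstep g t F) (2 * a - x) + th g (gstep g t F) x)
        / hf g (gstep g t F) (2 * a - x)))
    hs ?_ ?_ ?_ ?_ ?_ ?_ ?_ ?_ ?_ ?_
  · have := main s ⟨hs.le, le_rfl⟩ x hx
    linarith
  · -- continuity
    have hc := theta_cont hA hg hg1 s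
    refine ContinuousOn.sub ?_ ?_
    · refine hc.comp (f := fun p : ℝ × ℝ => (p.1, 2 * a - p.2)) ?_ ?_
      · exact (by fun_prop : Continuous fun p : ℝ × ℝ => (p.1, 2 * a - p.2)).continuousOn
      · rintro ⟨t, y⟩ ⟨ht, -⟩
        exact ⟨ht, mem_univ _⟩
    · exact hc.mono (prod_mono Subset.rfl (subset_univ _))
  · intro t ht x _
    refine (abs_sub _ _).trans ?_
    have h1 := hthb t ht (2 * a - x)
    have h2 := hthb t ht x
    linarith
  · intro t ht x _
    have ht' : t ∈ Icc 0 s := ⟨ht.1.le, ht.2.le⟩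
    exact (theta_s hA.smb hg ht.1 ((hst t ht').pos _)).sub
      (theta_s hA.smb hg ht.1 ((hst t ht').pos _))
  · intro t ht x _
    have ht' : t ∈ Icc 0 s := ⟨ht.1.le, ht.2.le⟩
    exact ((theta_hasDerivAt (hsm t) ((hst t ht').pos (2 * a - x)) g).comp x (hrefl x)).sub
      (theta_hasDerivAt (hsm t) ((hst t ht').pos x) g)
  · intro t ht x _
    have ht' : t ∈ Icc 0 s := ⟨ht.1.le, ht.2.le⟩
    exact ((((theta_p_hasDerivAt (hsm t) ((hst t ht').pos (2 * a - x)) g).comp x
      (hrefl x)).mul_const (-1))).sub (theta_p_hasDerivAt (hsm t) ((hst t ht').pos x) g)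
  · intro t ht x _
    simpa using mul_nonneg hB0 hK0
  · intro t ht x _
    have ht' : t ∈ Icc 0 s := ⟨ht.1.le, ht.2.le⟩
    have h1 := hthn t ht' (2 * a - x)
    have h2 := hthn t ht' x
    have h3 := hhpos t ht' (2 * a - x)
    have h4 : 0 ≤ (th g (gstep g t F) (2 * a - x) + th g (gstep g t F) x)
        / hf g (gstep g t F) (2 * a - x) := by positivity
    have h5 := mul_nonneg hB0 hK0
    linarith
  · intro t ht x hax
    have ht' : t ∈ Icc 0 s := ⟨ht.1.le, ht.2.le⟩
    have h3 := hhpos t ht' (2 * a - x)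
    have h4 := hhpos t ht' x
    have h5 := hhf t ht' (2 * a - x) x (habs x hax.le)
    have e1 : bet g (gstep g t F) (2 * a - x) * th g (gstep g t F) (2 * a - x)
        = th g (gstep g t F) (2 * a - x) ^ 2 / hf g (gstep g t F) (2 * a - x) := by
      rw [th]; field_simp
    have e2 : th g (gstep g t F) x ^ 2 / hf g (gstep g t F) (2 * a - x) ≤
        bet g (gstep g t F) x * th g (gstep g t F) x := by
      have : bet g (gstep g t F) x * th g (gstep g t F) x
        = th g (gstep g t F) x ^ 2 / hf g (gstep g t F) x := by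
        rw [th]; field_simp
      rw [this]
      exact div_le_div_of_nonneg_left (sq_nonneg _) h4 h5
    have e3 : -((th g (gstep g t F) (2 * a - x) + th g (gstep g t F) x)
        / hf g (gstep g t F) (2 * a - x))
          * (th g (gstep g t F) (2 * a - x) - th g (gstep g t F) x)
        = th g (gstep g t F) x ^ 2 / hf g (gstep g t F) (2 * a - x)
          - th g (gstep g t F) (2 * a - x) ^ 2 / hf g (gstep g t F) (2 * a - x) := by
      field_simp
      ring
    rw [e3, e1]
    linarith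
  · intro x hax
    rw [gstep_zero hg.ne']
    linarith [hth0 (2 * a - x) x (habs x hax)]
  · intro t ht
    have : 2 * a - a = a := by ring
    rw [this]
    linarith

theorem betp_step (h : Good g C F) (hg : 0 < g) (hg1 : g ≤ 1) {s : ℝ} (hs : 0 ≤ s) :
    ∀ x, 0 ≤ x → betp g (gstep g s F) x ≤ Yf g (gstep g s F) x * bet g (gstep g s F) x := by
  rcases hs.eq_or_lt with rfl | hs0
  · intro x hx
    rw [gstep_zero hg.ne']
    exact h.betp_le x hx
  intro x hx
  have hst := h.adm.step hg hg1 hs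
  have hd := theta_hasDerivAt hst.smb (hst.pos x) g
  have hle : ∀ y, x < y → th g (gstep g s F) y ≤ th g (gstep g s F) x := by
    intro y hy
    have := theta_reflect h hg hg1 hs0 (a := (x + y) / 2) (by linarith) (x := y) (by linarith)
    have e : 2 * ((x + y) / 2) - y = x := by ring
    rwa [e] at this
  have hneg : theta_p g (gstep g s F) x ≤ 0 := by
    have h1 := (hasDerivAt_iff_tendsto_slope.1 hd).mono_left
      (nhdsWithin_mono x (fun y (hy : y ∈ Ioi x) => (ne_of_gt hy : y ≠ x)))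
    refine le_of_tendsto h1 ?_
    filter_upwards [self_mem_nhdsWithin] with y hy
    rw [slope_def_field]
    exact div_nonpos_of_nonpos_of_nonneg (by linarith [hle y hy]) (by
      have : x < y := hy
      linarith)
  rw [theta_p] at hneg
  have hp := theta_hf_pos (hst.pos x) g
  by_contra hcon
  rw [not_le] at hcon
  have : 0 < (betp g (gstep g s F) x - Yf g (gstep g s F) x * bet g (gstep g s F) x)
      * hf g (gstep g s F) x := mul_pos (by linarith) hp
  linarith

end Vale.Agent.P146.Gap
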