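import Vale.Agent.P146.Gap.GoodBasic
import Vale.Agent.P146.Gap.ThetaStep

/-!
# P146 / Gap: the invariant class `Good`, one step of the recursion and cascades
-/

open MeasureTheory ProbabilityTheory Filter Topology Set

namespace Vale.Agent.P146.Gap

open Vale.Agent.P157.Par

section GOOD

open GoodX

variable {C g g' : ℝ} {F : ℝ → ℝ}

theorem good_lc : Good 1 2 lc :=
  ⟨adm_lc, fun x => (good_bet_lc x).ge, fun x _ => by rw [good_bet_lc, good_betp_lc, mul_zero]⟩

theorem Good.mono_C {C' : ℝ} (h : Good g C F) (hC : C ≤ C') : Good g C' F :=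
  ⟨h.adm.mono_C hC, h.bet_nonneg, h.betp_le⟩

theorem Good.step (h : Good g C F) (hg' : 0 < g') (hgg : g' ≤ g) (hg1 : g ≤ 1) {s : ℝ}
    (hs : 0 ≤ s) : Good g' (C * Real.exp (2 * g' * s)) (gstep g' s F) := by
  have h1 := h.lower hg' hgg
  have hg'1 : g' ≤ 1 := hgg.trans hg1
  exact ⟨h1.adm.step hg' hg'1 hs, bet_step h1.adm h1.bet_nonneg hg' hg'1 hs,
    betp_step h1 hg' hg'1 hs⟩

/-- The functions of the recursion are good. -/
theorem good_cascade {c : ℕ} {m r : ℕ → ℝ} (h : Good g C F) (hg1 : g ≤ 1)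
    (hm0 : ∀ l, 1 ≤ l → l ≤ c → 0 < m l) (hmm : ∀ l, 1 ≤ l → l < c → m l ≤ m (l + 1))
    (hmg : ∀ l, 1 ≤ l → l ≤ c → m l ≤ g) (hr : ∀ l < c, r l ≤ r (l + 1)) :
    Good (if c = 0 then g else m 1) (C * Real.exp (2 * (r c - r 0))) (cascade m r c F) := by
  induction c generalizing F C g with
  | zero =>
    have e : cascade m r 0 F = F := by
      have h1 := @cascade.eq_1
      have h2 := @cascade.eq_def
      simp only [cascade]
    rw [e, if_pos rfl, sub_self, mul_zero, Real.exp_zero, mul_one]
    exact h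
  | succ c ih =>
    have hv : 0 ≤ r (c + 1) - r c := sub_nonneg.2 (hr c (Nat.lt_succ_self c))
    have hmc := hm0 (c + 1) (by omega) le_rfl
    have hmg' := hmg (c + 1) (by omega) le_rfl
    have hm1 : m (c + 1) ≤ 1 := hmg'.trans hg1
    have h1 := h.step hmc hmg' hg1 hv
    have hchain' : ∀ n l, 1 ≤ l → l + n ≤ c + 1 → m l ≤ m (l + n) := by
      intro n
      induction n with
      | zero => exact fun l _ _ => le_rfl
      | succ n ihn =>
        intro l hl hln
        exact (ihn l hl (by omega)).trans (hmm (l + n) (by omega) (by omega))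
    have hchain : ∀ l, 1 ≤ l → l ≤ c + 1 → m l ≤ m (c + 1) := by
      intro l hl hlc
      have := hchain' (c + 1 - l) l hl (by omega)
      rwa [Nat.add_sub_cancel' hlc] at this
    have h2 := ih h1 hm1 (fun l a b => hm0 l a (by omega)) (fun l a b => hmm l a (by omega))
      (fun l a b => hchain l a (by omega)) (fun l a => hr l (by omega))
    rw [cascade_succ_def, if_neg (Nat.succ_ne_zero c)]
    have e : (if c = 0 then m (c + 1) else m 1) = m 1 := by
      split_ifs with hc
      · rw [hc]
      · rfl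
    rw [e] at h2
    refine h2.mono_C ?_
    rw [mul_assoc, ← Real.exp_add]
    refine mul_le_mul_of_nonneg_left (Real.exp_le_exp.2 ?_) h.adm.C_nonneg
    nlinarith

end GOOD

end Vale.Agent.P146.Gap
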