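import Vale.Agent.P146.Gap.Ex
import Vale.Agent.P146.Gap.GoodStep
import Vale.Agent.P157.ParSp1
import Vale.Agent.P157.ParClose

/-! MINB: minimisers over the paths for given exponents. -/

open MeasureTheory ProbabilityTheory Filter Topology Set

namespace Vale.Agent.P146.Gap

open Vale.Agent.P157.Par

/-- Paths from `0` to at most `b²`. -/
def BPath (b : ℝ) (k : ℕ) (r : ℕ → ℝ) : Prop := r 0 = 0 ∧ Path k r ∧ r k ≤ b ^ 2

/-! ### Cascades -/

lemma minb_split (m r : ℕ → ℝ) (a c : ℕ) (F : ℝ → ℝ) :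
    cascade m r (a + c) F =
      cascade m r a (cascade (fun l => m (a + l)) (fun l => r (a + l)) c F) := by
  induction c generalizing F with
  | zero => rfl
  | succ c ih =>
    rw [← Nat.add_assoc, cascade_succ_def, cascade_succ_def, ih]
    rfl

lemma minb_congr {m m' r r' : ℕ → ℝ} {c : ℕ} (hm : ∀ l, 1 ≤ l → l ≤ c → m l = m' l)
    (hr : ∀ l ≤ c, r l = r' l) (F : ℝ → ℝ) : cascade m r c F = cascade m' r' c F := by
  induction c generalizing F with
  | zero => rfl
  | succ c ih =>
    rw [cascade_succ_def, cascade_succ_def, hm (c + 1) (by omega) le_rfl, hr (c + 1) le_rfl,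
      hr c (by omega), ih (fun l h1 h2 => hm l h1 (by omega)) (fun l h => hr l (by omega))]

lemma minb_flat {m r : ℕ → ℝ} {c : ℕ} (hm : ∀ l, 1 ≤ l → l ≤ c → m l ≠ 0)
    (hr : ∀ l ≤ c, r l = r 0) (F : ℝ → ℝ) : cascade m r c F = F := by
  induction c generalizing F with
  | zero => rfl
  | succ c ih =>
    rw [cascade_succ_def, hr (c + 1) le_rfl, hr c (by omega), sub_self,
      gstep_zero (hm (c + 1) (by omega) le_rfl),
      ih (fun l h1 h2 => hm l h1 (by omega)) (fun l h => hr l (by omega))]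

/-- the block of the levels `0..p`, constant before `p` -/
lemma minb_block {m r : ℕ → ℝ} {p : ℕ} (hp : 1 ≤ p) (hm : ∀ l, 1 ≤ l → l ≤ p → m l ≠ 0)
    (hr : ∀ l < p, r l = r 0) (F : ℝ → ℝ) : cascade m r p F = gstep (m p) (r p - r 0) F := by
  obtain ⟨c, rfl⟩ : ∃ c, p = c + 1 := ⟨p - 1, by omega⟩
  rw [cascade_succ_def, hr c (by omega),
    minb_flat (fun l h1 h2 => hm l h1 (by omega)) (fun l h => hr l (by omega))]

/-! ### Admissible functions -/

lemma minb_ec {C : ℝ} {F : ℝ → ℝ} (h : Adm C F) :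
    Ec F (iteratedDeriv 1 F) (iteratedDeriv 2 F) := by
  have hs := h.smb.smooth
  have hdf : ∀ n : ℕ, Differentiable ℝ (iteratedDeriv n F) := fun n =>
    hs.differentiable_iteratedDeriv n (by exact_mod_cast WithTop.coe_lt_top _)
  have hd : ∀ n : ℕ, ∀ x, HasDerivAt (iteratedDeriv n F) (iteratedDeriv (n + 1) F x) x := by
    intro n x
    rw [iteratedDeriv_succ]
    exact (hdf n x).hasDerivAt
  refine ⟨fun x => ?_, fun x => hd 1 x, ?_, h.even, fun x => (h.pos x).le, fun x => ?_⟩
  · have := hd 0 x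
    rwa [iteratedDeriv_zero] at this
  · exact (hdf 2).continuous
  · exact h.le1 x

lemma minb_gstep_const {C g : ℝ} {F : ℝ → ℝ} (h : Adm C F) (hg : 0 < g) (v c : ℝ) :
    gstep g v (fun x => F x + c) = fun x => gstep g v F x + c := by
  funext x
  unfold gstep
  have h1 : ∀ z : ℝ, Real.exp (g * (F (x + √v * z) + c)) =
      Real.exp (g * c) * Real.exp (g * F (x + √v * z)) := by
    intro z
    rw [← Real.exp_add]
    congr 1
    ring
  simp only [h1]
  have hpos := (minb_ec h).sm.int_exp_pos g v x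
  rw [integral_const_mul, Real.log_mul (Real.exp_pos _).ne' hpos.ne', Real.log_exp]
  field_simp
  ring

lemma minb_cascade_const {m r : ℕ → ℝ} {c : ℕ} (hm0 : ∀ l, 1 ≤ l → l ≤ c → 0 < m l)
    (hm1 : ∀ l, 1 ≤ l → l ≤ c → m l ≤ 1) (hr : ∀ l < c, r l ≤ r (l + 1)) {C : ℝ} {F : ℝ → ℝ}
    (h : Adm C F) (e : ℝ) :
    cascade m r c (fun x => F x + e) = fun x => cascade m r c F x + e := by
  induction c generalizing F C with
  | zero => rfl
  | succ c ih =>
    rw [cascade_succ_def, minb_gstep_const h (hm0 (c + 1) (by omega) le_rfl), cascade_succ_def]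
    exact ih (fun l h1 h2 => hm0 l h1 (by omega)) (fun l h1 h2 => hm1 l h1 (by omega))
      (fun l hl => hr l (by omega))
      (h.step (hm0 (c + 1) (by omega) le_rfl) (hm1 (c + 1) (by omega) le_rfl)
        (sub_nonneg.2 (hr c (by omega))))

lemma minb_cascade_lip {m r r' : ℕ → ℝ} {c : ℕ} (hm0 : ∀ l, 1 ≤ l → l ≤ c → 0 < m l)
    (hm1 : ∀ l, 1 ≤ l → l ≤ c → m l ≤ 1) (hr : ∀ l < c, r l ≤ r (l + 1))
    (hr' : ∀ l < c, r' l ≤ r' (l + 1)) {C C' e : ℝ} {F G : ℝ → ℝ}
    (hF : Adm C F) (hG : Adm C' G) (hFG : ∀ x, |F x - G x| ≤ e) (x : ℝ) :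
    |cascade m r c F x - cascade m r' c G x| ≤
      e + 1 / 2 * ∑ l ∈ Finset.range c, |(r (l + 1) - r l) - (r' (l + 1) - r' l)| := by
  induction c generalizing F G C C' e with
  | zero =>
    simp only [Finset.range_zero, Finset.sum_empty, mul_zero, add_zero]
    exact hFG x
  | succ c ih =>
    have g0 := hm0 (c + 1) (by omega) le_rfl
    have g1 := hm1 (c + 1) (by omega) le_rfl
    have d1 := sub_nonneg.2 (hr c (by omega))
    have d2 := sub_nonneg.2 (hr' c (by omega))
    rw [cascade_succ_def, cascade_succ_def, Finset.sum_range_succ]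
    have := ih (fun l h1 h2 => hm0 l h1 (by omega)) (fun l h1 h2 => hm1 l h1 (by omega))
      (fun l hl => hr l (by omega)) (fun l hl => hr' l (by omega))
      (hF.step g0 g1 d1) (hG.step g0 g1 d2)
      (e := e + 1 / 2 * |(r (c + 1) - r c) - (r' (c + 1) - r' c)|) (fun y => by
        have a1 := gstep_var_lip hF g0 g1 d1 d2 y
        have a2 := gstep_nonexp hF hG g0 (r' (c + 1) - r' c) hFG y
        calc _ = |(gstep (m (c + 1)) (r (c + 1) - r c) F y
                - gstep (m (c + 1)) (r' (c + 1) - r' c) F y)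
              + (gstep (m (c + 1)) (r' (c + 1) - r' c) F y
                - gstep (m (c + 1)) (r' (c + 1) - r' c) G y)| := by congr 1; ring
          _ ≤ _ := abs_add_le _ _
          _ ≤ _ := by linarith)
    linarith

/-! ### Paths -/

lemma minb_exp {k : ℕ} {m : ℕ → ℝ} (hm : Exponents k m) :
    (∀ i j, i ≤ j → j ≤ k + 1 → m i ≤ m j) ∧ (∀ l, 1 ≤ l → l ≤ k + 1 → 0 < m l) ∧
      (∀ l, l ≤ k + 1 → m l ≤ 1) := by
  obtain ⟨h0, h1, h2⟩ := hm
  have hmono : ∀ i j, i ≤ j → j ≤ k + 1 → m i ≤ m j := by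
    intro i j hij
    induction j, hij using Nat.le_induction with
    | base => intro _; exact le_rfl
    | succ j hij ih => intro hj; exact (ih (by omega)).trans (h2 j (by omega)).le
  refine ⟨hmono, fun l h3 h4 => ?_, fun l hl => ?_⟩
  · have h5 := h2 0 (by omega)
    rw [h0] at h5
    exact h5.trans_le (hmono 1 l h3 h4)
  · rw [← h1]; exact hmono l (k + 1) hl le_rfl

lemma minb_mono {n : ℕ} {r : ℕ → ℝ} (hr : ∀ l < n, r l ≤ r (l + 1)) {i j : ℕ} (hij : i ≤ j)
    (hj : j ≤ n) : r i ≤ r j := by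
  induction j, hij using Nat.le_induction with
  | base => exact le_rfl
  | succ j hij ih => exact (ih (by omega)).trans (hr j (by omega))

lemma minb_spin {k : ℕ} {m r : ℕ → ℝ} (h0 : r 0 = 0) :
    spinPart k m r = cascade m r k lc 0 - r k / 2 := by
  unfold spinPart
  rw [h0]
  simp only [Real.sqrt_zero, zero_mul]
  rw [integral_const]
  simp
  rfl

/-- extended path -/
noncomputable def minbExt (b : ℝ) (k : ℕ) (r : ℕ → ℝ) : ℕ → ℝ := fun l => if l ≤ k then r l else b ^ 2

/-- functional on the extended paths -/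
noncomputable def minbJ (b : ℝ) (k : ℕ) (m R : ℕ → ℝ) : ℝ :=
  cascade m R (k + 1) lc 0
    + (∑ l ∈ Finset.range (k + 1), (m (l + 1) - m l) * R l ^ 2) / (4 * b ^ 2)

/-- extended paths -/
def MinbP (b : ℝ) (k : ℕ) (R : ℕ → ℝ) : Prop :=
  R 0 = 0 ∧ (∀ l < k + 1, R l ≤ R (l + 1)) ∧ R (k + 1) = b ^ 2

lemma MinbP.bpath {b : ℝ} {k : ℕ} {R : ℕ → ℝ} (h : MinbP b k R) : BPath b k R :=
  ⟨h.1, ⟨h.1.ge, fun l hl => h.2.1 l (by omega)⟩, h.2.2 ▸ h.2.1 k (by omega)⟩

lemma minb_ext_P {b : ℝ} {k : ℕ} {r : ℕ → ℝ} (h : BPath b k r) : MinbP b k (minbExt b k r) := by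
  obtain ⟨h0, ⟨-, h1⟩, h2⟩ := h
  refine ⟨by simp [minbExt, h0], fun l hl => ?_, by simp [minbExt]⟩
  unfold minbExt
  by_cases hlk : l < k
  · rw [if_pos hlk.le, if_pos (by omega)]; exact h1 l hlk
  · have : l = k := by omega
    subst this
    rw [if_pos le_rfl, if_neg (by omega)]; exact h2

lemma minb_SKr_congr {b : ℝ} {k : ℕ} {m r r' : ℕ → ℝ} (h : ∀ l ≤ k, r l = r' l) :
    SKr b k m r = SKr b k m r' := by
  unfold SKr spinPart
  rw [h 0 (by omega), h k le_rfl, minb_congr (fun _ _ _ => rfl) h]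
  congr 2
  refine Finset.sum_congr rfl fun l hl => ?_
  rw [h l (by simpa [Nat.lt_succ_iff] using hl)]

lemma minb_lc_step {v : ℝ} (hv : 0 ≤ v) : gstep 1 v lc = fun x => lc x + v / 2 :=
  funext fun x => gstep_one_logcosh hv x

lemma minb_top {k : ℕ} {m R : ℕ → ℝ} (hm : Exponents k m) (hR : ∀ l < k + 1, R l ≤ R (l + 1))
    {j : ℕ} (hj : j ≤ k) :
    cascade (fun l => m (j + l)) (fun l => R (j + l)) (k + 1 - j) lc =
      fun x => cascade (fun l => m (j + l)) (fun l => R (j + l)) (k - j) lc x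
        + (R (k + 1) - R k) / 2 := by
  obtain ⟨-, e0, e1⟩ := minb_exp hm
  have h1 : k + 1 - j = (k - j) + 1 := by omega
  rw [h1, cascade_succ_def]
  have h2 : j + (k - j + 1) = k + 1 := by omega
  have h3 : j + (k - j) = k := by omega
  simp only [h2, h3]
  rw [hm.2.1, minb_lc_step (sub_nonneg.2 (hR k (by omega)))]
  exact minb_cascade_const (fun l h1 h2 => e0 _ (by omega) (by omega))
    (fun l h1 h2 => e1 _ (by omega)) (fun l hl => by
      have := hR (j + l) (by omega)
      simpa [Nat.add_assoc] using this) adm_lc _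

lemma minb_SKr_eq {b : ℝ} {k : ℕ} {m R : ℕ → ℝ} (hm : Exponents k m)
    (h : MinbP b k R) : SKr b k m R = minbJ b k m R - b ^ 2 / 4 := by
  have h1 := minb_top (j := 0) hm h.2.1 (by omega)
  simp only [Nat.zero_add, Nat.sub_zero] at h1
  unfold SKr minbJ
  rw [minb_spin h.1]
  have h2 := congrFun h1 0
  have e1 : (fun l => m l) = m := rfl
  have e2 : (fun l => R l) = R := rfl
  rw [e1, e2, h.2.2] at h2
  rw [h2]
  ring

lemma minb_min_ext {b : ℝ} {k : ℕ} {m r : ℕ → ℝ} (hm : Exponents k m) (hr : BPath b k r)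
    (hmin : ∀ r', BPath b k r' → SKr b k m r ≤ SKr b k m r') {R' : ℕ → ℝ} (h : MinbP b k R') :
    minbJ b k m (minbExt b k r) ≤ minbJ b k m R' := by
  have h1 := hmin R' h.bpath
  have h2 : SKr b k m r = SKr b k m (minbExt b k r) :=
    minb_SKr_congr fun l hl => by simp [minbExt, hl]
  rw [h2, minb_SKr_eq hm (minb_ext_P hr), minb_SKr_eq hm h] at h1
  linarith

/-! ### Modification of one block -/

/-- modified path -/
noncomputable def minbMod (j p : ℕ) (c : ℝ) (R : ℕ → ℝ) : ℕ → ℝ :=
  fun l => if j ≤ l ∧ l < p then c else R l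

lemma minb_mod_P {b : ℝ} {k j p : ℕ} {c : ℝ} {R : ℕ → ℝ} (h : MinbP b k R) (hj : 1 ≤ j)
    (hjp : j < p) (hp : p ≤ k + 1) (h0 : ∀ l < j, R l = 0) (hc : 0 ≤ c) (hcp : c ≤ R p) :
    MinbP b k (minbMod j p c R) := by
  refine ⟨?_, fun l hl => ?_, ?_⟩
  · unfold minbMod; rw [if_neg (by omega)]; exact h.1
  · unfold minbMod
    by_cases h1 : j ≤ l ∧ l < p
    · rw [if_pos h1]
      by_cases h2 : l + 1 < p
      · rw [if_pos (by omega)]
      · rw [if_neg (by omega)]
        have : l + 1 = p := by omega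
        rw [this]; exact hcp
    · rw [if_neg h1]
      by_cases h2 : j ≤ l + 1 ∧ l + 1 < p
      · rw [if_pos h2, h0 l (by omega)]; exact hc
      · rw [if_neg h2]; exact h.2.1 l hl
  · unfold minbMod; rw [if_neg (by omega)]; exact h.2.2

lemma minb_two {k j p : ℕ} {m R : ℕ → ℝ} (hm : Exponents k m) (hj : 1 ≤ j)
    (hjp : j < p) (hp : p ≤ k + 1) (h0 : ∀ l < j, R l = 0) (h1 : ∀ l, j ≤ l → l < p → R l = R j) :
    cascade m R (k + 1) lc = gstep (m j) (R j) (gstep (m p) (R p - R j)
      (cascade (fun l => m (p + l)) (fun l => R (p + l)) (k + 1 - p) lc)) := by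
  obtain ⟨-, e0, e1⟩ := minb_exp hm
  have hk : k + 1 = p + (k + 1 - p) := by omega
  conv_lhs => rw [hk, minb_split]
  have hp' : p = j + (p - j) := by omega
  generalize cascade (fun l => m (p + l)) (fun l => R (p + l)) (k + 1 - p) lc = G
  conv_lhs => rw [hp', minb_split]
  rw [minb_block (p := p - j) (by omega) (fun l h1 h2 => (e0 _ (by omega) (by omega)).ne')
    (fun l hl => by
      simp only [Nat.add_zero]
      exact h1 (j + l) (by omega) (by omega))]
  rw [minb_block hj (fun l h1 h2 => (e0 _ (by omega) (by omega)).ne')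
    (fun l hl => by rw [h0 l hl, h0 0 (by omega)])]
  simp only [Nat.add_zero]
  rw [← hp', h0 0 (by omega), sub_zero]

lemma minb_sum {k j p : ℕ} {m R : ℕ → ℝ} {c : ℝ} (hjp : j < p) (hp : p ≤ k + 1)
    (h1 : ∀ l, j ≤ l → l < p → R l = R j) :
    ∑ l ∈ Finset.range (k + 1), (m (l + 1) - m l) * minbMod j p c R l ^ 2 =
      ∑ l ∈ Finset.range (k + 1), (m (l + 1) - m l) * R l ^ 2 +
        (m p - m j) * (c ^ 2 - R j ^ 2) := by
  have h2 : ∀ l ∈ Finset.range (k + 1), (m (l + 1) - m l) * minbMod j p c R l ^ 2 =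
      (m (l + 1) - m l) * R l ^ 2 +
        if j ≤ l ∧ l < p then (m (l + 1) - m l) * (c ^ 2 - R j ^ 2) else 0 := by
    intro l _
    unfold minbMod
    by_cases h : j ≤ l ∧ l < p
    · rw [if_pos h, if_pos h, h1 l h.1 h.2]; ring
    · rw [if_neg h, if_neg h]; ring
  rw [Finset.sum_congr rfl h2, Finset.sum_add_distrib]
  congr 1
  rw [← Finset.sum_filter]
  have h3 : (Finset.range (k + 1)).filter (fun l => j ≤ l ∧ l < p) = Finset.Ico j p := by
    ext l
    simp only [Finset.mem_filter, Finset.mem_range, Finset.mem_Ico]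
    constructor
    · exact fun h => h.2
    · exact fun h => ⟨by omega, h⟩
  rw [h3, ← Finset.sum_mul, Finset.sum_Ico_sub _ hjp.le]

/-- comparison with a competitor -/
lemma minb_comp {b : ℝ} {k j p : ℕ} {m R : ℕ → ℝ} {c : ℝ} (hm : Exponents k m)
    (h : MinbP b k R) (hmin : ∀ R', MinbP b k R' → minbJ b k m R ≤ minbJ b k m R') (hj : 1 ≤ j)
    (hjp : j < p) (hp : p ≤ k + 1) (h0 : ∀ l < j, R l = 0) (h1 : ∀ l, j ≤ l → l < p → R l = R j)
    (hc : 0 ≤ c) (hcp : c ≤ R p) :
    gstep (m j) (R j) (gstep (m p) (R p - R j)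
      (cascade (fun l => m (p + l)) (fun l => R (p + l)) (k + 1 - p) lc)) 0 ≤
    gstep (m j) c (gstep (m p) (R p - c)
      (cascade (fun l => m (p + l)) (fun l => R (p + l)) (k + 1 - p) lc)) 0 +
      (m p - m j) * (c ^ 2 - R j ^ 2) / (4 * b ^ 2) := by
  have h2 := hmin _ (minb_mod_P h hj hjp hp h0 hc hcp)
  unfold minbJ at h2
  rw [minb_sum hjp hp h1, minb_two hm hj hjp hp h0 h1] at h2
  have e1 : ∀ l < j, minbMod j p c R l = 0 := by
    intro l hl; unfold minbMod; rw [if_neg (by omega)]; exact h0 l hl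
  have e2 : minbMod j p c R j = c := by unfold minbMod; rw [if_pos (by omega)]
  have e3 : ∀ l, j ≤ l → l < p → minbMod j p c R l = minbMod j p c R j := by
    intro l h3 h4; rw [e2]; unfold minbMod; rw [if_pos (by omega)]
  have e4 : ∀ l, minbMod j p c R (p + l) = R (p + l) := by
    intro l; unfold minbMod; rw [if_neg (by omega)]
  have e5 : minbMod j p c R p = R p := e4 0
  rw [minb_two hm hj hjp hp e1 e3] at h2
  simp only [e4] at h2
  rw [e2, e5] at h2
  rw [add_div] at h2
  linarith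

/-- First block of a path which is not zero: `j` is the first index with `r j > 0`; `F` is the
function above the first block. -/
theorem first_block {b : ℝ} (hb : 0 < b) {k : ℕ} {m : ℕ → ℝ} (hm : Exponents k m) {r : ℕ → ℝ}
    (hr : BPath b k r) (hmin : ∀ r', BPath b k r' → SKr b k m r ≤ SKr b k m r')
    (hne : 0 < r k) :
    ∃ (j : ℕ) (F : ℝ → ℝ), 1 ≤ j ∧ j ≤ k ∧ 0 < r j ∧
      Good (m (j + 1)) (2 * Real.exp (2 * b ^ 2)) F ∧
      cascade m r k lc = gstep (m j) (r j) F ∧
      gstep (m j) (r j) F 0 - m j * r j ^ 2 / (4 * b ^ 2) ≤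
        gstep (m (j + 1)) (r j) F 0 - m (j + 1) * r j ^ 2 / (4 * b ^ 2) ∧
      (r j = b ^ 2 ∨ ∃ (g₂ v : ℝ) (F₂ : ℝ → ℝ), m j < g₂ ∧ g₂ ≤ 1 ∧ 0 < v ∧
        Adm (2 * Real.exp (2 * b ^ 2)) F₂ ∧
        (∃ c : ℝ, ∀ x, F x = gstep g₂ v F₂ x + c) ∧
        ∀ τ ∈ Ioo 0 v, gstep (m j) (r j) (gstep g₂ v F₂) 0
            - (m j - g₂) * r j ^ 2 / (4 * b ^ 2) ≤
          gstep (m j) (r j + τ) (gstep g₂ (v - τ) F₂) 0
            - (m j - g₂) * (r j + τ) ^ 2 / (4 * b ^ 2)) := by
  classical
  obtain ⟨emono, e0, e1⟩ := minb_exp hm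
  set R := minbExt b k r with hRdef
  have hP : MinbP b k R := minb_ext_P hr
  have hRmin : ∀ R', MinbP b k R' → minbJ b k m R ≤ minbJ b k m R' :=
    fun R' h => minb_min_ext hm hr hmin h
  have hRr : ∀ l ≤ k, R l = r l := fun l hl => by simp [hRdef, minbExt, hl]
  have hmonoR : ∀ i j, i ≤ j → j ≤ k + 1 → R i ≤ R j := fun i j h1 h2 => minb_mono hP.2.1 h1 h2
  -- first index
  have hex : ∃ l, 0 < R l := ⟨k, by rw [hRr k le_rfl]; exact hne⟩
  set j := Nat.find hex with hj
  have hRj : 0 < R j := Nat.find_spec hex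
  have hjk : j ≤ k := Nat.find_min' hex (by rw [hRr k le_rfl]; exact hne)
  have h0 : ∀ l < j, R l = 0 := by
    intro l hl
    have h1 := Nat.find_min hex hl
    have h2 := hmonoR 0 l (by omega) (by omega)
    rw [hP.1] at h2
    linarith [not_lt.1 h1]
  have hj1 : 1 ≤ j := by
    by_contra h
    have : j = 0 := by omega
    rw [this, hP.1] at hRj
    exact lt_irrefl _ hRj
  -- constants
  have hgoodR : ∀ i n : ℕ, i + n ≤ k + 1 →
      Good (if n = 0 then 1 else m (i + 1)) (2 * Real.exp (2 * b ^ 2))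
        (cascade (fun l => m (i + l)) (fun l => R (i + l)) n lc) := by
    intro i n hin
    have h1 := good_cascade (c := n) (m := fun l => m (i + l)) (r := fun l => R (i + l)) good_lc
      le_rfl (fun l h1 h2 => e0 _ (by omega) (by omega))
      (fun l h1 h2 => emono _ _ (by omega) (by omega))
      (fun l h1 h2 => e1 _ (by omega)) (fun l hl => hP.2.1 _ (by omega))
    refine h1.mono_C ?_
    have h2 := hmonoR (i + n) (k + 1) hin le_rfl
    have h3 := hmonoR 0 (i + 0) (by omega) (by omega)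
    rw [hP.2.2] at h2
    rw [hP.1] at h3
    gcongr
    linarith
  have hadmR : ∀ i n : ℕ, i + n ≤ k + 1 → Adm (2 * Real.exp (2 * b ^ 2))
      (cascade (fun l => m (i + l)) (fun l => R (i + l)) n lc) := fun i n h => (hgoodR i n h).adm
  set F := cascade (fun l => m (j + l)) (fun l => R (j + l)) (k - j) lc with hF
  set c₀ := (R (k + 1) - R k) / 2 with hc₀
  have hFh : cascade (fun l => m (j + l)) (fun l => R (j + l)) (k + 1 - j) lc =
      fun x => F x + c₀ := minb_top hm hP.2.1 hjk
  have hmj : 0 < m j := e0 j hj1 (by omega)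
  have hmj1 : 0 < m (j + 1) := e0 (j + 1) (by omega) (by omega)
  have hadmF : Adm (2 * Real.exp (2 * b ^ 2)) F := hadmR j (k - j) (by omega)
  have hrj : r j = R j := (hRr j hjk).symm
  -- one step above `j`
  have hstep : ∀ p, j < p → p ≤ k + 1 → (∀ l, j ≤ l → l < p → R l = R j) →
      cascade (fun l => m (j + l)) (fun l => R (j + l)) (k + 1 - j) lc =
        gstep (m p) (R p - R j)
          (cascade (fun l => m (p + l)) (fun l => R (p + l)) (k + 1 - p) lc) := by
    intro p h1 h2 h3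
    have hk : k + 1 - j = (p - j) + (k + 1 - p) := by omega
    rw [hk, minb_split]
    have hp' : ∀ l, j + (p - j + l) = p + l := fun l => by omega
    simp only [hp']
    rw [minb_block (p := p - j) (by omega) (fun l h4 h5 => (e0 _ (by omega) (by omega)).ne')
      (fun l hl => by
        simp only [Nat.add_zero]
        exact h3 (j + l) (by omega) (by omega))]
    have hp'' : j + (p - j) = p := by omega
    simp only [Nat.add_zero, hp'']
  refine ⟨j, F, hj1, hjk, by rw [hrj]; exact hRj, ?_, ?_, ?_, ?_⟩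
  · have h1 := hgoodR j (k - j) (by omega)
    by_cases h2 : k - j = 0
    · rw [if_pos h2] at h1
      have : j = k := by omega
      have h3 : m (j + 1) = 1 := by rw [this]; exact hm.2.1
      rw [h3]; exact h1
    · rw [if_neg h2] at h1; exact h1
  · rw [minb_congr (r' := R) (fun _ _ _ => rfl) (fun l hl => (hRr l hl).symm)]
    have hk : k = j + (k - j) := by omega
    conv_lhs => rw [hk, minb_split]
    rw [minb_block hj1 (fun l h1 h2 => (e0 _ (by omega) (by omega)).ne')
      (fun l hl => by rw [h0 l hl, h0 0 (by omega)]), h0 0 (by omega), sub_zero, hrj]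
  · -- lowering the first block
    have h1 : ∀ l, j ≤ l → l < j + 1 → R l = R j := fun l h1 h2 => by
      have : l = j := by omega
      rw [this]
    have h2 := minb_comp (p := j + 1) (c := 0) hm hP hRmin hj1 (by omega) (by omega) h0 h1 le_rfl
      (hRj.le.trans (hmonoR j (j + 1) (by omega) (by omega)))
    rw [gstep_zero hmj.ne', sub_zero, ← hstep (j + 1) (by omega) (by omega) h1] at h2
    have h3 := gstep_add (g := m (j + 1)) (v := R j) (v' := R (j + 1) - R j)
      (hadmR (j + 1) (k + 1 - (j + 1)) (by omega)) hmj1 hRj.le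
      (sub_nonneg.2 (hP.2.1 j (by omega)))
    have h4 : R j + (R (j + 1) - R j) = R (j + 1) := by ring
    rw [h4, ← hstep (j + 1) (by omega) (by omega) h1] at h3
    rw [← h3, hFh, minb_gstep_const hadmF hmj, minb_gstep_const hadmF hmj1] at h2
    simp only at h2
    rw [hrj]
    have h5 : (m (j + 1) - m j) * (0 ^ 2 - R j ^ 2) / (4 * b ^ 2) =
        m j * R j ^ 2 / (4 * b ^ 2) - m (j + 1) * R j ^ 2 / (4 * b ^ 2) := by ring
    rw [h5] at h2
    linarith
  · by_cases hjb : r j = b ^ 2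
    · exact Or.inl hjb
    right
    have hlt : R j < R (k + 1) := by
      have h1 := hmonoR j (k + 1) (by omega) le_rfl
      rcases h1.lt_or_eq with h2 | h2
      · exact h2
      · exact absurd (by rw [hrj, h2, hP.2.2]) hjb
    have hex2 : ∃ l, R j < R l := ⟨k + 1, hlt⟩
    set p := Nat.find hex2 with hp
    have hRp : R j < R p := Nat.find_spec hex2
    have hpk : p ≤ k + 1 := Nat.find_min' hex2 hlt
    have hjp : j < p := by
      by_contra h
      have := hmonoR p j (by omega) (by omega)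
      linarith
    have h1 : ∀ l, j ≤ l → l < p → R l = R j := by
      intro l h1 h2
      have h3 := Nat.find_min hex2 h2
      have h4 := hmonoR j l h1 (by omega)
      linarith [not_lt.1 h3]
    have hmp : m j < m p := by
      have := hm.2.2 j hjk
      exact this.trans_le (emono (j + 1) p (by omega) hpk)
    refine ⟨m p, R p - R j,
      cascade (fun l => m (p + l)) (fun l => R (p + l)) (k + 1 - p) lc, hmp, e1 p hpk,
      sub_pos.2 hRp, hadmR p (k + 1 - p) (by omega), ⟨-c₀, fun x => ?_⟩, ?_⟩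
    · rw [← hstep p hjp hpk h1, hFh]
      ring
    · intro τ hτ
      have h2 := minb_comp (p := p) (c := R j + τ) hm hP hRmin hj1 hjp hpk h0 h1
        (by linarith [hτ.1]) (by linarith [hτ.2])
      have h3 : R p - (R j + τ) = R p - R j - τ := by ring
      rw [h3] at h2
      rw [hrj]
      have h5 : (m p - m j) * ((R j + τ) ^ 2 - R j ^ 2) / (4 * b ^ 2) =
        (m j - m p) * R j ^ 2 / (4 * b ^ 2) - (m j - m p) * (R j + τ) ^ 2 / (4 * b ^ 2) := by ring
      rw [h5] at h2
      linarith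

/-! ### Existence of minimisers -/

/-- extension of a finite path -/
noncomputable def minbFin (k : ℕ) (x : Fin (k + 1) → ℝ) : ℕ → ℝ :=
  fun l => if h : l < k + 1 then x ⟨l, h⟩ else 0

lemma minb_fin_cont (k l : ℕ) : Continuous fun x : Fin (k + 1) → ℝ => minbFin k x l := by
  unfold minbFin
  by_cases h : l < k + 1
  · simp only [dif_pos h]; exact continuous_apply _
  · simp only [dif_neg h]; exact continuous_const

lemma minb_fin_dist (k l : ℕ) (x y : Fin (k + 1) → ℝ) :
    |minbFin k x l - minbFin k y l| ≤ dist x y := by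
  unfold minbFin
  by_cases h : l < k + 1
  · simp only [dif_pos h]
    rw [← Real.dist_eq]
    exact dist_le_pi_dist x y _
  · simp only [dif_neg h, sub_zero, abs_zero]
    exact dist_nonneg

theorem exists_min {b : ℝ} (hb : 0 < b) {k : ℕ} {m : ℕ → ℝ} (hm : Exponents k m) :
    ∃ r, BPath b k r ∧ ∀ r', BPath b k r' → SKr b k m r ≤ SKr b k m r' := by
  obtain ⟨emono, e0, e1⟩ := minb_exp hm
  set X : Set (Fin (k + 1) → ℝ) := {x | BPath b k (minbFin k x)} with hX
  have hclosed : IsClosed X := by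
    have h1 : X = {x | minbFin k x 0 = 0} ∩ ({x | 0 ≤ minbFin k x 0} ∩
        (⋂ l : ℕ, ⋂ _ : l < k, {x | minbFin k x l ≤ minbFin k x (l + 1)})) ∩
        {x | minbFin k x k ≤ b ^ 2} := by
      ext x
      simp only [hX, BPath, Vale.Agent.P157.Par.Path, Set.mem_ofPred_eq, mem_inter_iff, mem_iInter]
      tauto
    rw [h1]
    refine IsClosed.inter (IsClosed.inter ?_ (IsClosed.inter ?_ ?_)) ?_
    · exact isClosed_eq (minb_fin_cont k 0) continuous_const
    · exact isClosed_le continuous_const (minb_fin_cont k 0)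
    · exact isClosed_iInter fun l => isClosed_iInter fun _ =>
        isClosed_le (minb_fin_cont k l) (minb_fin_cont k (l + 1))
    · exact isClosed_le (minb_fin_cont k k) continuous_const
  have hsub : X ⊆ Icc (fun _ => 0) (fun _ => b ^ 2) := by
    intro x hx
    obtain ⟨h0, ⟨-, h1⟩, h2⟩ := hx
    have key : ∀ i : Fin (k + 1), minbFin k x i = x i := fun i => by
      unfold minbFin; rw [dif_pos i.2]
    constructor
    · intro i
      have := minb_mono h1 (Nat.zero_le i) (by omega)
      rw [h0, key i] at this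
      exact this
    · intro i
      have := minb_mono h1 (i := i) (j := k) (by omega) le_rfl
      rw [key i] at this
      exact this.trans h2
  have hcomp : IsCompact X := (isCompact_Icc).of_isClosed_subset hclosed hsub
  have hne : X.Nonempty := by
    refine ⟨fun _ => 0, ?_⟩
    have : minbFin k (fun _ => 0) = fun _ => 0 := by
      funext l; unfold minbFin; split_ifs <;> rfl
    rw [hX, Set.mem_ofPred_eq, this]
    exact ⟨rfl, ⟨le_rfl, fun _ _ => le_rfl⟩, by positivity⟩
  have hlip : LipschitzOnWith (Real.toNNReal k)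
      (fun x : Fin (k + 1) → ℝ => cascade m (minbFin k x) k lc 0) X := by
    apply LipschitzOnWith.of_dist_le_mul
    intro x hx y hy
    have h1 := minb_cascade_lip (c := k) (fun l h1 h2 => e0 l h1 (by omega))
      (fun l h1 h2 => e1 l (by omega)) hx.2.1.2 hy.2.1.2 adm_lc adm_lc (e := 0)
      (fun z => by simp) 0
    rw [Real.dist_eq]
    refine h1.trans ?_
    rw [zero_add, Real.coe_toNNReal _ (Nat.cast_nonneg k)]
    have h2 : ∑ l ∈ Finset.range k, |(minbFin k x (l + 1) - minbFin k x l)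
        - (minbFin k y (l + 1) - minbFin k y l)| ≤ ∑ l ∈ Finset.range k, 2 * dist x y := by
      refine Finset.sum_le_sum fun l _ => ?_
      have a1 := minb_fin_dist k (l + 1) x y
      have a2 := minb_fin_dist k l x y
      calc _ = |(minbFin k x (l + 1) - minbFin k y (l + 1))
            - (minbFin k x l - minbFin k y l)| := by congr 1; ring
        _ ≤ _ := abs_sub _ _
        _ ≤ _ := by linarith
    rw [Finset.sum_const, Finset.card_range, nsmul_eq_mul] at h2
    linarith
  have hcont : ContinuousOn (fun x : Fin (k + 1) → ℝ => SKr b k m (minbFin k x)) X := by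
    have h1 : ContinuousOn (fun x : Fin (k + 1) → ℝ =>
        cascade m (minbFin k x) k lc 0 - minbFin k x k / 2 + b ^ 2 / 4
          + (∑ l ∈ Finset.range (k + 1), (m (l + 1) - m l) * minbFin k x l ^ 2) /
            (4 * b ^ 2)) X := by
      refine ContinuousOn.add (ContinuousOn.add (ContinuousOn.sub hlip.continuousOn ?_) ?_) ?_
      · exact ((minb_fin_cont k k).div_const 2).continuousOn
      · exact continuousOn_const
      · refine (Continuous.div_const (continuous_finsetSum _ fun l _ => ?_) _).continuousOn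
        exact continuous_const.mul ((minb_fin_cont k l).pow 2)
    refine h1.congr fun x hx => ?_
    simp only [SKr]
    rw [minb_spin hx.1]
  obtain ⟨x, hx, hxm⟩ := hcomp.exists_isMinOn hne hcont
  refine ⟨minbFin k x, hx, fun r' hr' => ?_⟩
  have h1 : ∀ l ≤ k, r' l = minbFin k (fun i => r' i) l := fun l hl => by
    unfold minbFin; rw [dif_pos (by omega)]
  have h2 : BPath b k (minbFin k (fun i => r' i)) := by
    obtain ⟨a0, ⟨a1, a2⟩, a3⟩ := hr'
    refine ⟨by rw [← h1 0 (by omega)]; exact a0, ⟨by rw [← h1 0 (by omega)]; exact a1,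
      fun l hl => ?_⟩, by rw [← h1 k le_rfl]; exact a3⟩
    rw [← h1 l (by omega), ← h1 (l + 1) (by omega)]; exact a2 l hl
  rw [minb_SKr_congr h1]
  exact hxm h2

end Vale.Agent.P146.Gap
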