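import Vale.Agent.P146.Gap.Heat

/-!
# P146 / Gap: space and time derivatives of one Parisi step (task JETS)
-/

set_option linter.all false

open MeasureTheory ProbabilityTheory Filter Topology Set

namespace Vale.Agent.P146.Gap

open Vale.Agent.P157.Par

/-! ### Derivatives of cumulant polynomials -/

section Poly

variable {a1 a2 a3 a4 a5 : ℝ → ℝ} {b1 b2 b3 b4 b5 t : ℝ}

theorem jets_k2 (h1 : HasDerivAt a1 b1 t) (h2 : HasDerivAt a2 b2 t) :
    HasDerivAt (fun t => a2 t - a1 t ^ 2) (b2 - 2 * a1 t * b1) t := by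
  refine (h2.sub (h1.pow 2)).congr_deriv ?_
  norm_num

theorem jets_k3 (h1 : HasDerivAt a1 b1 t) (h2 : HasDerivAt a2 b2 t) (h3 : HasDerivAt a3 b3 t) :
    HasDerivAt (fun t => a3 t - 3 * (a1 t * a2 t) + 2 * a1 t ^ 3)
      (b3 - 3 * (b1 * a2 t + a1 t * b2) + 6 * a1 t ^ 2 * b1) t := by
  refine ((h3.sub ((h1.mul h2).const_mul 3)).add ((h1.pow 3).const_mul 2)).congr_deriv ?_
  norm_num
  ring

theorem jets_k4 (h1 : HasDerivAt a1 b1 t) (h2 : HasDerivAt a2 b2 t) (h3 : HasDerivAt a3 b3 t)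
    (h4 : HasDerivAt a4 b4 t) :
    HasDerivAt (fun t => a4 t - 4 * (a1 t * a3 t) - 3 * a2 t ^ 2 + 12 * (a1 t ^ 2 * a2 t) -
      6 * a1 t ^ 4)
      (b4 - 4 * (b1 * a3 t + a1 t * b3) - 6 * a2 t * b2 +
        12 * (2 * a1 t * b1 * a2 t + a1 t ^ 2 * b2) - 24 * a1 t ^ 3 * b1) t := by
  refine ((((h4.sub ((h1.mul h3).const_mul 4)).sub ((h2.pow 2).const_mul 3)).add
    (((h1.pow 2).mul h2).const_mul 12)).sub ((h1.pow 4).const_mul 6)).congr_deriv ?_
  norm_num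
  ring

theorem jets_k5 (h1 : HasDerivAt a1 b1 t) (h2 : HasDerivAt a2 b2 t) (h3 : HasDerivAt a3 b3 t)
    (h4 : HasDerivAt a4 b4 t) (h5 : HasDerivAt a5 b5 t) :
    HasDerivAt (fun t => a5 t - 5 * (a1 t * a4 t) - 10 * (a2 t * a3 t) +
      20 * (a1 t ^ 2 * a3 t) + 30 * (a1 t * a2 t ^ 2) - 60 * (a1 t ^ 3 * a2 t) + 24 * a1 t ^ 5)
      (b5 - 5 * (b1 * a4 t + a1 t * b4) - 10 * (b2 * a3 t + a2 t * b3) +
        20 * (2 * a1 t * b1 * a3 t + a1 t ^ 2 * b3) + 30 * (b1 * a2 t ^ 2 + a1 t * (2 * a2 t * b2)) -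
        60 * (3 * a1 t ^ 2 * b1 * a2 t + a1 t ^ 3 * b2) + 120 * a1 t ^ 4 * b1) t := by
  refine ((((((h5.sub ((h1.mul h4).const_mul 5)).sub ((h2.mul h3).const_mul 10)).add
    (((h1.pow 2).mul h3).const_mul 20)).add ((h1.mul (h2.pow 2)).const_mul 30)).sub
    (((h1.pow 3).mul h2).const_mul 60)).add ((h1.pow 5).const_mul 24)).congr_deriv ?_
  norm_num
  ring

end Poly

/-! ### Ratios -/

/-- The ratios `U_j / U_0`. -/
noncomputable def jetsR (ψ : ℝ → ℝ) (j : ℕ) (s x : ℝ) : ℝ := U ψ j s x / U ψ 0 s x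

section Ratio

variable {ψ : ℝ → ℝ}

theorem jetsR_bd (h : PosF ψ) (j : ℕ) : ∃ C : ℝ, ∀ s x, |jetsR ψ j s x| ≤ C := by
  obtain ⟨C, hC⟩ := U_ctrl h j
  refine ⟨C, fun s x => ?_⟩
  have h0 := U_pos h s x
  unfold jetsR
  rw [abs_div, abs_of_pos h0, div_le_iff₀ h0]
  exact hC s x

theorem jetsR_cont (h : PosF ψ) (j : ℕ) : Continuous (fun p : ℝ × ℝ => jetsR ψ j p.1 p.2) :=
  (U_cont h j).div (U_cont h 0) fun p => (U_pos h p.1 p.2).ne'

theorem jetsR_x (h : PosF ψ) (j : ℕ) (s x : ℝ) :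
    HasDerivAt (fun x => jetsR ψ j s x)
      (jetsR ψ (j + 1) s x - jetsR ψ 1 s x * jetsR ψ j s x) x := by
  have h0 := (U_pos h s x).ne'
  refine ((U_x h j s x).div (U_x h 0 s x) h0).congr_deriv ?_
  unfold jetsR
  simp only [zero_add]
  field_simp

theorem jetsR_s (h : PosF ψ) (j : ℕ) {s : ℝ} (hs : 0 < s) (x : ℝ) :
    HasDerivAt (fun s => jetsR ψ j s x)
      (1 / 2 * (jetsR ψ (j + 2) s x - jetsR ψ 2 s x * jetsR ψ j s x)) s := by
  have h0 := (U_pos h s x).ne'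
  refine ((U_s h j hs x).div (U_s h 0 hs x) h0).congr_deriv ?_
  unfold jetsR
  simp only [zero_add]
  field_simp

/-- Polynomials in the ratios. -/
inductive JetsPoly (ψ : ℝ → ℝ) : (ℝ → ℝ → ℝ) → Prop
  | const (c : ℝ) : JetsPoly ψ (fun _ _ => c)
  | rat (j : ℕ) : JetsPoly ψ (jetsR ψ j)
  | add {p q : ℝ → ℝ → ℝ} : JetsPoly ψ p → JetsPoly ψ q → JetsPoly ψ (fun s x => p s x + q s x)
  | mul {p q : ℝ → ℝ → ℝ} : JetsPoly ψ p → JetsPoly ψ q → JetsPoly ψ (fun s x => p s x * q s x)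

theorem JetsPoly.bd (h : PosF ψ) {p : ℝ → ℝ → ℝ} (hp : JetsPoly ψ p) :
    ∃ C : ℝ, ∀ s x, |p s x| ≤ C := by
  induction hp with
  | const c => exact ⟨|c|, fun _ _ => le_rfl⟩
  | rat j => exact jetsR_bd h j
  | add hp hq ihp ihq =>
    obtain ⟨A, hA⟩ := ihp
    obtain ⟨B, hB⟩ := ihq
    exact ⟨A + B, fun s x => (abs_add_le _ _).trans (add_le_add (hA s x) (hB s x))⟩
  | mul hp hq ihp ihq =>
    obtain ⟨A, hA⟩ := ihp
    obtain ⟨B, hB⟩ := ihq
    refine ⟨A * B, fun s x => ?_⟩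
    rw [abs_mul]
    exact mul_le_mul (hA s x) (hB s x) (abs_nonneg _) ((abs_nonneg _).trans (hA s x))

theorem JetsPoly.cont (h : PosF ψ) {p : ℝ → ℝ → ℝ} (hp : JetsPoly ψ p) :
    Continuous (fun z : ℝ × ℝ => p z.1 z.2) := by
  induction hp with
  | const c => exact continuous_const
  | rat j => exact jetsR_cont h j
  | add hp hq ihp ihq => exact ihp.add ihq
  | mul hp hq ihp ihq => exact ihp.mul ihq

theorem JetsPoly.deriv (h : PosF ψ) {p : ℝ → ℝ → ℝ} (hp : JetsPoly ψ p) :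
    ∃ q, JetsPoly ψ q ∧ ∀ s x, HasDerivAt (p s) (q s x) x := by
  induction hp with
  | const c => exact ⟨fun _ _ => 0, JetsPoly.const 0, fun s x => hasDerivAt_const x c⟩
  | rat j =>
    refine ⟨fun s x => jetsR ψ (j + 1) s x + (-1) * (jetsR ψ 1 s x * jetsR ψ j s x),
      (JetsPoly.rat (j + 1)).add ((JetsPoly.const (-1)).mul ((JetsPoly.rat 1).mul
        (JetsPoly.rat j))), fun s x => (jetsR_x h j s x).congr_deriv (by ring)⟩
  | add hp hq ihp ihq =>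
    obtain ⟨p', hp', hpd⟩ := ihp
    obtain ⟨q', hq', hqd⟩ := ihq
    exact ⟨fun s x => p' s x + q' s x, hp'.add hq', fun s x => (hpd s x).add (hqd s x)⟩
  | mul hp hq ihp ihq =>
    rename_i p q
    obtain ⟨p', hp', hpd⟩ := ihp
    obtain ⟨q', hq', hqd⟩ := ihq
    exact ⟨fun s x => p' s x * q s x + p s x * q' s x, (hp'.mul hq).add (hp.mul hq'),
      fun s x => (hpd s x).mul (hqd s x)⟩

end Ratio

/-! ### The Parisi step -/

variable {g : ℝ} {F : ℝ → ℝ}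

theorem gstep_zero (hg : g ≠ 0) (F : ℝ → ℝ) : gstep g 0 F = F := by
  funext x
  unfold gstep
  simp only [Real.sqrt_zero, zero_mul, add_zero, integral_const, probReal_univ, one_smul,
    Real.log_exp]
  field_simp

/-- The exponential of the log-weight. -/
noncomputable def jetsPsi (g : ℝ) (F : ℝ → ℝ) : ℝ → ℝ := fun x => Real.exp (g * F x)

theorem jets_gstep (g s : ℝ) (F : ℝ → ℝ) :
    gstep g s F = fun x => 1 / g * Real.log (U (jetsPsi g F) 0 s x) := by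
  funext x
  unfold gstep U jetsPsi
  simp only [iteratedDeriv_zero]

theorem jets_f0_x (h : SmB F) (g s x : ℝ) :
    HasDerivAt (gstep g s F) (1 / g * jetsR (jetsPsi g F) 1 s x) x := by
  have hp : PosF (jetsPsi g F) := posF_exp h g
  rw [jets_gstep]
  exact ((U_x hp 0 s x).log (U_pos hp s x).ne').const_mul (1 / g)

theorem jets_poly (h : SmB F) (g : ℝ) (j : ℕ) : ∃ q, JetsPoly (jetsPsi g F) q ∧
    ∀ s, iteratedDeriv (j + 1) (gstep g s F) = q s := by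
  have hp : PosF (jetsPsi g F) := posF_exp h g
  induction j with
  | zero =>
    refine ⟨fun s x => 1 / g * jetsR (jetsPsi g F) 1 s x,
      (JetsPoly.const (1 / g)).mul (JetsPoly.rat 1), fun s => ?_⟩
    rw [zero_add, iteratedDeriv_one]
    funext x
    exact (jets_f0_x h g s x).deriv
  | succ j ih =>
    obtain ⟨q, hq, hqe⟩ := ih
    obtain ⟨q', hq', hd⟩ := hq.deriv hp
    refine ⟨q', hq', fun s => ?_⟩
    rw [iteratedDeriv_succ, hqe s]
    funext x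
    exact (hd s x).deriv

theorem jets_diff (h : SmB F) (g : ℝ) (j : ℕ) (s : ℝ) :
    Differentiable ℝ (iteratedDeriv j (gstep g s F)) := by
  have hp : PosF (jetsPsi g F) := posF_exp h g
  cases j with
  | zero =>
    rw [iteratedDeriv_zero]
    exact fun x => (jets_f0_x h g s x).differentiableAt
  | succ j =>
    obtain ⟨q, hq, hqe⟩ := jets_poly h g j
    obtain ⟨q', hq', hd⟩ := hq.deriv hp
    rw [hqe s]
    exact fun x => (hd s x).differentiableAt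

theorem fj_x (h : SmB F) (hg : 0 < g) (j : ℕ) (s x : ℝ) :
    HasDerivAt (fun x => fj g F j s x) (fj g F (j + 1) s x) x := by
  have h1 := (jets_diff h g j s x).hasDerivAt
  unfold fj
  rw [iteratedDeriv_succ]
  exact h1

theorem fj_bd (h : SmB F) (hg : 0 < g) (j : ℕ) : ∃ C : ℝ, ∀ s x, |fj g F (j + 1) s x| ≤ C := by
  obtain ⟨q, hq, hqe⟩ := jets_poly h g j
  obtain ⟨C, hC⟩ := hq.bd (posF_exp h g)
  refine ⟨C, fun s x => ?_⟩
  unfold fj
  rw [hqe s]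
  exact hC s x

theorem smB_gstep (h : SmB F) (hg : 0 < g) (s : ℝ) : SmB (gstep g s F) where
  smooth := contDiff_of_differentiable_iteratedDeriv fun m _ => jets_diff h g m s
  bd j := by
    obtain ⟨C, hC⟩ := fj_bd h hg j
    exact ⟨C, fun x => hC s x⟩

theorem fj_zero (hg : g ≠ 0) (F : ℝ → ℝ) (j : ℕ) (x : ℝ) :
    fj g F j 0 x = iteratedDeriv j F x := by
  unfold fj
  rw [gstep_zero hg]

theorem fj_cont (h : SmB F) (hg : 0 < g) (j : ℕ) :
    Continuous (fun p : ℝ × ℝ => fj g F j p.1 p.2) := by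
  have hp : PosF (jetsPsi g F) := posF_exp h g
  cases j with
  | zero =>
    unfold fj
    simp only [iteratedDeriv_zero, jets_gstep]
    exact ((U_cont hp 0).log fun p => (U_pos hp p.1 p.2).ne').const_mul (1 / g)
  | succ j =>
    obtain ⟨q, hq, hqe⟩ := jets_poly h g j
    unfold fj
    simp only [hqe]
    exact hq.cont hp

/-! ### Explicit formulas -/

theorem jets_next (h : SmB F) (hg : 0 < g) (j : ℕ) (s : ℝ) {K K' : ℝ → ℝ}
    (hK : ∀ x, fj g F j s x = 1 / g * K x) (hd : ∀ x, HasDerivAt K (K' x) x) (x : ℝ) :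
    fj g F (j + 1) s x = 1 / g * K' x := by
  have h1 := fj_x h hg j s x
  have h2 : HasDerivAt (fun x => fj g F j s x) (1 / g * K' x) x := by
    have h3 : (fun x => fj g F j s x) = fun x => 1 / g * K x := funext hK
    rw [h3]
    exact (hd x).const_mul (1 / g)
  exact h1.unique h2

theorem jets_f1 (h : SmB F) (hg : 0 < g) (s x : ℝ) :
    fj g F 1 s x = 1 / g * jetsR (jetsPsi g F) 1 s x := by
  unfold fj
  rw [iteratedDeriv_one]
  exact (jets_f0_x h g s x).deriv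

theorem jets_f2 (h : SmB F) (hg : 0 < g) (s x : ℝ) :
    fj g F 2 s x = 1 / g * (jetsR (jetsPsi g F) 2 s x - jetsR (jetsPsi g F) 1 s x ^ 2) := by
  have hp : PosF (jetsPsi g F) := posF_exp h g
  rw [jets_next h hg 1 s (jets_f1 h hg s) (fun x => jetsR_x hp 1 s x) x]
  ring

theorem jets_f3 (h : SmB F) (hg : 0 < g) (s x : ℝ) :
    fj g F 3 s x = 1 / g * (jetsR (jetsPsi g F) 3 s x -
      3 * (jetsR (jetsPsi g F) 1 s x * jetsR (jetsPsi g F) 2 s x) +
      2 * jetsR (jetsPsi g F) 1 s x ^ 3) := by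
  have hp : PosF (jetsPsi g F) := posF_exp h g
  rw [jets_next h hg 2 s (jets_f2 h hg s)
    (fun x => jets_k2 (jetsR_x hp 1 s x) (jetsR_x hp 2 s x)) x]
  simp only [Nat.reduceAdd]
  ring

theorem jets_f4 (h : SmB F) (hg : 0 < g) (s x : ℝ) :
    fj g F 4 s x = 1 / g * (jetsR (jetsPsi g F) 4 s x -
      4 * (jetsR (jetsPsi g F) 1 s x * jetsR (jetsPsi g F) 3 s x) -
      3 * jetsR (jetsPsi g F) 2 s x ^ 2 +
      12 * (jetsR (jetsPsi g F) 1 s x ^ 2 * jetsR (jetsPsi g F) 2 s x) -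
      6 * jetsR (jetsPsi g F) 1 s x ^ 4) := by
  have hp : PosF (jetsPsi g F) := posF_exp h g
  rw [jets_next h hg 3 s (jets_f3 h hg s)
    (fun x => jets_k3 (jetsR_x hp 1 s x) (jetsR_x hp 2 s x) (jetsR_x hp 3 s x)) x]
  simp only [Nat.reduceAdd]
  ring

theorem jets_f5 (h : SmB F) (hg : 0 < g) (s x : ℝ) :
    fj g F 5 s x = 1 / g * (jetsR (jetsPsi g F) 5 s x -
      5 * (jetsR (jetsPsi g F) 1 s x * jetsR (jetsPsi g F) 4 s x) -
      10 * (jetsR (jetsPsi g F) 2 s x * jetsR (jetsPsi g F) 3 s x) +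
      20 * (jetsR (jetsPsi g F) 1 s x ^ 2 * jetsR (jetsPsi g F) 3 s x) +
      30 * (jetsR (jetsPsi g F) 1 s x * jetsR (jetsPsi g F) 2 s x ^ 2) -
      60 * (jetsR (jetsPsi g F) 1 s x ^ 3 * jetsR (jetsPsi g F) 2 s x) +
      24 * jetsR (jetsPsi g F) 1 s x ^ 5) := by
  have hp : PosF (jetsPsi g F) := posF_exp h g
  rw [jets_next h hg 4 s (jets_f4 h hg s)
    (fun x => jets_k4 (jetsR_x hp 1 s x) (jetsR_x hp 2 s x) (jetsR_x hp 3 s x)
      (jetsR_x hp 4 s x)) x]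
  simp only [Nat.reduceAdd]
  ring

theorem jets_f6 (h : SmB F) (hg : 0 < g) (s x : ℝ) :
    fj g F 6 s x = 1 / g * (jetsR (jetsPsi g F) 6 s x -
      6 * (jetsR (jetsPsi g F) 1 s x * jetsR (jetsPsi g F) 5 s x) -
      15 * (jetsR (jetsPsi g F) 2 s x * jetsR (jetsPsi g F) 4 s x) +
      30 * (jetsR (jetsPsi g F) 1 s x ^ 2 * jetsR (jetsPsi g F) 4 s x) -
      10 * jetsR (jetsPsi g F) 3 s x ^ 2 +
      120 * (jetsR (jetsPsi g F) 1 s x * jetsR (jetsPsi g F) 2 s x * jetsR (jetsPsi g F) 3 s x) -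
      120 * (jetsR (jetsPsi g F) 1 s x ^ 3 * jetsR (jetsPsi g F) 3 s x) +
      30 * jetsR (jetsPsi g F) 2 s x ^ 3 -
      270 * (jetsR (jetsPsi g F) 1 s x ^ 2 * jetsR (jetsPsi g F) 2 s x ^ 2) +
      360 * (jetsR (jetsPsi g F) 1 s x ^ 4 * jetsR (jetsPsi g F) 2 s x) -
      120 * jetsR (jetsPsi g F) 1 s x ^ 6) := by
  have hp : PosF (jetsPsi g F) := posF_exp h g
  rw [jets_next h hg 5 s (jets_f5 h hg s)
    (fun x => jets_k5 (jetsR_x hp 1 s x) (jetsR_x hp 2 s x) (jetsR_x hp 3 s x)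
      (jetsR_x hp 4 s x) (jetsR_x hp 5 s x)) x]
  simp only [Nat.reduceAdd]
  ring

/-! ### Time derivatives -/

theorem jets_time (j : ℕ) {x s K' d : ℝ} {K : ℝ → ℝ}
    (hK : ∀ s, fj g F j s x = 1 / g * K s) (hd : HasDerivAt K K' s) (he : 1 / g * K' = d) :
    HasDerivAt (fun s => fj g F j s x) d s := by
  have h3 : (fun s => fj g F j s x) = fun s => 1 / g * K s := funext hK
  rw [h3, ← he]
  exact hd.const_mul (1 / g)

theorem fj_s0 (h : SmB F) (hg : 0 < g) {s : ℝ} (hs : 0 < s) (x : ℝ) :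
    HasDerivAt (fun s => fj g F 0 s x) (1 / 2 * (fj g F 2 s x + g * fj g F 1 s x ^ 2)) s := by
  have hp : PosF (jetsPsi g F) := posF_exp h g
  refine jets_time 0 (K := fun s => Real.log (U (jetsPsi g F) 0 s x))
    (K' := 1 / 2 * jetsR (jetsPsi g F) 2 s x) (fun s => ?_) ?_ ?_
  · unfold fj
    rw [iteratedDeriv_zero, jets_gstep]
  · refine ((U_s hp 0 hs x).log (U_pos hp s x).ne').congr_deriv ?_
    unfold jetsR
    simp only [zero_add]
    ring
  · rw [jets_f1 h hg, jets_f2 h hg]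
    field_simp
    ring

theorem fj_s1 (h : SmB F) (hg : 0 < g) {s : ℝ} (hs : 0 < s) (x : ℝ) :
    HasDerivAt (fun s => fj g F 1 s x)
      (1 / 2 * fj g F 3 s x + g * (fj g F 1 s x * fj g F 2 s x)) s := by
  have hp : PosF (jetsPsi g F) := posF_exp h g
  refine jets_time 1 (fun s => jets_f1 h hg s x) (jetsR_s hp 1 hs x) ?_
  rw [jets_f1 h hg, jets_f2 h hg, jets_f3 h hg]
  field_simp
  norm_num
  ring

theorem fj_s2 (h : SmB F) (hg : 0 < g) {s : ℝ} (hs : 0 < s) (x : ℝ) :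
    HasDerivAt (fun s => fj g F 2 s x)
      (1 / 2 * fj g F 4 s x + g * (fj g F 2 s x ^ 2 + fj g F 1 s x * fj g F 3 s x)) s := by
  have hp : PosF (jetsPsi g F) := posF_exp h g
  refine jets_time 2 (fun s => jets_f2 h hg s x)
    (jets_k2 (jetsR_s hp 1 hs x) (jetsR_s hp 2 hs x)) ?_
  rw [jets_f1 h hg, jets_f2 h hg, jets_f3 h hg, jets_f4 h hg]
  field_simp
  norm_num
  ring

theorem fj_s3 (h : SmB F) (hg : 0 < g) {s : ℝ} (hs : 0 < s) (x : ℝ) :
    HasDerivAt (fun s => fj g F 3 s x)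
      (1 / 2 * fj g F 5 s x + g * (3 * fj g F 2 s x * fj g F 3 s x
        + fj g F 1 s x * fj g F 4 s x)) s := by
  have hp : PosF (jetsPsi g F) := posF_exp h g
  refine jets_time 3 (fun s => jets_f3 h hg s x)
    (jets_k3 (jetsR_s hp 1 hs x) (jetsR_s hp 2 hs x) (jetsR_s hp 3 hs x)) ?_
  rw [jets_f1 h hg, jets_f2 h hg, jets_f3 h hg, jets_f4 h hg, jets_f5 h hg]
  field_simp
  norm_num
  ring

theorem fj_s4 (h : SmB F) (hg : 0 < g) {s : ℝ} (hs : 0 < s) (x : ℝ) :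
    HasDerivAt (fun s => fj g F 4 s x)
      (1 / 2 * fj g F 6 s x + g * (3 * fj g F 3 s x ^ 2 + 4 * fj g F 2 s x * fj g F 4 s x
        + fj g F 1 s x * fj g F 5 s x)) s := by
  have hp : PosF (jetsPsi g F) := posF_exp h g
  refine jets_time 4 (fun s => jets_f4 h hg s x)
    (jets_k4 (jetsR_s hp 1 hs x) (jetsR_s hp 2 hs x) (jetsR_s hp 3 hs x) (jetsR_s hp 4 hs x)) ?_
  rw [jets_f1 h hg, jets_f2 h hg, jets_f3 h hg, jets_f4 h hg, jets_f5 h hg, jets_f6 h hg]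
  field_simp
  norm_num
  ring

end Vale.Agent.P146.Gap
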