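import Vale.Agent.P146.Gap.MaxP
import Vale.Agent.P146.Gap.Jets
import Vale.Agent.P157.ParSp1

/-! ADM: the admissible class is preserved by one Parisi step; bounds for the third and the fourth
derivative. -/

open MeasureTheory ProbabilityTheory Filter Topology Set

namespace Vale.Agent.P146.Gap

open Vale.Agent.P157.Par

variable {C g : ℝ} {F : ℝ → ℝ}

theorem adm_hasD (h : ContDiff ℝ (⊤ : ℕ∞) F) (j : ℕ) (x : ℝ) :
    HasDerivAt (iteratedDeriv j F) (iteratedDeriv (j + 1) F x) x := by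
  rw [iteratedDeriv_succ]
  exact ((h.differentiable_iteratedDeriv j (by exact_mod_cast WithTop.coe_lt_top j)) x).hasDerivAt

theorem adm_cont (h : ContDiff ℝ (⊤ : ℕ∞) F) (j : ℕ) : Continuous (iteratedDeriv j F) :=
  continuous_iff_continuousAt.2 fun x => (adm_hasD h j x).continuousAt

theorem adm_it1 {G M : ℝ → ℝ} (h : ∀ x, HasDerivAt G (M x) x) : iteratedDeriv 1 G = M := by
  rw [iteratedDeriv_one]
  funext x
  exact (h x).deriv

theorem adm_its {G M D : ℝ → ℝ} {j : ℕ} (h : iteratedDeriv j G = M)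
    (h' : ∀ x, HasDerivAt M (D x) x) : iteratedDeriv (j + 1) G = D := by
  rw [iteratedDeriv_succ, h]
  funext x
  exact (h' x).deriv

theorem adm_ec (h : Adm C F) : Ec F (iteratedDeriv 1 F) (iteratedDeriv 2 F) where
  d1 := fun x => by
    have := adm_hasD h.smb.smooth 0 x
    rwa [iteratedDeriv_zero] at this
  d2 := fun x => adm_hasD h.smb.smooth 1 x
  cD := adm_cont h.smb.smooth 2
  even := h.even
  D0 := fun x => (h.pos x).le
  D1 := h.le1

theorem adm_tlt_pos {L B : ℝ} {F M D : ℝ → ℝ} (h : Sm L B F M D) {q : ℝ → ℝ} (hq : Continuous q)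
    {K : ℝ} (hK : ∀ x, |q x| ≤ K) (hpos : ∀ x, 0 < q x) (m v x : ℝ) : 0 < tlt m v F q x := by
  unfold tlt
  refine div_pos ?_ (h.int_exp_pos m v x)
  rw [integral_pos_iff_support_of_nonneg
    (fun z => (mul_pos (hpos _) (Real.exp_pos _)).le) (h.integrable hq hK m v x)]
  have h1 : Function.support
      (fun z => q (x + √v * z) * Real.exp (m * F (x + √v * z))) = univ := by
    ext z
    simp [(hpos _).ne']
  rw [h1]
  simp

theorem adm_fj1 (h : Adm C F) (hg : 0 < g) (hg1 : g ≤ 1) (s x : ℝ) :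
    fj g F 1 s x = tlt g s F (iteratedDeriv 1 F) x := by
  have h1 := (adm_ec h).step hg hg1 s
  unfold fj
  rw [adm_it1 h1.d1]

theorem adm_fj2 (h : Adm C F) (hg : 0 < g) (hg1 : g ≤ 1) (s x : ℝ) :
    fj g F 2 s x = tlt g s F (fun y => iteratedDeriv 2 F y + g * iteratedDeriv 1 F y ^ 2) x -
      g * tlt g s F (iteratedDeriv 1 F) x ^ 2 := by
  have h1 := (adm_ec h).step hg hg1 s
  unfold fj
  rw [adm_its (adm_it1 h1.d1) h1.d2]

theorem adm_fj2_le (h : Adm C F) (hg : 0 < g) (hg1 : g ≤ 1) (s x : ℝ) :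
    fj g F 2 s x + fj g F 1 s x ^ 2 ≤ 1 := by
  rw [adm_fj1 h hg hg1, adm_fj2 h hg hg1]
  exact ((adm_ec h).step hg hg1 s).D1 x

theorem adm_fj2_pos (h : Adm C F) (hg : 0 < g) (hg1 : g ≤ 1) (s x : ℝ) : 0 < fj g F 2 s x := by
  rw [adm_fj2 h hg hg1]
  have he := adm_ec h
  have hsm := he.sm
  have hc1 := hsm.cont1
  have hK1 : ∀ x, |iteratedDeriv 1 F x| ≤ 1 := he.abs_M
  have hK2 : ∀ x, |iteratedDeriv 2 F x| ≤ 1 := hsm.bD
  have hc1' : Continuous fun y => iteratedDeriv 1 F y ^ 2 := hc1.pow 2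
  have hK1' : ∀ x, |iteratedDeriv 1 F x ^ 2| ≤ 1 := fun x => by
    rw [abs_pow]
    exact pow_le_one₀ (abs_nonneg _) (hK1 x)
  have hK1'' : ∀ x, |g * iteratedDeriv 1 F x ^ 2| ≤ g * 1 := fun x => by
    rw [abs_mul, abs_of_pos hg]
    exact mul_le_mul_of_nonneg_left (hK1' x) hg.le
  have hgc : Continuous fun y => g * iteratedDeriv 1 F y ^ 2 := continuous_const.mul hc1'
  rw [hsm.tlt_add he.cD hK2 hgc hK1'' g s x,
    tlt_const_mul g s g F (fun y => iteratedDeriv 1 F y ^ 2) x]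
  have h1 := adm_tlt_pos hsm he.cD hK2 h.pos g s x
  have h2 := hsm.tlt_sq_le hc1 hK1 g s x
  nlinarith

/-- The comparison used for the third and the fourth derivative. -/
theorem adm_flow (h : SmB F) (hg : 0 < g) {S : ℝ} (hS : 0 < S) {j : ℕ} {κ σ Λ : ℝ}
    {E : ℝ → ℝ → ℝ} {lam lam' : ℝ → ℝ} (hκ : 0 ≤ κ)
    (hlam : ∀ s, HasDerivAt lam (lam' s) s) (hΛ : ∀ s ∈ Icc 0 S, |lam s| ≤ Λ)
    (hE : ∀ s ∈ Ioo 0 S, ∀ x, HasDerivAt (fun s => fj g F (j + 1) s x)
      (1 / 2 * fj g F (j + 3) s x + g * (κ * fj g F 2 s x * fj g F (j + 1) s x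
        + fj g F 1 s x * fj g F (j + 2) s x + E s x)) s)
    (hineq : ∀ s ∈ Ioo 0 S, ∀ x, σ * (g * E s x) ≤
      fj g F 2 s x * (lam' s - (κ - 1) * g * fj g F 2 s x * lam s))
    (h0 : ∀ x, σ * fj g F (j + 1) 0 x ≤ lam 0 * fj g F 2 0 x) :
    ∀ s ∈ Icc 0 S, ∀ x, σ * fj g F (j + 1) s x ≤ lam s * fj g F 2 s x := by
  obtain ⟨C1, hC1⟩ := fj_bd h hg 0
  obtain ⟨C2, hC2⟩ := fj_bd h hg 1
  obtain ⟨C3, hC3⟩ := fj_bd h hg j
  simp only [zero_add, Nat.reduceAdd] at hC1 hC2
  have hC1' : 0 ≤ C1 := (abs_nonneg _).trans (hC1 0 0)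
  have hC2' : 0 ≤ C2 := (abs_nonneg _).trans (hC2 0 0)
  have hC3' : 0 ≤ C3 := (abs_nonneg _).trans (hC3 0 0)
  have hΛ' : 0 ≤ Λ := (abs_nonneg _).trans (hΛ 0 ⟨le_rfl, hS.le⟩)
  have hlc : Continuous lam := continuous_iff_continuousAt.2 fun s => (hlam s).continuousAt
  have hmain := maxp_line (S := S) (B := (Λ * C2 + |σ| * C3) + g * C1 + κ * g * C2)
    (w := fun s x => lam s * fj g F 2 s x - σ * fj g F (j + 1) s x)
    (ws := fun s x => (lam' s * fj g F 2 s x + lam s * (1 / 2 * fj g F 4 s x +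
      g * (fj g F 2 s x ^ 2 + fj g F 1 s x * fj g F 3 s x))) -
      σ * (1 / 2 * fj g F (j + 3) s x + g * (κ * fj g F 2 s x * fj g F (j + 1) s x
        + fj g F 1 s x * fj g F (j + 2) s x + E s x)))
    (wx := fun s x => lam s * fj g F 3 s x - σ * fj g F (j + 2) s x)
    (wxx := fun s x => lam s * fj g F 4 s x - σ * fj g F (j + 3) s x)
    (b := fun s x => g * fj g F 1 s x) (c := fun s x => κ * g * fj g F 2 s x) hS
    ?_ ?_ ?_ ?_ ?_ ?_ ?_ ?_ ?_
  · intro s hs x
    exact sub_nonneg.1 (hmain s hs x)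
  · exact (((hlc.comp continuous_fst).mul (fj_cont h hg 2)).sub
      (continuous_const.mul (fj_cont h hg (j + 1)))).continuousOn
  · intro s hs x
    have h1 : |lam s * fj g F 2 s x| ≤ Λ * C2 := by
      rw [abs_mul]
      exact mul_le_mul (hΛ s hs) (hC2 s x) (abs_nonneg _) hΛ'
    have h2 : |σ * fj g F (j + 1) s x| ≤ |σ| * C3 := by
      rw [abs_mul]
      exact mul_le_mul_of_nonneg_left (hC3 s x) (abs_nonneg _)
    have h3 := abs_sub (lam s * fj g F 2 s x) (σ * fj g F (j + 1) s x)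
    have h4 : 0 ≤ g * C1 := by positivity
    have h5 : 0 ≤ κ * g * C2 := by positivity
    linarith
  · intro s hs x
    exact ((hlam s).mul (fj_s2 h hg hs.1 x)).sub ((hE s hs x).const_mul σ)
  · intro s _ x
    exact ((fj_x h hg 2 s x).const_mul (lam s)).sub ((fj_x h hg (j + 1) s x).const_mul σ)
  · intro s _ x
    exact ((fj_x h hg 3 s x).const_mul (lam s)).sub ((fj_x h hg (j + 2) s x).const_mul σ)
  · intro s _ x
    have h1 : |g * fj g F 1 s x| ≤ g * C1 := by
      rw [abs_mul, abs_of_pos hg]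
      exact mul_le_mul_of_nonneg_left (hC1 s x) hg.le
    have h4 : 0 ≤ Λ * C2 + |σ| * C3 := by positivity
    have h5 : 0 ≤ κ * g * C2 := by positivity
    linarith
  · intro s _ x
    have h1 : κ * g * fj g F 2 s x ≤ κ * g * C2 :=
      mul_le_mul_of_nonneg_left ((le_abs_self _).trans (hC2 s x)) (by positivity)
    have h4 : 0 ≤ Λ * C2 + |σ| * C3 := by positivity
    have h5 : 0 ≤ g * C1 := by positivity
    linarith
  · intro s hs x
    have h1 := hineq s hs x
    refine sub_nonneg.1 ?_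
    have h2 : (lam' s * fj g F 2 s x + lam s * (1 / 2 * fj g F 4 s x +
      g * (fj g F 2 s x ^ 2 + fj g F 1 s x * fj g F 3 s x))) -
      σ * (1 / 2 * fj g F (j + 3) s x + g * (κ * fj g F 2 s x * fj g F (j + 1) s x
        + fj g F 1 s x * fj g F (j + 2) s x + E s x)) -
      (1 / 2 * (lam s * fj g F 4 s x - σ * fj g F (j + 3) s x) +
        g * fj g F 1 s x * (lam s * fj g F 3 s x - σ * fj g F (j + 2) s x) +
        κ * g * fj g F 2 s x * (lam s * fj g F 2 s x - σ * fj g F (j + 1) s x)) =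
      fj g F 2 s x * (lam' s - (κ - 1) * g * fj g F 2 s x * lam s) - σ * (g * E s x) := by ring
    rw [h2]
    linarith
  · intro x
    exact sub_nonneg.2 (h0 x)

/-! ### The function `log cosh` -/

theorem adm_lc_it1 : iteratedDeriv 1 lc = Real.tanh := adm_it1 ec_logcosh.d1

theorem adm_lc_it2 : iteratedDeriv 2 lc = fun x => 1 - Real.tanh x ^ 2 :=
  adm_its adm_lc_it1 ec_logcosh.d2

theorem adm_lc_poly (j : ℕ) : ∃ P : Polynomial ℝ, iteratedDeriv (j + 1) lc =
    fun x => P.eval (Real.tanh x) := by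
  induction j with
  | zero => exact ⟨Polynomial.X, by rw [zero_add, adm_lc_it1]; simp⟩
  | succ j ih =>
    obtain ⟨P, hP⟩ := ih
    refine ⟨P.derivative * (1 - Polynomial.X ^ 2), ?_⟩
    refine adm_its hP fun x => ?_
    refine ((P.hasDerivAt (Real.tanh x)).comp x (ec_logcosh.d2 x)).congr_deriv ?_
    simp

theorem adm_tanh_sq (x : ℝ) : 0 < 1 - Real.tanh x ^ 2 := by
  have h1 := Real.cosh_sq x
  have h2 := Real.cosh_pos x
  rw [Real.tanh_eq_sinh_div_cosh, div_pow, sub_pos, div_lt_one (by positivity)]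
  linarith

theorem adm_lc_it3 : iteratedDeriv 3 lc =
    fun x => -2 * Real.tanh x * (1 - Real.tanh x ^ 2) := by
  refine adm_its adm_lc_it2 fun x => ?_
  refine (((ec_logcosh.d2 x).pow 2).const_sub 1).congr_deriv ?_
  simp only [Nat.cast_ofNat, Nat.add_one_sub_one, pow_one]
  ring

theorem adm_lc_it4 : iteratedDeriv 4 lc =
    fun x => (1 - Real.tanh x ^ 2) * (6 * Real.tanh x ^ 2 - 2) := by
  refine adm_its adm_lc_it3 fun x => ?_
  have h1 := ec_logcosh.d2 x
  refine ((h1.const_mul (-2)).mul ((h1.pow 2).const_sub 1)).congr_deriv ?_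
  simp only [Nat.cast_ofNat, Nat.add_one_sub_one, pow_one, Pi.pow_apply]
  ring

theorem adm_lc_smb : SmB lc where
  smooth := by
    unfold lc
    exact Real.contDiff_cosh.log fun x => (Real.cosh_pos x).ne'
  bd := fun j => by
    obtain ⟨P, hP⟩ := adm_lc_poly j
    obtain ⟨K, hK⟩ := (isCompact_Icc (a := (-1 : ℝ)) (b := 1)).exists_bound_of_continuousOn
      (f := fun t => P.eval t) P.continuous.continuousOn
    refine ⟨K, fun x => ?_⟩
    rw [hP, ← Real.norm_eq_abs]
    exact hK _ (abs_le.1 (ec_logcosh.abs_M x))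

theorem adm_lc : Adm 2 lc where
  smb := adm_lc_smb
  even := fun x => by simp [lc, Real.cosh_neg]
  pos := fun x => by
    rw [adm_lc_it2]
    exact adm_tanh_sq x
  le1 := fun x => by
    rw [adm_lc_it2, adm_lc_it1]
    simp
  r3 := fun x => by
    rw [adm_lc_it2, adm_lc_it3]
    have h1 := adm_tanh_sq x
    have h2 : |Real.tanh x| ≤ 1 := ec_logcosh.abs_M x
    simp only [abs_mul, abs_neg, abs_of_pos h1, Nat.abs_ofNat]
    nlinarith
  r4 := ⟨4, fun x => by
    rw [adm_lc_it2, adm_lc_it4]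
    have h1 := adm_tanh_sq x
    have h2 : |6 * Real.tanh x ^ 2 - 2| ≤ 4 := by
      rw [abs_le]
      constructor <;> nlinarith [sq_nonneg (Real.tanh x)]
    simp only [abs_mul, abs_of_pos h1]
    nlinarith⟩

theorem Adm.C_nonneg (h : Adm C F) : 0 ≤ C := by
  have h1 := (abs_nonneg _).trans (h.r3 0)
  exact nonneg_of_mul_nonneg_left h1 (h.pos 0)

theorem Adm.mono_C {C' : ℝ} (h : Adm C F) (hC : C ≤ C') : Adm C' F where
  smb := h.smb
  even := h.even
  pos := h.pos
  le1 := h.le1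
  r3 := fun x => (h.r3 x).trans (mul_le_mul_of_nonneg_right hC (h.pos x).le)
  r4 := h.r4

/-- The third derivative along the step. -/
theorem adm_r3_unif (h : Adm C F) (hg : 0 < g) (hg1 : g ≤ 1) {S : ℝ} (hS : 0 < S) :
    ∀ s ∈ Icc 0 S, ∀ x, |fj g F 3 s x| ≤ C * Real.exp (2 * g * s) * fj g F 2 s x := by
  have hC := h.C_nonneg
  have key : ∀ σ : ℝ, σ = 1 ∨ σ = -1 → ∀ s ∈ Icc 0 S, ∀ x,
      σ * fj g F 3 s x ≤ C * Real.exp (2 * g * s) * fj g F 2 s x := by
    intro σ hσ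
    refine adm_flow (j := 2) (κ := 3) (σ := σ) (Λ := C * Real.exp (2 * g * S))
      (E := fun _ _ => 0) (lam := fun s => C * Real.exp (2 * g * s))
      (lam' := fun s => 2 * g * (C * Real.exp (2 * g * s))) h.smb hg hS (by norm_num) ?_ ?_ ?_ ?_ ?_
    · intro s
      have h1 : HasDerivAt (fun s : ℝ => 2 * g * s) (2 * g) s := by
        simpa using (hasDerivAt_id s).const_mul (2 * g)
      refine (h1.exp.const_mul C).congr_deriv ?_
      ring
    · intro s hs
      rw [abs_of_nonneg (by positivity)]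
      refine mul_le_mul_of_nonneg_left (Real.exp_le_exp.2 ?_) hC
      exact mul_le_mul_of_nonneg_left hs.2 (by positivity)
    · intro s hs x
      refine (fj_s3 h.smb hg hs.1 x).congr_deriv ?_
      ring
    · intro s _ x
      have h1 := adm_fj2_pos h hg hg1 s x
      have h2 := adm_fj2_le h hg hg1 s x
      have h3 : fj g F 2 s x ≤ 1 := by nlinarith [sq_nonneg (fj g F 1 s x)]
      have h4 : 0 ≤ C * Real.exp (2 * g * s) := by positivity
      have h5 : fj g F 2 s x * (2 * g * (C * Real.exp (2 * g * s)) -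
          (3 - 1) * g * fj g F 2 s x * (C * Real.exp (2 * g * s))) =
          2 * g * fj g F 2 s x * (C * Real.exp (2 * g * s)) * (1 - fj g F 2 s x) := by ring
      rw [h5]
      have h6 : 0 ≤ 1 - fj g F 2 s x := by linarith
      have h7 : 0 ≤ 2 * g * fj g F 2 s x * (C * Real.exp (2 * g * s)) * (1 - fj g F 2 s x) := by
        positivity
      simpa using h7
    · intro x
      rw [fj_zero hg.ne', fj_zero hg.ne']
      have h1 := abs_le.1 (h.r3 x)
      simp only [mul_zero, Real.exp_zero, mul_one]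
      rcases hσ with rfl | rfl
      · linarith [h1.2]
      · linarith [h1.1]
  intro s hs x
  rw [abs_le]
  have h1 := key 1 (Or.inl rfl) s hs x
  have h2 := key (-1) (Or.inr rfl) s hs x
  constructor <;> linarith

/-- The bounds uniform along the step. -/
theorem Adm.r4_unif (h : Adm C F) (hg : 0 < g) (hg1 : g ≤ 1) (S : ℝ) :
    ∃ C' : ℝ, ∀ s ∈ Icc 0 S, ∀ x, |fj g F 4 s x| ≤ C' * fj g F 2 s x := by
  obtain ⟨S', hS', hSS'⟩ : ∃ S' : ℝ, 0 < S' ∧ S ≤ S' := ⟨max S 1, by positivity, le_max_left _ _⟩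
  obtain ⟨C₄, hC₄⟩ := h.r4
  have hC := h.C_nonneg
  obtain ⟨R, hR⟩ : ∃ R : ℝ, R = C * Real.exp (2 * g * S') := ⟨_, rfl⟩
  have hR0 : 0 ≤ R := by rw [hR]; positivity
  obtain ⟨A, hA⟩ : ∃ A : ℝ, A = |C₄| + 3 * R ^ 2 := ⟨_, rfl⟩
  have hA0 : 0 ≤ A := by rw [hA]; positivity
  have h3 : ∀ s ∈ Icc 0 S', ∀ x, |fj g F 3 s x| ≤ R * fj g F 2 s x := by
    intro s hs x
    refine (adm_r3_unif h hg hg1 hS' s hs x).trans
      (mul_le_mul_of_nonneg_right ?_ (adm_fj2_pos h hg hg1 s x).le)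
    rw [hR]
    refine mul_le_mul_of_nonneg_left (Real.exp_le_exp.2 ?_) hC
    exact mul_le_mul_of_nonneg_left hs.2 (by positivity)
  have key : ∀ σ : ℝ, σ = 1 ∨ σ = -1 → ∀ s ∈ Icc 0 S', ∀ x,
      σ * fj g F 4 s x ≤ A * Real.exp (4 * s) * fj g F 2 s x := by
    intro σ hσ
    refine adm_flow (j := 3) (κ := 4) (σ := σ) (Λ := A * Real.exp (4 * S'))
      (E := fun s x => 3 * fj g F 3 s x ^ 2) (lam := fun s => A * Real.exp (4 * s))
      (lam' := fun s => 4 * (A * Real.exp (4 * s))) h.smb hg hS' (by norm_num) ?_ ?_ ?_ ?_ ?_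
    · intro s
      have h1 : HasDerivAt (fun s : ℝ => 4 * s) 4 s := by
        simpa using (hasDerivAt_id s).const_mul 4
      refine (h1.exp.const_mul A).congr_deriv ?_
      ring
    · intro s hs
      rw [abs_of_nonneg (by positivity)]
      refine mul_le_mul_of_nonneg_left (Real.exp_le_exp.2 ?_) hA0
      linarith [hs.2]
    · intro s hs x
      refine (fj_s4 h.smb hg hs.1 x).congr_deriv ?_
      ring
    · intro s hs x
      have h1 := adm_fj2_pos h hg hg1 s x
      have h2 := adm_fj2_le h hg hg1 s x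
      have h4 : fj g F 2 s x ≤ 1 := by nlinarith [sq_nonneg (fj g F 1 s x)]
      have h5 : fj g F 3 s x ^ 2 ≤ R ^ 2 * fj g F 2 s x := by
        have h6 := h3 s ⟨hs.1.le, hs.2.le⟩ x
        have h7 : fj g F 3 s x ^ 2 ≤ (R * fj g F 2 s x) ^ 2 :=
          sq_le_sq' (by linarith [(abs_le.1 h6).1]) (abs_le.1 h6).2
        have h8 : (R * fj g F 2 s x) ^ 2 = R ^ 2 * (fj g F 2 s x * fj g F 2 s x) := by ring
        rw [h8] at h7
        refine h7.trans (mul_le_mul_of_nonneg_left ?_ (sq_nonneg R))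
        exact mul_le_of_le_one_left h1.le h4
      have h6 : A ≤ A * Real.exp (4 * s) :=
        le_mul_of_one_le_right hA0 (Real.one_le_exp (by linarith [hs.1]))
      have h7 : 3 * R ^ 2 ≤ A * Real.exp (4 * s) := by
        refine le_trans ?_ h6
        rw [hA]
        linarith [abs_nonneg C₄]
      have h8 : σ * (g * (3 * fj g F 3 s x ^ 2)) ≤ 3 * R ^ 2 * fj g F 2 s x := by
        have h9 : 0 ≤ g * (3 * fj g F 3 s x ^ 2) := by positivity
        have h10 : σ * (g * (3 * fj g F 3 s x ^ 2)) ≤ g * (3 * fj g F 3 s x ^ 2) := by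
          rcases hσ with rfl | rfl <;> linarith
        have h11 : g * (3 * fj g F 3 s x ^ 2) ≤ 1 * (3 * fj g F 3 s x ^ 2) :=
          mul_le_mul_of_nonneg_right hg1 (by positivity)
        linarith
      have h9 : 3 * R ^ 2 * fj g F 2 s x ≤ A * Real.exp (4 * s) * fj g F 2 s x :=
        mul_le_mul_of_nonneg_right h7 h1.le
      have h10 : fj g F 2 s x * (4 * (A * Real.exp (4 * s)) -
          (4 - 1) * g * fj g F 2 s x * (A * Real.exp (4 * s))) =
          A * Real.exp (4 * s) * fj g F 2 s x +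
            3 * (A * Real.exp (4 * s) * fj g F 2 s x) * (1 - g * fj g F 2 s x) := by ring
      have h11 : 0 ≤ 1 - g * fj g F 2 s x := by
        have : g * fj g F 2 s x ≤ 1 * 1 := mul_le_mul hg1 h4 h1.le zero_le_one
        linarith
      have h12 : 0 ≤ 3 * (A * Real.exp (4 * s) * fj g F 2 s x) * (1 - g * fj g F 2 s x) := by
        positivity
      rw [h10]
      linarith
    · intro x
      rw [fj_zero hg.ne', fj_zero hg.ne']
      have h1 := abs_le.1 (hC₄ x)
      have h2 : C₄ * iteratedDeriv 2 F x ≤ A * iteratedDeriv 2 F x := by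
        refine mul_le_mul_of_nonneg_right ?_ (h.pos x).le
        rw [hA]
        have h4 := le_abs_self C₄
        have h5 := sq_nonneg R
        linarith
      simp only [mul_zero, Real.exp_zero, mul_one]
      rcases hσ with rfl | rfl
      · linarith [h1.2]
      · linarith [h1.1]
  refine ⟨A * Real.exp (4 * S'), fun s hs x => ?_⟩
  have hs' : s ∈ Icc 0 S' := ⟨hs.1, hs.2.trans hSS'⟩
  have h1 := key 1 (Or.inl rfl) s hs' x
  have h2 := key (-1) (Or.inr rfl) s hs' x
  have h4 : A * Real.exp (4 * s) * fj g F 2 s x ≤ A * Real.exp (4 * S') * fj g F 2 s x := by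
    refine mul_le_mul_of_nonneg_right (mul_le_mul_of_nonneg_left (Real.exp_le_exp.2 ?_) hA0)
      (adm_fj2_pos h hg hg1 s x).le
    linarith [hs'.2]
  rw [abs_le]
  constructor <;> linarith

theorem Adm.step (h : Adm C F) (hg : 0 < g) (hg1 : g ≤ 1) {s : ℝ} (hs : 0 ≤ s) :
    Adm (C * Real.exp (2 * g * s)) (gstep g s F) where
  smb := smB_gstep h.smb hg s
  even := ((adm_ec h).step hg hg1 s).even
  pos := fun x => adm_fj2_pos h hg hg1 s x
  le1 := fun x => adm_fj2_le h hg hg1 s x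
  r3 := fun x => by
    rcases hs.eq_or_lt with rfl | hs'
    · rw [gstep_zero hg.ne']
      simpa using h.r3 x
    · exact adm_r3_unif h hg hg1 hs' s ⟨hs, le_rfl⟩ x
  r4 := by
    obtain ⟨C', hC'⟩ := h.r4_unif hg hg1 s
    exact ⟨C', fun x => hC' s ⟨hs, le_rfl⟩ x⟩

end Vale.Agent.P146.Gap
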