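import Vale.Agent.P146.Gap.Ex
import Vale.Agent.P146.Gap.AdmStep
import Vale.Agent.P157.ParSp2

/-! # VARI: the two variations at a minimiser -/

open MeasureTheory ProbabilityTheory Filter Topology Set

namespace Vale.Agent.P146.Gap

open Vale.Agent.P157.Par

theorem vari_sm {C : ℝ} {F : ℝ → ℝ} (h : Adm C F) :
    Sm 1 1 F (iteratedDeriv 1 F) (iteratedDeriv 2 F) := by
  have hs := h.smb.smooth
  refine ⟨fun x => ?_, fun x => ?_, ?_, fun x => ?_, fun x => ?_⟩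
  · rw [iteratedDeriv_one]
    exact ((hs.differentiable (by simp)) x).hasDerivAt
  · have h1 : iteratedDeriv 2 F = deriv (iteratedDeriv 1 F) := iteratedDeriv_succ
    rw [h1]
    have h2 : Differentiable ℝ (iteratedDeriv 1 F) :=
      hs.differentiable_iteratedDeriv 1 (by exact_mod_cast ENat.natCast_lt_top 1)
    exact (h2 x).hasDerivAt
  · exact hs.continuous_iteratedDeriv 2 (by norm_cast)
  · have h1 := h.pos x
    have h2 := h.le1 x
    exact (sq_le_one_iff_abs_le_one _).1 (by linarith)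
  · have h1 := h.pos x
    have h2 := h.le1 x
    rw [abs_of_pos h1]
    have := sq_nonneg (iteratedDeriv 1 F x)
    linarith

/-- interpolation between the function and its second derivative -/
theorem vari_interp {f f1 f2 : ℝ → ℝ} (h1 : ∀ x, HasDerivAt f (f1 x) x)
    (h2 : ∀ x, HasDerivAt f1 (f2 x) x) (hb : ∀ x, |f2 x| ≤ 1) {e d : ℝ} (hd : 0 < d)
    (hf : ∀ x, |f x| ≤ e) (x : ℝ) : |f1 x| ≤ 2 * e / d + d := by
  obtain ⟨y, hy, hslope⟩ := exists_hasDerivAt_eq_slope f f1 (show x < x + d by linarith)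
    (fun z _ => (h1 z).continuousAt.continuousWithinAt) (fun z _ => h1 z)
  have h3 : |f1 y - f1 x| ≤ 1 * |y - x| := by
    have := convex_univ.norm_image_sub_le_of_norm_hasDerivWithin_le (f := f1) (f' := f2)
      (s := Set.univ) (fun x _ => (h2 x).hasDerivWithinAt) (fun x _ => hb x)
      (mem_univ x) (mem_univ y)
    simpa only [Real.norm_eq_abs] using this
  have h4 : |y - x| ≤ d := by
    rw [abs_of_pos (by linarith [hy.1])]
    linarith [hy.2]
  have h5 : |f1 y| ≤ 2 * e / d := by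
    rw [hslope, add_sub_cancel_left, abs_div, abs_of_pos hd]
    gcongr
    calc |f (x + d) - f x| ≤ |f (x + d)| + |f x| := abs_sub _ _
      _ ≤ 2 * e := by linarith [hf (x + d), hf x]
  calc |f1 x| = |f1 y - (f1 y - f1 x)| := by ring_nf
    _ ≤ |f1 y| + |f1 y - f1 x| := abs_sub _ _
    _ ≤ 2 * e / d + d := by linarith

theorem vari_exp {y : ℝ} (hy : 0 ≤ y) : Real.exp (-y) ≤ 1 - y + y ^ 2 / 2 := by
  have h1 := Real.quadratic_le_exp_of_nonneg hy
  have h2 : 0 < 1 + y + y ^ 2 / 2 := by positivity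
  have h3 : Real.exp (-y) ≤ 1 / (1 + y + y ^ 2 / 2) := by
    rw [Real.exp_neg, ← one_div]
    exact one_div_le_one_div_of_le h2 h1
  refine h3.trans ?_
  rw [div_le_iff₀ h2]
  have h4 : (1 - y + y ^ 2 / 2) * (1 + y + y ^ 2 / 2) = 1 + (y ^ 2) ^ 2 / 4 := by ring
  rw [h4]
  have := sq_nonneg (y ^ 2)
  linarith

/-- the logarithm of the tilted average -/
theorem vari_log {C : ℝ} {H d : ℝ → ℝ} (h : Adm C H) (hd : Continuous d) {c g s : ℝ}
    (hg : 0 < g) (h0 : ∀ x, 0 ≤ d x) (hc : ∀ x, d x ≤ c) (x : ℝ) :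
    gstep g s (fun y => H y - d y) x - gstep g s H x ≤ -tlt g s H d x + g / 2 * c ^ 2 := by
  have hsm := vari_sm h
  have hHc := hsm.cont
  have hc0 : 0 ≤ c := (h0 0).trans (hc 0)
  have hBpos := hsm.int_exp_pos g s x
  set B := ∫ z, Real.exp (g * H (x + √s * z)) ∂(gaussianReal 0 1) with hB
  have hexp : ∀ y, Real.exp (g * (H y - d y)) = Real.exp (-(g * d y)) * Real.exp (g * H y) := by
    intro y
    rw [← Real.exp_add]
    congr 1
    ring
  have hbd : ∀ y, |Real.exp (-(g * d y))| ≤ 1 := by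
    intro y
    rw [abs_of_pos (Real.exp_pos _), Real.exp_le_one_iff]
    have := mul_nonneg hg.le (h0 y)
    linarith
  have hcont : Continuous fun y => Real.exp (-(g * d y)) := by fun_prop
  have hAB : (∫ z, Real.exp (g * (H (x + √s * z) - d (x + √s * z))) ∂(gaussianReal 0 1)) =
      tlt g s H (fun y => Real.exp (-(g * d y))) x * B := by
    unfold tlt
    rw [← hB, div_mul_cancel₀ _ hBpos.ne']
    exact integral_congr_ae (ae_of_all _ fun z => hexp _)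
  set w := tlt g s H (fun y => Real.exp (-(g * d y))) x with hw
  have hdb : ∀ y, |d y| ≤ c := fun y => by rw [abs_of_nonneg (h0 y)]; exact hc y
  have hw1 : w ≤ 1 - g * tlt g s H d x + g ^ 2 * c ^ 2 / 2 := by
    have e1 : ∀ y, Real.exp (-(g * d y)) ≤ (-g * d y) + (1 + g ^ 2 * c ^ 2 / 2) := by
      intro y
      have h1 : 0 ≤ g * d y := mul_nonneg hg.le (h0 y)
      have h2 := vari_exp h1
      have h3 : (g * d y) ^ 2 ≤ g ^ 2 * c ^ 2 := by
        rw [mul_pow]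
        have := pow_le_pow_left₀ (h0 y) (hc y) 2
        gcongr
      linarith
    have hk1 : ∀ y, |-g * d y| ≤ g * c := fun y => by
      rw [abs_mul, abs_neg, abs_of_pos hg]
      exact mul_le_mul_of_nonneg_left (hdb y) hg.le
    have e2 := hsm.tlt_mono (g := fun y => Real.exp (-(g * d y)))
      (g' := fun y => (-g * d y) + (1 + g ^ 2 * c ^ 2 / 2)) hcont hbd (by fun_prop)
      (K' := g * c + |1 + g ^ 2 * c ^ 2 / 2|)
      (fun y => (abs_add_le _ _).trans (add_le_add (hk1 y) le_rfl)) e1 g s x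
    rw [hsm.tlt_add (g := fun y => -g * d y) (g' := fun _ => 1 + g ^ 2 * c ^ 2 / 2)
      (by fun_prop) hk1 continuous_const (fun _ => le_rfl), tlt_const_mul, hsm.tlt_const] at e2
    linarith
  have hwpos : 0 < w := by
    have hApos : 0 < ∫ z, Real.exp (g * (H (x + √s * z) - d (x + √s * z)))
        ∂(gaussianReal 0 1) := by
      apply integral_exp_pos
      have h1 := hsm.integrable hcont hbd g s x
      refine h1.congr (ae_of_all _ fun z => ?_)
      exact (hexp _).symm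
    rw [hAB] at hApos
    exact pos_of_mul_pos_left hApos hBpos.le
  have hlog : gstep g s (fun y => H y - d y) x - gstep g s H x = 1 / g * Real.log w := by
    unfold gstep
    rw [hAB, ← hB, Real.log_mul hwpos.ne' hBpos.ne']
    ring
  rw [hlog]
  have hl := Real.log_le_sub_one_of_pos hwpos
  calc 1 / g * Real.log w ≤ 1 / g * (-(g * tlt g s H d x) + g ^ 2 * c ^ 2 / 2) := by
        gcongr
        linarith
    _ = -tlt g s H d x + g / 2 * c ^ 2 := by field_simp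

theorem vari_e0 (g : ℝ) (F : ℝ → ℝ) : (fun s x => gstep g s F x) = fun s x => fj g F 0 s x := by
  funext s x
  unfold fj
  rw [iteratedDeriv_zero]

theorem vari_ds {g a : ℝ} {F : ℝ → ℝ} (h : SmB F) (hg : 0 < g) {s : ℝ} (hs : s < a) (x : ℝ) :
    HasDerivAt (fun s => fj g F 0 (a - s) x)
      (-(1 / 2 * (fj g F 2 (a - s) x + g * fj g F 1 (a - s) x ^ 2))) s := by
  have h1 := fj_s0 h hg (show 0 < a - s by linarith) x
  have h2 : HasDerivAt (fun s => a - s) (-1) s := by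
    simpa using (hasDerivAt_id s).const_sub a
  have h3 := h1.comp s h2
  refine h3.congr_deriv ?_
  ring

theorem vari_d1 {g : ℝ} {F : ℝ → ℝ} (h : SmB F) (hg : 0 < g) (s x : ℝ) :
    HasDerivAt (fun x => fj g F 0 s x) (fj g F 1 s x) x := by
  have h1 := fj_x h hg 0 s x
  rwa [zero_add] at h1

theorem vari_d2 {g : ℝ} {F : ℝ → ℝ} (h : SmB F) (hg : 0 < g) (s x : ℝ) :
    HasDerivAt (fun x => fj g F 1 s x) (fj g F 2 s x) x := by
  have h1 := fj_x h hg 1 s x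
  rwa [one_add_one_eq_two] at h1

theorem vari_b1 {g : ℝ} {F : ℝ → ℝ} (h : SmB F) (hg : 0 < g) :
    ∃ C : ℝ, ∀ s x, |fj g F 1 s x| ≤ C := by
  have h1 := fj_bd h hg 0
  rwa [zero_add] at h1

theorem vari_b2 {g : ℝ} {F : ℝ → ℝ} (h : SmB F) (hg : 0 < g) :
    ∃ C : ℝ, ∀ s x, |fj g F 2 s x| ≤ C := by
  have h1 := fj_bd h hg 1
  rwa [one_add_one_eq_two] at h1

theorem vari_c {g a : ℝ} {F : ℝ → ℝ} (h : SmB F) (hg : 0 < g) (j : ℕ) :
    Continuous fun p : ℝ × ℝ => fj g F j (a - p.1) p.2 :=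
  (fj_cont h hg j).comp (g := fun p : ℝ × ℝ => fj g F j p.1 p.2)
    (f := fun p : ℝ × ℝ => (a - p.1, p.2)) (by fun_prop)

theorem vari_fam0 {a : ℝ} {u u1 u2 : ℝ → ℝ → ℝ} {g C1 C2 : ℝ} (hg : 0 < g)
    (d1 : ∀ s x, HasDerivAt (u s) (u1 s x) x) (d2 : ∀ s x, HasDerivAt (u1 s) (u2 s x) x)
    (ds : ∀ s < a, ∀ x, HasDerivAt (fun s => u s x)
      (-(1 / 2 * (u2 s x + g * u1 s x ^ 2))) s)
    (c0 : Continuous fun p : ℝ × ℝ => u p.1 p.2) (c1 : Continuous fun p : ℝ × ℝ => u1 p.1 p.2)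
    (c2 : Continuous fun p : ℝ × ℝ => u2 p.1 p.2) (b1 : ∀ s x, |u1 s x| ≤ C1)
    (b2 : ∀ s x, |u2 s x| ≤ C2) :
    Fam 0 a u u1 u2 (fun s x => -(1 / 2 * (u2 s x + g * u1 s x ^ 2))) := by
  refine { d1 := fun s _ x => d1 s x, d2 := fun s _ x => d2 s x,
           ds := fun s hs x => ds s hs.2 x, c0 := c0.continuousOn, c1 := c1.continuousOn,
           c2 := c2.continuousOn, cs := ?_, b1 := ⟨C1, fun s _ x => b1 s x⟩,
           b2 := ⟨C2, fun s _ x => b2 s x⟩,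
           bs := ⟨1 / 2 * (C2 + g * C1 ^ 2), fun s _ x => ?_⟩ }
  · exact (continuous_const.mul (c2.add (continuous_const.mul (c1.pow 2)))).neg.continuousOn
  · rw [abs_neg, abs_mul, abs_of_pos (by norm_num : (0 : ℝ) < 1 / 2)]
    refine mul_le_mul_of_nonneg_left ?_ (by norm_num)
    refine (abs_add_le _ _).trans (add_le_add (b2 s x) ?_)
    rw [abs_mul, abs_of_pos hg, abs_pow]
    exact mul_le_mul_of_nonneg_left (pow_le_pow_left₀ (abs_nonneg _) (b1 s x) 2) hg.le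

/-- the family `s ↦ gstep g (a - s) F` -/
theorem vari_fam {g a : ℝ} {F : ℝ → ℝ} (h : SmB F) (hg : 0 < g) :
    Fam 0 a (fun s x => fj g F 0 (a - s) x) (fun s x => fj g F 1 (a - s) x)
      (fun s x => fj g F 2 (a - s) x)
      (fun s x => -(1 / 2 * (fj g F 2 (a - s) x + g * fj g F 1 (a - s) x ^ 2))) := by
  obtain ⟨C1, hC1⟩ := vari_b1 h hg
  obtain ⟨C2, hC2⟩ := vari_b2 h hg
  exact vari_fam0 (u := fun s x => fj g F 0 (a - s) x) (u1 := fun s x => fj g F 1 (a - s) x)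
    (u2 := fun s x => fj g F 2 (a - s) x) hg (fun s x => vari_d1 h hg (a - s) x)
    (fun s x => vari_d2 h hg (a - s) x) (fun s hs x => vari_ds h hg hs x) (vari_c h hg 0)
    (vari_c h hg 1) (vari_c h hg 2) (fun s x => hC1 (a - s) x) (fun s x => hC2 (a - s) x)

/-- the integrand of `gstep_diff` is continuous -/
theorem vari_cont {C g g' a : ℝ} {F : ℝ → ℝ} (h : Adm C F) (hg : 0 < g) (x : ℝ) :
    ContinuousOn (fun t => tlt g' t (gstep g (a - t) F)
      (fun y => iteratedDeriv 1 (gstep g (a - t) F) y ^ 2) x) (Icc 0 a) := by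
  obtain ⟨C1, hC1⟩ := vari_b1 h.smb hg
  have c1 : Continuous fun p : ℝ × ℝ => fj g F 1 (a - p.1) p.2 ^ 2 :=
    (vari_c h.smb hg 1).pow 2
  have h1 := (vari_fam h.smb hg (a := a)).tlt_cont (g := fun s x => fj g F 1 (a - s) x ^ 2)
    c1.continuousOn (B := C1 ^ 2) (fun s _ x => by
      rw [abs_pow]; exact pow_le_pow_left₀ (abs_nonneg _) (hC1 (a - s) x) 2) g' 0 1
  have h2 : ContinuousOn (fun t : ℝ => ((t, x) : ℝ × ℝ)) (Icc 0 a) := by fun_prop
  have h3 := h1.comp h2 (fun t ht => ⟨ht, mem_univ _⟩)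
  refine h3.congr fun t _ => ?_
  simp only [Function.comp, zero_add, mul_one]
  have e1 : (fun x => fj g F 0 (a - t) x) = gstep g (a - t) F :=
    (congrFun (vari_e0 g F) (a - t)).symm
  rw [e1]
  rfl

theorem vari_up {b C g g' s₁ : ℝ} {F : ℝ → ℝ} (hb : 0 < b) (h : Adm C F) (hg : 0 < g)
    (hgg : g < g') (hg'1 : g' ≤ 1) (hs : 0 < s₁)
    (hmin : gstep g s₁ F 0 - g * s₁ ^ 2 / (4 * b ^ 2) ≤
      gstep g' s₁ F 0 - g' * s₁ ^ 2 / (4 * b ^ 2)) :
    s₁ ^ 2 / (2 * b ^ 2) ≤ ∫ τ in (0 : ℝ)..s₁, Rf g' g s₁ F τ := by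
  have h1 := gstep_diff h hg (hgg.le.trans hg'1) (hg.trans hgg) hg'1 hs.le 0
  have h2 : (∫ τ in (0 : ℝ)..s₁, tlt g' τ (gstep g (s₁ - τ) F)
      (fun y => iteratedDeriv 1 (gstep g (s₁ - τ) F) y ^ 2) 0)
      = ∫ τ in (0 : ℝ)..s₁, Rf g' g s₁ F τ := rfl
  rw [h2] at h1
  set I := ∫ τ in (0 : ℝ)..s₁, Rf g' g s₁ F τ with hI
  have h3 : 0 < g' - g := by linarith
  have h4 : (g' - g) * (s₁ ^ 2 / (2 * b ^ 2)) ≤ (g' - g) * I := by
    have h5 : (g' - g) * (s₁ ^ 2 / (2 * b ^ 2))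
        = 2 * (g' * s₁ ^ 2 / (4 * b ^ 2) - g * s₁ ^ 2 / (4 * b ^ 2)) := by
      field_simp
      ring
    rw [h5]
    linarith
  exact le_of_mul_le_mul_left h4 h3

theorem vari_abs1 {C : ℝ} {F : ℝ → ℝ} (h : Adm C F) (x : ℝ) : |iteratedDeriv 1 F x| ≤ 1 :=
  (vari_sm h).bM x

theorem vari_d2_01 {C : ℝ} {F : ℝ → ℝ} (h : Adm C F) (x : ℝ) :
    0 < iteratedDeriv 2 F x ∧ iteratedDeriv 2 F x ≤ 1 := by
  refine ⟨h.pos x, ?_⟩
  have h2 := h.le1 x
  have := sq_nonneg (iteratedDeriv 1 F x)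
  linarith

/-- two admissible functions which are close have close derivatives -/
theorem vari_close {C C' τ : ℝ} {K H : ℝ → ℝ} (hK : Adm C K) (hH : Adm C' H) (hτ : 0 < τ)
    (hc : ∀ x, |K x - H x| ≤ τ / 2) (x : ℝ) :
    iteratedDeriv 1 H x ^ 2 - 4 * √τ ≤ iteratedDeriv 1 K x ^ 2 := by
  have sK := vari_sm hK
  have sH := vari_sm hH
  have hq : 0 < √τ := Real.sqrt_pos.2 hτ
  have hb : ∀ x, |iteratedDeriv 2 K x - iteratedDeriv 2 H x| ≤ 1 := by
    intro x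
    have h1 := vari_d2_01 hK x
    have h2 := vari_d2_01 hH x
    rw [abs_le]
    constructor <;> linarith [h1.1, h1.2, h2.1, h2.2]
  have h1 := vari_interp (f := fun x => K x - H x)
    (f1 := fun x => iteratedDeriv 1 K x - iteratedDeriv 1 H x)
    (f2 := fun x => iteratedDeriv 2 K x - iteratedDeriv 2 H x)
    (fun x => (sK.d1 x).sub (sH.d1 x)) (fun x => (sK.d2 x).sub (sH.d2 x)) hb hq hc x
  have h2 : 2 * (τ / 2) / √τ + √τ = 2 * √τ := by
    have h3 : 2 * (τ / 2) / √τ = √τ := by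
      rw [div_eq_iff hq.ne', Real.mul_self_sqrt hτ.le]
      ring
    rw [h3]
    ring
  rw [h2] at h1
  have hk := vari_abs1 hK x
  have hh := vari_abs1 hH x
  have h4 : |(iteratedDeriv 1 K x - iteratedDeriv 1 H x)
      * (iteratedDeriv 1 K x + iteratedDeriv 1 H x)| ≤ 2 * √τ * 2 := by
    rw [abs_mul]
    refine mul_le_mul h1 ?_ (abs_nonneg _) (by positivity)
    exact (abs_add_le _ _).trans (by linarith)
  have h5 := (abs_le.1 h4).1
  have h6 : (iteratedDeriv 1 K x - iteratedDeriv 1 H x)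
      * (iteratedDeriv 1 K x + iteratedDeriv 1 H x)
      = iteratedDeriv 1 K x ^ 2 - iteratedDeriv 1 H x ^ 2 := by ring
  rw [h6] at h5
  linarith

/-- lower bound of the integrand -/
theorem vari_integrand {C g g₂ τ t : ℝ} {G : ℝ → ℝ} (hG : Adm C G) (hg : 0 < g)
    (hgg : g < g₂) (hg1 : g₂ ≤ 1) (hτ : 0 < τ) (ht : t ∈ Icc 0 τ) (x : ℝ) :
    iteratedDeriv 1 (gstep g₂ τ G) x ^ 2 - 4 * √τ ≤ tlt g₂ t (gstep g (τ - t) G)
      (fun y => iteratedDeriv 1 (gstep g (τ - t) G) y ^ 2) x := by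
  have hg₂ : 0 < g₂ := hg.trans hgg
  have ht0 := ht.1
  have htτ : 0 ≤ τ - t := by linarith [ht.2]
  have hK0 := hG.step hg (hgg.le.trans hg1) htτ
  have hK1 := hG.step hg₂ hg1 htτ
  have hK := hK0.step hg₂ hg1 ht0
  have hH := hG.step hg₂ hg1 hτ.le
  have hHe : gstep g₂ t (gstep g₂ (τ - t) G) = gstep g₂ τ G := by
    rw [gstep_add hG hg₂ ht0 htτ]
    congr 1
    ring
  have hclose0 : ∀ y, |gstep g (τ - t) G y - gstep g₂ (τ - t) G y| ≤ τ / 2 := by
    intro y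
    have h1 := gstep_exp_mono hG hg hgg.le hg1 htτ y
    have h2 := gstep_exp_lip hG hg hgg.le hg1 htτ y
    have h3 : 1 / 2 * (g₂ - g) * (τ - t) ≤ 1 / 2 * 1 * τ := by
      refine mul_le_mul (by linarith) (by linarith) htτ (by norm_num)
    rw [abs_le]
    constructor <;> linarith
  have hclose : ∀ y, |gstep g₂ t (gstep g (τ - t) G) y - gstep g₂ τ G y| ≤ τ / 2 := by
    intro y
    rw [← hHe]
    exact gstep_nonexp hK0 hK1 hg₂ t hclose0 y
  refine (vari_close hK hH hτ hclose x).trans ?_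
  have s0 := vari_sm hK0
  have e1 : iteratedDeriv 1 (gstep g₂ t (gstep g (τ - t) G)) x
      = tlt g₂ t (gstep g (τ - t) G) (iteratedDeriv 1 (gstep g (τ - t) G)) x :=
    ((vari_sm hK).d1 x).unique ((s0.step hg₂ t).d1 x)
  rw [e1]
  exact s0.tlt_sq_le s0.cont1 s0.bM g₂ t x

theorem vari_low {C g g₂ τ : ℝ} {G : ℝ → ℝ} (hG : Adm C G) (hg : 0 < g)
    (hgg : g < g₂) (hg1 : g₂ ≤ 1) (hτ : 0 < τ) (x : ℝ) :
    1 / 2 * (g₂ - g) * (τ * (iteratedDeriv 1 (gstep g₂ τ G) x ^ 2 - 4 * √τ)) ≤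
      gstep g₂ τ G x - gstep g τ G x := by
  rw [gstep_diff hG hg (hgg.le.trans hg1) (hg.trans hgg) hg1 hτ.le x]
  refine mul_le_mul_of_nonneg_left ?_ (by linarith)
  have h1 : (∫ _t in (0 : ℝ)..τ, (iteratedDeriv 1 (gstep g₂ τ G) x ^ 2 - 4 * √τ))
      = τ * (iteratedDeriv 1 (gstep g₂ τ G) x ^ 2 - 4 * √τ) := by
    rw [intervalIntegral.integral_const, smul_eq_mul, sub_zero]
  rw [← h1]
  exact intervalIntegral.integral_mono_on hτ.le intervalIntegrable_const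
    ((vari_cont hG hg x).intervalIntegrable_of_Icc hτ.le)
    (fun t ht => vari_integrand hG hg hgg hg1 hτ ht x)

/-- the inequality for one value of `τ` -/
theorem vari_one {b C g g₂ s₁ τ : ℝ} {G : ℝ → ℝ} (hb : 0 < b) (hG : Adm C G) (hg : 0 < g)
    (hgg : g < g₂) (hg1 : g₂ ≤ 1) (hτ : 0 < τ)
    (hmin : gstep g s₁ (gstep g₂ τ G) 0 - (g - g₂) * s₁ ^ 2 / (4 * b ^ 2) ≤
      gstep g s₁ (gstep g τ G) 0 - (g - g₂) * (s₁ + τ) ^ 2 / (4 * b ^ 2)) :
    tlt g s₁ (gstep g₂ τ G) (fun y => iteratedDeriv 1 (gstep g₂ τ G) y ^ 2) 0 ≤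
      (2 * s₁ + τ) / (2 * b ^ 2) + τ + 4 * √τ := by
  have hg₂ : 0 < g₂ := hg.trans hgg
  have hg1' : g ≤ 1 := hgg.le.trans hg1
  have hH := hG.step hg₂ hg1 hτ.le
  have hHt := hG.step hg hg1' hτ.le
  have sH := vari_sm hH
  have sHt := vari_sm hHt
  set H := gstep g₂ τ G with hHd
  set Ht := gstep g τ G with hHtd
  have hq : 0 ≤ √τ := Real.sqrt_nonneg τ
  set T := tlt g s₁ H (fun y => iteratedDeriv 1 H y ^ 2) 0 with hT
  set k := 1 / 2 * (g₂ - g) with hk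
  have hk0 : 0 < k := by rw [hk]; linarith
  have hk1 : k ≤ 1 / 2 := by rw [hk]; linarith
  have hd0 : ∀ x, 0 ≤ H x - Ht x := fun x => by
    have := gstep_exp_mono hG hg hgg.le hg1 hτ.le x
    linarith
  have hd1 : ∀ x, H x - Ht x ≤ k * τ := fun x => by
    have h0 := gstep_exp_lip hG hg hgg.le hg1 hτ.le x
    rw [← hk, ← hHd, ← hHtd] at h0
    linarith
  have hdc : Continuous fun x => H x - Ht x := sH.cont.sub sHt.cont
  have h1 := vari_log (s := s₁) hH hdc hg hd0 hd1 0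
  have e1 : (fun y => H y - (H y - Ht y)) = Ht := by funext y; ring
  rw [e1] at h1
  -- lower bound of the tilted average of `d`
  have hc1 : Continuous (iteratedDeriv 1 H) := sH.cont1
  have hb1 : ∀ y, |iteratedDeriv 1 H y ^ 2| ≤ 1 := fun y => by
    rw [abs_pow]
    exact pow_le_one₀ (abs_nonneg _) (vari_abs1 hH y)
  have hb2 : ∀ y, |k * τ * iteratedDeriv 1 H y ^ 2| ≤ k * τ := fun y => by
    rw [abs_mul, abs_of_pos (mul_pos hk0 hτ)]
    exact mul_le_of_le_one_right (mul_pos hk0 hτ).le (hb1 y)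
  have hlow : ∀ y, k * τ * iteratedDeriv 1 H y ^ 2 + -(k * τ * (4 * √τ)) ≤ H y - Ht y := by
    intro y
    have h2 := vari_low hG hg hgg hg1 hτ y
    rw [← hk, ← hHd, ← hHtd] at h2
    linarith
  have h3 := sH.tlt_mono (g := fun y => k * τ * iteratedDeriv 1 H y ^ 2 + -(k * τ * (4 * √τ)))
    (g' := fun y => H y - Ht y) (by fun_prop) (K := k * τ + |-(k * τ * (4 * √τ))|)
    (fun y => (abs_add_le _ _).trans (add_le_add (hb2 y) le_rfl)) hdc (K' := k * τ)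
    (fun y => by rw [abs_of_nonneg (hd0 y)]; exact hd1 y) hlow g s₁ 0
  rw [sH.tlt_add (g := fun y => k * τ * iteratedDeriv 1 H y ^ 2)
    (g' := fun _ => -(k * τ * (4 * √τ))) (by fun_prop) hb2 continuous_const (fun _ => le_rfl),
    tlt_const_mul, sH.tlt_const, ← hT] at h3
  -- combination
  have h4 : k * τ * (T - 4 * √τ) ≤ k * τ * ((2 * s₁ + τ) / (2 * b ^ 2)) + g / 2 * (k * τ) ^ 2 := by
    have e2 : k * τ * ((2 * s₁ + τ) / (2 * b ^ 2))
        = (g₂ - g) * (s₁ + τ) ^ 2 / (4 * b ^ 2) - (g₂ - g) * s₁ ^ 2 / (4 * b ^ 2) := by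
      rw [hk]
      field_simp
      ring
    have e3 : (g - g₂) * s₁ ^ 2 / (4 * b ^ 2) = -((g₂ - g) * s₁ ^ 2 / (4 * b ^ 2)) := by ring
    have e4 : (g - g₂) * (s₁ + τ) ^ 2 / (4 * b ^ 2) = -((g₂ - g) * (s₁ + τ) ^ 2 / (4 * b ^ 2)) := by
      ring
    rw [e2]
    rw [e3, e4] at hmin
    linarith
  have h5 : g / 2 * (k * τ) ^ 2 ≤ k * τ * τ := by
    have e5 : g / 2 * (k * τ) ^ 2 = k * τ * (g / 2 * k * τ) := by ring
    rw [e5]
    refine mul_le_mul_of_nonneg_left ?_ (mul_pos hk0 hτ).le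
    have e6 : g / 2 * k ≤ 1 := by
      calc g / 2 * k ≤ 1 * (1 / 2) := mul_le_mul (by linarith) hk1 hk0.le (by norm_num)
        _ ≤ 1 := by norm_num
    exact mul_le_of_le_one_left hτ.le e6
  have h6 : k * τ * (T - 4 * √τ) ≤ k * τ * ((2 * s₁ + τ) / (2 * b ^ 2) + τ) := by
    rw [mul_add]
    linarith
  have h7 := le_of_mul_le_mul_left h6 (mul_pos hk0 hτ)
  linarith

theorem vari_down {b C g g₂ s₁ v : ℝ} {F : ℝ → ℝ} (hb : 0 < b) (h : Adm C F) (hg : 0 < g)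
    (hgg : g < g₂) (hg1 : g₂ ≤ 1) (hs : 0 < s₁) (hv : 0 < v)
    (hmin : ∀ τ ∈ Ioo 0 v, gstep g s₁ (gstep g₂ v F) 0 - (g - g₂) * s₁ ^ 2 / (4 * b ^ 2) ≤
      gstep g (s₁ + τ) (gstep g₂ (v - τ) F) 0 - (g - g₂) * (s₁ + τ) ^ 2 / (4 * b ^ 2)) :
    Rf g g s₁ (gstep g₂ v F) s₁ ≤ s₁ / b ^ 2 := by
  have hg₂ : 0 < g₂ := hg.trans hgg
  have hR : Rf g g s₁ (gstep g₂ v F) s₁
      = tlt g s₁ (gstep g₂ v F) (fun y => iteratedDeriv 1 (gstep g₂ v F) y ^ 2) 0 := by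
    unfold Rf
    rw [sub_self, gstep_zero hg.ne']
  rw [hR]
  have key : ∀ τ ∈ Ioo 0 v, tlt g s₁ (gstep g₂ v F)
      (fun y => iteratedDeriv 1 (gstep g₂ v F) y ^ 2) 0 ≤
      (2 * s₁ + τ) / (2 * b ^ 2) + τ + 4 * √τ := by
    intro τ hτ
    have hvt : 0 ≤ v - τ := by linarith [hτ.2]
    have hG := h.step hg₂ hg1 hvt
    have e1 : gstep g₂ τ (gstep g₂ (v - τ) F) = gstep g₂ v F := by
      rw [gstep_add h hg₂ hτ.1.le hvt]
      congr 1
      ring
    have e2 : gstep g s₁ (gstep g τ (gstep g₂ (v - τ) F))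
        = gstep g (s₁ + τ) (gstep g₂ (v - τ) F) := gstep_add hG hg hs.le hτ.1.le
    have h1 := hmin τ hτ
    rw [← e1, ← e2] at h1
    have h2 := vari_one hb hG hg hgg hg1 hτ.1 h1
    rw [e1] at h2
    exact h2
  have hlim : Tendsto (fun τ : ℝ => (2 * s₁ + τ) / (2 * b ^ 2) + τ + 4 * √τ) (𝓝[>] 0)
      (𝓝 ((2 * s₁ + 0) / (2 * b ^ 2) + 0 + 4 * √0)) := by
    refine Tendsto.mono_left (Continuous.tendsto ?_ 0) nhdsWithin_le_nhds
    fun_prop
  have h3 : (2 * s₁ + 0) / (2 * b ^ 2) + 0 + 4 * √0 = s₁ / b ^ 2 := by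
    rw [Real.sqrt_zero]
    field_simp
    ring
  rw [h3] at hlim
  refine ge_of_tendsto hlim ?_
  filter_upwards [Ioo_mem_nhdsGT hv] with τ hτ
  exact key τ hτ

end Vale.Agent.P146.Gap
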