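import Mathlib
import Vale.Agent.P157.ParSpDefs

/-!
# P146 / Gap: definitions for the no-gap theorem (marginality of the SK Parisi measure)
-/

open MeasureTheory ProbabilityTheory Filter Topology Set

namespace Vale.Agent.P146.Gap

open Vale.Agent.P157.Par

/-- Positive smooth functions whose derivatives are all dominated by the function itself. -/
structure PosF (ψ : ℝ → ℝ) : Prop where
  smooth : ContDiff ℝ (⊤ : ℕ∞) ψ
  pos : ∀ x, 0 < ψ x
  ctrl : ∀ j : ℕ, ∃ C : ℝ, ∀ x, |iteratedDeriv j ψ x| ≤ C * ψ x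

/-- Gaussian average of the `j`-th derivative of `ψ` (variance `s`). -/
noncomputable def U (ψ : ℝ → ℝ) (j : ℕ) (s x : ℝ) : ℝ :=
  ∫ z, iteratedDeriv j ψ (x + √s * z) ∂(gaussianReal 0 1)

/-- Smooth functions, all derivatives of order `≥ 1` are bounded. -/
structure SmB (F : ℝ → ℝ) : Prop where
  smooth : ContDiff ℝ (⊤ : ℕ∞) F
  bd : ∀ j : ℕ, ∃ C : ℝ, ∀ x, |iteratedDeriv (j + 1) F x| ≤ C

/-- Admissible functions of the Parisi recursion. -/
structure Adm (C : ℝ) (F : ℝ → ℝ) : Prop where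
  smb : SmB F
  even : ∀ x, F (-x) = F x
  pos : ∀ x, 0 < iteratedDeriv 2 F x
  le1 : ∀ x, iteratedDeriv 2 F x + iteratedDeriv 1 F x ^ 2 ≤ 1
  r3 : ∀ x, |iteratedDeriv 3 F x| ≤ C * iteratedDeriv 2 F x
  r4 : ∃ C' : ℝ, ∀ x, |iteratedDeriv 4 F x| ≤ C' * iteratedDeriv 2 F x

/-- `j`-th space derivative of `F` after one Parisi step of exponent `g` and variance `s`. -/
noncomputable def fj (g : ℝ) (F : ℝ → ℝ) (j : ℕ) (s x : ℝ) : ℝ :=
  iteratedDeriv j (gstep g s F) x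

/-- `β = -(log F'')'' - 2 g F''`. -/
noncomputable def bet (g : ℝ) (F : ℝ → ℝ) (x : ℝ) : ℝ :=
  (iteratedDeriv 3 F x / iteratedDeriv 2 F x) ^ 2 - iteratedDeriv 4 F x / iteratedDeriv 2 F x
    - 2 * g * iteratedDeriv 2 F x

/-- `β'`. -/
noncomputable def betp (g : ℝ) (F : ℝ → ℝ) (x : ℝ) : ℝ :=
  -(iteratedDeriv 5 F x / iteratedDeriv 2 F x)
    + 3 * (iteratedDeriv 3 F x * iteratedDeriv 4 F x) / iteratedDeriv 2 F x ^ 2
    - 2 * (iteratedDeriv 3 F x / iteratedDeriv 2 F x) ^ 3 - 2 * g * iteratedDeriv 3 F x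

/-- `Y = -(log F'')' - g F'`. -/
noncomputable def Yf (g : ℝ) (F : ℝ → ℝ) (x : ℝ) : ℝ :=
  -(iteratedDeriv 3 F x / iteratedDeriv 2 F x) - g * iteratedDeriv 1 F x

/-- `h = F'' exp (g F)`. -/
noncomputable def hf (g : ℝ) (F : ℝ → ℝ) (x : ℝ) : ℝ :=
  iteratedDeriv 2 F x * Real.exp (g * F x)

/-- `ϑ = β F'' exp (g F)`. -/
noncomputable def th (g : ℝ) (F : ℝ → ℝ) (x : ℝ) : ℝ := bet g F x * hf g F x

/-- The invariant class of the Parisi flow with exponent `g`. -/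
structure Good (g C : ℝ) (F : ℝ → ℝ) : Prop where
  adm : Adm C F
  bet_nonneg : ∀ x, 0 ≤ bet g F x
  betp_le : ∀ x, 0 ≤ x → betp g F x ≤ Yf g F x * bet g F x

/-- `log cosh`. -/
noncomputable def lc (x : ℝ) : ℝ := Real.log (Real.cosh x)

/-- The overlap `R(τ) = E (∂ G_τ)²` along the first block `[0, s₁]` of exponent `g`, above which
the function is `F`; the tilt exponent `g'` is free (`g' = g` for the overlap itself). -/
noncomputable def Rf (g' g s₁ : ℝ) (F : ℝ → ℝ) (τ : ℝ) : ℝ :=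
  tlt g' τ (gstep g (s₁ - τ) F) (fun y => iteratedDeriv 1 (gstep g (s₁ - τ) F) y ^ 2) 0

/-- `M = R'`. -/
noncomputable def Mf (g s₁ : ℝ) (F : ℝ → ℝ) (τ : ℝ) : ℝ :=
  tlt g τ (gstep g (s₁ - τ) F) (fun y => iteratedDeriv 2 (gstep g (s₁ - τ) F) y ^ 2) 0

/-- `M'`. -/
noncomputable def M1f (g s₁ : ℝ) (F : ℝ → ℝ) (τ : ℝ) : ℝ :=
  tlt g τ (gstep g (s₁ - τ) F) (fun y => iteratedDeriv 3 (gstep g (s₁ - τ) F) y ^ 2
    - 2 * g * iteratedDeriv 2 (gstep g (s₁ - τ) F) y ^ 3) 0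

/-- `M''`. -/
noncomputable def M2f (g s₁ : ℝ) (F : ℝ → ℝ) (τ : ℝ) : ℝ :=
  tlt g τ (gstep g (s₁ - τ) F) (fun y => iteratedDeriv 4 (gstep g (s₁ - τ) F) y ^ 2
    - 12 * g * iteratedDeriv 2 (gstep g (s₁ - τ) F) y
      * iteratedDeriv 3 (gstep g (s₁ - τ) F) y ^ 2
    + 6 * g ^ 2 * iteratedDeriv 2 (gstep g (s₁ - τ) F) y ^ 4) 0

/-- The Parisi functional of SK without field (`log 2` not included): `k` levels, exponents `m`,
path `r` in variance units, inverse temperature `b`. -/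
noncomputable def SKr (b : ℝ) (k : ℕ) (m r : ℕ → ℝ) : ℝ :=
  spinPart k m r + b ^ 2 / 4
    + (∑ l ∈ Finset.range (k + 1), (m (l + 1) - m l) * r l ^ 2) / (4 * b ^ 2)

/-- The same functional, as a function of the overlaps `q`. -/
noncomputable def SKpar (b : ℝ) (k : ℕ) (m q : ℕ → ℝ) : ℝ :=
  b ^ 2 / 4 * (1 + ∑ l ∈ Finset.range (k + 1), (m (l + 1) - m l) * q l ^ 2)
    + spinPart k m (fun l => b ^ 2 * q l)

end Vale.Agent.P146.Gap
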