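import Vale.Agent.P146.Gap.AdmStep

/-! # P146 / Gap: `β ≥ 0` is preserved by the Parisi flow (section BETA of the skeleton) -/

open MeasureTheory ProbabilityTheory Filter Topology Set

namespace Vale.Agent.P146.Gap

open Vale.Agent.P157.Par

variable {C g : ℝ} {F : ℝ → ℝ}

/-- `β''`. -/
noncomputable def beta_pp (g : ℝ) (F : ℝ → ℝ) (x : ℝ) : ℝ :=
  -(iteratedDeriv 6 F x / iteratedDeriv 2 F x)
    + (iteratedDeriv 5 F x * iteratedDeriv 3 F x) / iteratedDeriv 2 F x ^ 2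
    + 3 * (iteratedDeriv 4 F x ^ 2 + iteratedDeriv 3 F x * iteratedDeriv 5 F x)
        / iteratedDeriv 2 F x ^ 2
    - 6 * (iteratedDeriv 3 F x ^ 2 * iteratedDeriv 4 F x) / iteratedDeriv 2 F x ^ 3
    - 6 * (iteratedDeriv 3 F x / iteratedDeriv 2 F x) ^ 2
        * (iteratedDeriv 4 F x / iteratedDeriv 2 F x
            - (iteratedDeriv 3 F x / iteratedDeriv 2 F x) ^ 2)
    - 2 * g * iteratedDeriv 4 F x

theorem beta_iter {G : ℝ → ℝ} (hG : SmB G) (j : ℕ) (x : ℝ) :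
    HasDerivAt (iteratedDeriv j G) (iteratedDeriv (j + 1) G x) x := by
  have h1 : Differentiable ℝ (iteratedDeriv j G) := by
    apply hG.smooth.differentiable_iteratedDeriv j
    exact_mod_cast WithTop.coe_lt_top j
  have h2 := (h1 x).hasDerivAt
  rwa [← iteratedDeriv_succ] at h2

theorem beta_hasDerivAt {G : ℝ → ℝ} (hG : SmB G) {x : ℝ} (hp : 0 < iteratedDeriv 2 G x) (g : ℝ) :
    HasDerivAt (bet g G) (betp g G x) x := by
  have h2 := beta_iter hG 2 x
  have h3 := beta_iter hG 3 x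
  have h4 := beta_iter hG 4 x
  have hp' : iteratedDeriv 2 G x ≠ 0 := hp.ne'
  have h := ((((h3.div h2 hp').pow 2).sub (h4.div h2 hp')).sub (h2.const_mul (2 * g)))
  refine h.congr_deriv ?_
  simp only [betp, Pi.div_apply, show (2 : ℕ) - 1 = 1 from rfl, Nat.cast_ofNat, pow_one]
  field_simp
  ring

theorem beta_p_hasDerivAt {G : ℝ → ℝ} (hG : SmB G) {x : ℝ} (hp : 0 < iteratedDeriv 2 G x)
    (g : ℝ) : HasDerivAt (betp g G) (beta_pp g G x) x := by
  have h2 := beta_iter hG 2 x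
  have h3 := beta_iter hG 3 x
  have h4 := beta_iter hG 4 x
  have h5 := beta_iter hG 5 x
  have hp' : iteratedDeriv 2 G x ≠ 0 := hp.ne'
  have hp2 : iteratedDeriv 2 G x ^ 2 ≠ 0 := pow_ne_zero 2 hp'
  have h := (((h5.div h2 hp').neg.add (((h3.mul h4).const_mul 3).div (h2.pow 2) hp2)).sub
    (((h3.div h2 hp').pow 3).const_mul 2)).sub (h3.const_mul (2 * g))
  refine h.congr_deriv ?_
  simp only [beta_pp, Pi.div_apply, Pi.mul_apply, Pi.pow_apply, show (2 : ℕ) - 1 = 1 from rfl,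
    show (3 : ℕ) - 1 = 2 from rfl, Nat.cast_ofNat, pow_one]
  field_simp
  ring

/-- The evolution equation of `β`. -/
theorem beta_s (h : SmB F) (hg : 0 < g) {s : ℝ} (hs : 0 < s) {x : ℝ}
    (hp : 0 < iteratedDeriv 2 (gstep g s F) x) :
    HasDerivAt (fun s => bet g (gstep g s F) x)
      (1 / 2 * beta_pp g (gstep g s F) x - Yf g (gstep g s F) x * betp g (gstep g s F) x
        - (g * iteratedDeriv 2 (gstep g s F) x + bet g (gstep g s F) x)
          * bet g (gstep g s F) x) s := by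
  have h2 := fj_s2 h hg hs x
  have h3 := fj_s3 h hg hs x
  have h4 := fj_s4 h hg hs x
  have hp' : fj g F 2 s x ≠ 0 := hp.ne'
  have h := ((((h3.div h2 hp').pow 2).sub (h4.div h2 hp')).sub (h2.const_mul (2 * g)))
  refine h.congr_deriv ?_
  simp only [betp, beta_pp, bet, Yf, Pi.div_apply, show (2 : ℕ) - 1 = 1 from rfl,
    Nat.cast_ofNat, pow_one]
  change _ = 1 / 2 * (-(fj g F 6 s x / fj g F 2 s x)
    + (fj g F 5 s x * fj g F 3 s x) / fj g F 2 s x ^ 2
    + 3 * (fj g F 4 s x ^ 2 + fj g F 3 s x * fj g F 5 s x) / fj g F 2 s x ^ 2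
    - 6 * (fj g F 3 s x ^ 2 * fj g F 4 s x) / fj g F 2 s x ^ 3
    - 6 * (fj g F 3 s x / fj g F 2 s x) ^ 2
        * (fj g F 4 s x / fj g F 2 s x - (fj g F 3 s x / fj g F 2 s x) ^ 2)
    - 2 * g * fj g F 4 s x)
    - (-(fj g F 3 s x / fj g F 2 s x) - g * fj g F 1 s x)
      * (-(fj g F 5 s x / fj g F 2 s x)
        + 3 * (fj g F 3 s x * fj g F 4 s x) / fj g F 2 s x ^ 2
        - 2 * (fj g F 3 s x / fj g F 2 s x) ^ 3 - 2 * g * fj g F 3 s x)
    - (g * fj g F 2 s x + ((fj g F 3 s x / fj g F 2 s x) ^ 2 - fj g F 4 s x / fj g F 2 s x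
        - 2 * g * fj g F 2 s x)) * ((fj g F 3 s x / fj g F 2 s x) ^ 2
        - fj g F 4 s x / fj g F 2 s x - 2 * g * fj g F 2 s x)
  generalize fj g F 1 s x = a1 at *
  generalize fj g F 2 s x = a2 at *
  generalize fj g F 3 s x = a3 at *
  generalize fj g F 4 s x = a4 at *
  generalize fj g F 5 s x = a5 at *
  generalize fj g F 6 s x = a6 at *
  field_simp
  ring

theorem beta_pos (h : Adm C F) (hg : 0 < g) (hg1 : g ≤ 1) {s : ℝ} (hs : 0 ≤ s) (x : ℝ) :
    0 < iteratedDeriv 2 (gstep g s F) x := (h.step hg hg1 hs).pos x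

theorem beta_cont (h : Adm C F) (hg : 0 < g) (hg1 : g ≤ 1) (S : ℝ) :
    ContinuousOn (fun p : ℝ × ℝ => bet g (gstep g p.1 F) p.2) (Icc 0 S ×ˢ univ) := by
  have h2 := (fj_cont h.smb hg 2).continuousOn (s := Icc 0 S ×ˢ (univ : Set ℝ))
  have h3 := (fj_cont h.smb hg 3).continuousOn (s := Icc 0 S ×ˢ (univ : Set ℝ))
  have h4 := (fj_cont h.smb hg 4).continuousOn (s := Icc 0 S ×ˢ (univ : Set ℝ))
  have hp : ∀ p ∈ Icc 0 S ×ˢ (univ : Set ℝ), fj g F 2 p.1 p.2 ≠ 0 := by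
    rintro ⟨s, x⟩ ⟨hs, -⟩
    exact (beta_pos h hg hg1 hs.1 x).ne'
  exact (((h3.div h2 hp).pow 2).sub (h4.div h2 hp)).sub (continuousOn_const.mul h2)

theorem beta_bound (h : Adm C F) (hg : 0 < g) (hg1 : g ≤ 1) (S : ℝ) :
    ∃ B : ℝ, 0 ≤ B ∧ (∀ s ∈ Icc 0 S, ∀ x, |bet g (gstep g s F) x| ≤ B) ∧
      ∀ s ∈ Icc 0 S, ∀ x, |Yf g (gstep g s F) x| ≤ B := by
  obtain ⟨C', hC'⟩ := h.r4_unif hg hg1 S
  have hC := h.C_nonneg
  set P : ℝ := C * Real.exp (2 * g * S) with hP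
  have hP0 : 0 ≤ P := by positivity
  have key : ∀ s ∈ Icc 0 S, ∀ x, |iteratedDeriv 3 (gstep g s F) x / iteratedDeriv 2 (gstep g s F) x|
      ≤ P ∧ |iteratedDeriv 4 (gstep g s F) x / iteratedDeriv 2 (gstep g s F) x| ≤ |C'| ∧
      |iteratedDeriv 2 (gstep g s F) x| ≤ 1 ∧ |iteratedDeriv 1 (gstep g s F) x| ≤ 1 := by
    intro s hs x
    have hA := h.step hg hg1 hs.1
    have hp := hA.pos x
    have hl := hA.le1 x
    refine ⟨?_, ?_, ?_, ?_⟩
    · rw [abs_div, abs_of_pos hp, div_le_iff₀ hp]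
      refine (hA.r3 x).trans ?_
      apply mul_le_mul_of_nonneg_right _ hp.le
      rw [hP]
      apply mul_le_mul_of_nonneg_left _ hC
      apply Real.exp_le_exp.2
      have := hs.2
      nlinarith
    · rw [abs_div, abs_of_pos hp, div_le_iff₀ hp]
      refine (hC' s hs x).trans ?_
      exact mul_le_mul_of_nonneg_right (le_abs_self C') hp.le
    · rw [abs_of_pos hp]
      nlinarith [sq_nonneg (iteratedDeriv 1 (gstep g s F) x)]
    · rw [← sq_le_one_iff_abs_le_one]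
      linarith
  refine ⟨P ^ 2 + P + |C'| + 3, by positivity, ?_, ?_⟩
  · intro s hs x
    obtain ⟨k1, k2, k3, k4⟩ := key s hs x
    rw [bet]
    have e1 : |(iteratedDeriv 3 (gstep g s F) x / iteratedDeriv 2 (gstep g s F) x) ^ 2| ≤ P ^ 2 := by
      rw [abs_pow]
      exact pow_le_pow_left₀ (abs_nonneg _) k1 2
    have e2 : |2 * g * iteratedDeriv 2 (gstep g s F) x| ≤ 2 := by
      rw [abs_mul, abs_of_pos (by positivity : (0 : ℝ) < 2 * g)]
      nlinarith [abs_nonneg (iteratedDeriv 2 (gstep g s F) x)]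
    calc _ ≤ |(iteratedDeriv 3 (gstep g s F) x / iteratedDeriv 2 (gstep g s F) x) ^ 2|
          + |iteratedDeriv 4 (gstep g s F) x / iteratedDeriv 2 (gstep g s F) x|
          + |2 * g * iteratedDeriv 2 (gstep g s F) x| := by
            refine (abs_sub _ _).trans ?_
            gcongr
            exact abs_sub _ _
      _ ≤ P ^ 2 + P + |C'| + 3 := by linarith
  · intro s hs x
    obtain ⟨k1, k2, k3, k4⟩ := key s hs x
    rw [Yf]
    have e2 : |g * iteratedDeriv 1 (gstep g s F) x| ≤ 1 := by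
      rw [abs_mul, abs_of_pos hg]
      nlinarith [abs_nonneg (iteratedDeriv 1 (gstep g s F) x)]
    calc _ ≤ |-(iteratedDeriv 3 (gstep g s F) x / iteratedDeriv 2 (gstep g s F) x)|
          + |g * iteratedDeriv 1 (gstep g s F) x| := abs_sub _ _
      _ ≤ P ^ 2 + P + |C'| + 3 := by
          rw [abs_neg]
          have := abs_nonneg C'
          nlinarith [sq_nonneg P]

theorem bet_step (h : Adm C F) (hb : ∀ x, 0 ≤ bet g F x) (hg : 0 < g) (hg1 : g ≤ 1) {s : ℝ}
    (hs : 0 ≤ s) : ∀ x, 0 ≤ bet g (gstep g s F) x := by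
  rcases hs.eq_or_lt with rfl | hs0
  · intro x
    rw [gstep_zero hg.ne']
    exact hb x
  obtain ⟨B, hB0, hB1, hB2⟩ := beta_bound h hg hg1 s
  have hsm : ∀ t, SmB (gstep g t F) := fun t => smB_gstep h.smb hg t
  have main := maxp_line (S := s) (B := B) (w := fun t x => bet g (gstep g t F) x)
    (ws := fun t x => 1 / 2 * beta_pp g (gstep g t F) x
        - Yf g (gstep g t F) x * betp g (gstep g t F) x
        - (g * iteratedDeriv 2 (gstep g t F) x + bet g (gstep g t F) x)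
          * bet g (gstep g t F) x)
    (wx := fun t x => betp g (gstep g t F) x)
    (wxx := fun t x => beta_pp g (gstep g t F) x)
    (b := fun t x => - Yf g (gstep g t F) x)
    (c := fun t x => -(g * iteratedDeriv 2 (gstep g t F) x + bet g (gstep g t F) x))
    hs0 (beta_cont h hg hg1 s) hB1 ?_ ?_ ?_ ?_ ?_ ?_ ?_
  · exact fun x => main s ⟨hs, le_rfl⟩ x
  · intro t ht x
    exact beta_s h.smb hg ht.1 (beta_pos h hg hg1 ht.1.le x)
  · intro t ht x
    exact beta_hasDerivAt (hsm t) (beta_pos h hg hg1 ht.1.le x) g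
  · intro t ht x
    exact beta_p_hasDerivAt (hsm t) (beta_pos h hg hg1 ht.1.le x) g
  · intro t ht x
    simp only [abs_neg]
    exact hB2 t ⟨ht.1.le, ht.2.le⟩ x
  · intro t ht x
    have h1 := hB1 t ⟨ht.1.le, ht.2.le⟩ x
    have h2 := beta_pos h hg hg1 ht.1.le x
    have h3 := neg_abs_le (bet g (gstep g t F) x)
    have h4 : 0 < g * iteratedDeriv 2 (gstep g t F) x := mul_pos hg h2
    linarith
  · intro t ht x
    apply le_of_eq
    ring
  · intro x
    rw [gstep_zero hg.ne']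
    exact hb x

end Vale.Agent.P146.Gap
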