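import Mathlib

/-!
The pointwise certificate for `T ≥ 0` (no gap in the Parisi measure).
-/

namespace Vale.Agent.P146.Gap

/-- The multiplier of the certificate. -/
noncomputable def rho (e P D W A K b : ℝ) : ℝ :=
  21 / 4 * P ^ 3 + 68 / 5 * P ^ 2 * D + 153 / 10 * P * D ^ 2 - 47 / 20 * P ^ 2 * W
    - 67 / 20 * P * D * W - 9 / 10 * P * K + 9 / 10 * A * W - 173 / 20 * A * D
    - 97 / 10 * A * P - 9 / 20 * b * P - 1 / 8 * (b ^ 2 * D / (D ^ 2 + b / 4 + e))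

/-- The derivative of the multiplier along `P' = A`, `D' = b/2`, `W' = K`, `K' = 0`,
`A' = -2 (P + D) A`, `b' = B`. -/
noncomputable def rhop (e P D W A K b B : ℝ) : ℝ :=
  21 / 4 * (3 * P ^ 2 * A) + 68 / 5 * (2 * P * A * D + P ^ 2 * (b / 2))
    + 153 / 10 * (A * D ^ 2 + P * D * b) - 47 / 20 * (2 * P * A * W + P ^ 2 * K)
    - 67 / 20 * (A * D * W + P * (b / 2) * W + P * D * K) - 9 / 10 * (A * K)
    + 9 / 10 * (-2 * (P + D) * A * W + A * K)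
    - 173 / 20 * (-2 * (P + D) * A * D + A * (b / 2))
    - 97 / 10 * (-2 * (P + D) * A * P + A * A) - 9 / 20 * (B * P + b * A)
    - 1 / 8 * ((2 * b * B * D + b ^ 2 * (b / 2)) / (D ^ 2 + b / 4 + e)
      - b ^ 2 * D * (D * b + B / 4) / (D ^ 2 + b / 4 + e) ^ 2)

theorem cert_one {e d b : ℝ} (he : 0 < e) (hd : 0 ≤ d) (hb : 0 ≤ b) :
    3 / 4 * b ^ 2 - 6 * b * d + 129 / 10 * d ^ 2 - 3 * e * b ≤
      (b - 4 * d) ^ 2 + b ^ 2 / (8 * (d + b / 4 + e) ^ 2) * (d * b - b ^ 2 / 8 - b * e / 2) := by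
  have hΔ : 0 < d + b / 4 + e := by positivity
  set Δ := d + b / 4 + e with hΔd
  have key : 0 ≤ 64 * Δ ^ 2 * (b ^ 2 / 4 - 2 * b * d + 31 / 10 * d ^ 2 + 3 * e * b)
      + 8 * b ^ 2 * (d * b - b ^ 2 / 8 - b * e / 2) := by
    have h0 : 64 * Δ ^ 2 * (b ^ 2 / 4 - 2 * b * d + 31 / 10 * d ^ 2 + 3 * e * b)
      + 8 * b ^ 2 * (d * b - b ^ 2 / 8 - b * e / 2) =
        d * (8 * (b - 333 / 100 * d) ^ 2 * (b + 221 / 100 * d)
          + (-(288 / 10) - 8 * ((333/100) ^ 2 - 2 * (333/100) * (221/100))) * (b * d ^ 2)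
          + (1984 / 10 - 8 * (333/100) ^ 2 * (221/100)) * d ^ 3)
        + e * (16 * b ^ 3 + 64 * b ^ 2 * d + (352 / 10) * (b * d ^ 2) + (3968 / 10) * d ^ 3)
        + e ^ 2 * (112 * b ^ 2 + 256 * (b * d) + (1984 / 10) * d ^ 2)
        + e ^ 3 * (192 * b) := by
      rw [hΔd]; ring
    rw [h0]
    have h1 : 0 ≤ (-(288 / 10) - 8 * ((333/100) ^ 2 - 2 * (333/100) * (221/100)) : ℝ) := by
      norm_num
    have h2 : 0 ≤ (1984 / 10 - 8 * (333/100) ^ 2 * (221/100) : ℝ) := by norm_num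
    positivity
  have h2 : (b - 4 * d) ^ 2 + b ^ 2 / (8 * Δ ^ 2) * (d * b - b ^ 2 / 8 - b * e / 2)
      - (3 / 4 * b ^ 2 - 6 * b * d + 129 / 10 * d ^ 2 - 3 * e * b) =
      (64 * Δ ^ 2 * (b ^ 2 / 4 - 2 * b * d + 31 / 10 * d ^ 2 + 3 * e * b)
      + 8 * b ^ 2 * (d * b - b ^ 2 / 8 - b * e / 2)) / (64 * Δ ^ 2) := by
    field_simp
    ring
  have h3 := div_nonneg key (by positivity : (0:ℝ) ≤ 64 * Δ ^ 2)
  linarith [h2, h3]

theorem cert_poly {P D W A b : ℝ} (hP : 0 ≤ P) (hD : 0 ≤ D) (hW : 0 ≤ W) (hA : 0 ≤ A) :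
    0 ≤ 3 / 4 * b ^ 2 - 6 * b * D ^ 2 + 129 / 10 * D ^ 4
      - 2 * (b - 4 * D ^ 2) * (4 * P ^ 2 + 8 * P * D - 2 * A)
      + (4 * P ^ 2 + 8 * P * D - 2 * A) ^ 2 - 48 * A * (P + D) ^ 2 + 6 * A ^ 2
      + (21 / 4 * (3 * P ^ 2 * A) + 68 / 5 * (2 * P * A * D + P ^ 2 * (b / 2))
        + 153 / 10 * (A * D ^ 2 + P * D * b) - 47 / 20 * (2 * P * A * W)
        - 67 / 20 * (A * D * W + P * (b / 2) * W)
        + 9 / 10 * (-2 * (P + D) * A * W)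
        - 173 / 20 * (-2 * (P + D) * A * D + A * (b / 2))
        - 97 / 10 * (-2 * (P + D) * A * P + A * A) - 9 / 20 * (b * (P + 2 * D) * P + b * A))
      - (3 * P + 4 * D + W) * (21 / 4 * P ^ 3 + 68 / 5 * P ^ 2 * D + 153 / 10 * P * D ^ 2
        - 47 / 20 * P ^ 2 * W - 67 / 20 * P * D * W + 9 / 10 * A * W - 173 / 20 * A * D
        - 97 / 10 * A * P - 9 / 20 * b * P)
      + (7 / 20 * P + 1 / 4 * D + 9 / 10 * W) * (A * W) := by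
  have h0 : 3 / 4 * b ^ 2 - 6 * b * D ^ 2 + 129 / 10 * D ^ 4
      - 2 * (b - 4 * D ^ 2) * (4 * P ^ 2 + 8 * P * D - 2 * A)
      + (4 * P ^ 2 + 8 * P * D - 2 * A) ^ 2 - 48 * A * (P + D) ^ 2 + 6 * A ^ 2
      + (21 / 4 * (3 * P ^ 2 * A) + 68 / 5 * (2 * P * A * D + P ^ 2 * (b / 2))
        + 153 / 10 * (A * D ^ 2 + P * D * b) - 47 / 20 * (2 * P * A * W)
        - 67 / 20 * (A * D * W + P * (b / 2) * W)
        + 9 / 10 * (-2 * (P + D) * A * W)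
        - 173 / 20 * (-2 * (P + D) * A * D + A * (b / 2))
        - 97 / 10 * (-2 * (P + D) * A * P + A * A) - 9 / 20 * (b * (P + 2 * D) * P + b * A))
      - (3 * P + 4 * D + W) * (21 / 4 * P ^ 3 + 68 / 5 * P ^ 2 * D + 153 / 10 * P * D ^ 2
        - 47 / 20 * P ^ 2 * W - 67 / 20 * P * D * W + 9 / 10 * A * W - 173 / 20 * A * D
        - 97 / 10 * A * P - 9 / 20 * b * P)
      + (7 / 20 * P + 1 / 4 * D + 9 / 10 * W) * (A * W) =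
      3 / 4 * (b + 2 / 3 * (-(31 / 40) * A + 1 / 5 * (D * P) - 6 * D ^ 2 - 49 / 40 * (P * W)
        - 3 / 10 * P ^ 2)) ^ 2
      + P * D * (18 / 5 * (D - (827 / 150 * P + 34 / 5 * W) / (36 / 5)) ^ 2
        + (56 / 25 - (827 / 150) ^ 2 / (72 / 5)) * P ^ 2
        + (451 / 75 - 2 * (827 / 150) * (34 / 5) / (72 / 5)) * (P * W)
        + (67 / 20 - (34 / 5) ^ 2 / (72 / 5)) * W ^ 2)
      + (113 / 150 * (A * D * P) + 3 / 20 * (A * D * W) + 1 / 10 * (A * D ^ 2)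
        + 521 / 2400 * (A * P * W) + 19 / 200 * (A * P ^ 2) + 479 / 4800 * A ^ 2
        + 9 / 10 * D ^ 4 + 8879 / 4800 * (P ^ 2 * W ^ 2) + 311 / 200 * (P ^ 3 * W)
        + 11 / 50 * P ^ 4) := by
    ring
  rw [h0]
  have h1 : 0 ≤ (56 / 25 - (827 / 150) ^ 2 / (72 / 5) : ℝ) := by norm_num
  have h2 : 0 ≤ (451 / 75 - 2 * (827 / 150) * (34 / 5) / (72 / 5) : ℝ) := by norm_num
  have h3 : 0 ≤ (67 / 20 - (34 / 5) ^ 2 / (72 / 5) : ℝ) := by norm_num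
  positivity

/-- The pointwise certificate. -/
theorem cert {e P D W A K b B : ℝ} (he : 0 < e) (hP : 0 ≤ P) (hD : 0 ≤ D) (hW : 0 ≤ W)
    (hA : 0 ≤ A) (hb : 0 ≤ b) (hAW : A * W ≤ K * P) (hB : B ≤ b * (P + 2 * D)) :
    -(3 * e * b) ≤ (4 * (P + D) ^ 2 - 2 * A - b) ^ 2 - 48 * A * (P + D) ^ 2 + 6 * A ^ 2
      + rhop e P D W A K b B - (3 * P + 4 * D + W) * rho e P D W A K b := by
  have hD2 : 0 ≤ D ^ 2 := by positivity
  have hΔ : 0 < D ^ 2 + b / 4 + e := by positivity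
  have h1 := cert_one he hD2 hb
  have h2 := cert_poly (b := b) hP hD hW hA
  have h3 : (7 / 20 * P + 1 / 4 * D + 9 / 10 * W) * (A * W) ≤
      (7 / 20 * P + 1 / 4 * D + 9 / 10 * W) * (K * P) :=
    mul_le_mul_of_nonneg_left hAW (by positivity)
  -- the monotonicity in `B`
  have h4 : 9 / 20 * P * B ≤ 9 / 20 * P * (b * (P + 2 * D)) :=
    mul_le_mul_of_nonneg_left hB (by positivity)
  set Δ := D ^ 2 + b / 4 + e with hΔd
  have hc : 0 ≤ b * D * (2 * Δ - b / 4) / (8 * Δ ^ 2) := by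
    have : 0 ≤ 2 * Δ - b / 4 := by rw [hΔd]; nlinarith
    positivity
  have h5 := mul_le_mul_of_nonneg_left hB hc
  -- the contribution of the last term
  have h6 : -(1 / 8 * ((2 * b * B * D + b ^ 2 * (b / 2)) / Δ
      - b ^ 2 * D * (D * b + B / 4) / Δ ^ 2)) + (3 * P + 4 * D + W) * (1 / 8 * (b ^ 2 * D / Δ)) =
      -(b * D * (2 * Δ - b / 4) / (8 * Δ ^ 2) * B)
      - 1 / 8 * (b ^ 2 * (b / 2) / Δ - b ^ 2 * D * (D * b) / Δ ^ 2)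
      + (3 * P + 4 * D + W) * (1 / 8 * (b ^ 2 * D / Δ)) := by
    field_simp
    ring
  have h7 : -(b * D * (2 * Δ - b / 4) / (8 * Δ ^ 2) * (b * (P + 2 * D)))
      - 1 / 8 * (b ^ 2 * (b / 2) / Δ - b ^ 2 * D * (D * b) / Δ ^ 2)
      + (3 * P + 4 * D + W) * (1 / 8 * (b ^ 2 * D / Δ)) =
      b ^ 2 / (8 * Δ ^ 2) * ((P + W) * D * Δ + P * D * b / 4)
      + b ^ 2 / (8 * Δ ^ 2) * (D ^ 2 * b - b ^ 2 / 8 - b * e / 2) := by
    have he' : e = Δ - D ^ 2 - b / 4 := by rw [hΔd]; ring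
    rw [he']
    field_simp
    ring
  have h8 : 0 ≤ b ^ 2 / (8 * Δ ^ 2) * ((P + W) * D * Δ + P * D * b / 4) := by positivity
  unfold rhop rho
  rw [← hΔd]
  clear_value Δ
  generalize b * D * (2 * Δ - b / 4) / (8 * Δ ^ 2) = c at hc h5 h6 h7
  generalize b ^ 2 / (8 * Δ ^ 2) = c' at h1 h7 h8
  generalize b ^ 2 * D / Δ = X1 at h6 h7 ⊢
  generalize (2 * b * B * D + b ^ 2 * (b / 2)) / Δ = X2 at h6 ⊢
  generalize b ^ 2 * D * (D * b + B / 4) / Δ ^ 2 = X3 at h6 ⊢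
  generalize b ^ 2 * (b / 2) / Δ = X4 at h6 h7
  generalize b ^ 2 * D * (D * b) / Δ ^ 2 = X5 at h6 h7
  have h9 : (4 * (P + D) ^ 2 - 2 * A - b) ^ 2 - 48 * A * (P + D) ^ 2 + 6 * A ^ 2 =
      (b - 4 * D ^ 2) ^ 2 - 2 * (b - 4 * D ^ 2) * (4 * P ^ 2 + 8 * P * D - 2 * A)
      + (4 * P ^ 2 + 8 * P * D - 2 * A) ^ 2 - 48 * A * (P + D) ^ 2 + 6 * A ^ 2 := by ring
  linarith [h1, h2, h3, h4, h5, h6, h7, h8, h9]

end Vale.Agent.P146.Gap
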