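import Vale.Agent.P146.Gap.Defs

/-!
# P146 / Gap: the invariant class `Good`, consequences on the half line
-/

open MeasureTheory ProbabilityTheory Filter Topology Set

namespace Vale.Agent.P146.Gap

open Vale.Agent.P157.Par

namespace GoodX

variable {C g g' : ℝ} {F : ℝ → ℝ}

theorem good_hd (h : ContDiff ℝ (⊤ : ℕ∞) F) (j : ℕ) (x : ℝ) :
    HasDerivAt (iteratedDeriv j F) (iteratedDeriv (j + 1) F x) x := by
  have h1 : Differentiable ℝ (iteratedDeriv j F) :=
    h.differentiable_iteratedDeriv j (by exact_mod_cast WithTop.coe_lt_top _)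
  rw [iteratedDeriv_succ]
  exact (h1 x).hasDerivAt

/-- odd derivatives of even functions vanish at `0` -/
theorem good_odd (h : ∀ x, F (-x) = F x) {j : ℕ} (hj : Odd j) : iteratedDeriv j F 0 = 0 := by
  have h1 := iteratedDeriv_comp_neg j F 0
  have h2 : (fun x => F (-x)) = F := funext h
  rw [h2, hj.neg_one_pow, neg_zero] at h1
  simp only [neg_smul, one_smul] at h1
  linarith

/-- a function vanishing at `0` with a nonnegative derivative on the half line -/
theorem good_mono {φ φ' : ℝ → ℝ} (h : ∀ x, HasDerivAt φ (φ' x) x) (h0 : φ 0 = 0)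
    (hp : ∀ x, 0 ≤ x → 0 ≤ φ' x) {x : ℝ} (hx : 0 ≤ x) : 0 ≤ φ x := by
  have h1 : MonotoneOn φ (Ici 0) := by
    refine monotoneOn_of_deriv_nonneg (convex_Ici 0)
      (fun y _ => (h y).continuousAt.continuousWithinAt)
      (fun y _ => (h y).differentiableAt.differentiableWithinAt) (fun y hy => ?_)
    rw [(h y).deriv]
    rw [interior_Ici] at hy
    exact hp y hy.le
  rw [← h0]
  exact h1 (mem_Ici.2 le_rfl) (mem_Ici.2 hx) hx

/-! ### log cosh -/

theorem good_tanh (x : ℝ) : HasDerivAt Real.tanh (1 - Real.tanh x ^ 2) x := by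
  have h1 := (Real.hasDerivAt_sinh x).div (Real.hasDerivAt_cosh x) (Real.cosh_pos x).ne'
  have h2 : (Real.sinh / Real.cosh : ℝ → ℝ) = Real.tanh := by
    funext y
    rw [Pi.div_apply, Real.tanh_eq_sinh_div_cosh]
  rw [h2] at h1
  refine h1.congr_deriv ?_
  rw [Real.tanh_eq_sinh_div_cosh]
  have := (Real.cosh_pos x).ne'
  field_simp

theorem good_lc1 : iteratedDeriv 1 lc = Real.tanh := by
  rw [iteratedDeriv_one]
  funext x
  have h : HasDerivAt lc (Real.sinh x / Real.cosh x) x :=
    (Real.hasDerivAt_cosh x).log (Real.cosh_pos x).ne'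
  rw [h.deriv, Real.tanh_eq_sinh_div_cosh]

theorem good_lc2 : iteratedDeriv 2 lc = fun x => 1 - Real.tanh x ^ 2 := by
  rw [iteratedDeriv_succ, good_lc1]
  funext x
  exact (good_tanh x).deriv

theorem good_lc3 : iteratedDeriv 3 lc =
    fun x => -(2 * Real.tanh x) * (1 - Real.tanh x ^ 2) := by
  rw [iteratedDeriv_succ, good_lc2]
  funext x
  have h := ((good_tanh x).pow 2).const_sub 1
  refine (h.congr_deriv ?_).deriv
  push_cast
  ring

theorem good_lc4 : iteratedDeriv 4 lc =
    fun x => (6 * Real.tanh x ^ 2 - 2) * (1 - Real.tanh x ^ 2) := by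
  rw [iteratedDeriv_succ, good_lc3]
  funext x
  have h := (((good_tanh x).const_mul 2).neg).mul (((good_tanh x).pow 2).const_sub 1)
  refine (h.congr_deriv ?_).deriv
  simp only [Pi.neg_apply, Pi.pow_apply]
  push_cast
  ring

theorem good_lc5 : iteratedDeriv 5 lc =
    fun x => (16 * Real.tanh x - 24 * Real.tanh x ^ 3) * (1 - Real.tanh x ^ 2) := by
  rw [iteratedDeriv_succ, good_lc4]
  funext x
  have h := ((((good_tanh x).pow 2).const_mul 6).sub_const 2).mul
    (((good_tanh x).pow 2).const_sub 1)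
  refine (h.congr_deriv ?_).deriv
  simp only [Pi.pow_apply]
  push_cast
  ring

theorem good_lc_pos (x : ℝ) : 0 < 1 - Real.tanh x ^ 2 := by
  have := Real.tanh_sq_lt_one x
  linarith

theorem good_bet_lc (x : ℝ) : bet 1 lc x = 0 := by
  have h := (good_lc_pos x).ne'
  unfold bet
  rw [good_lc2, good_lc3, good_lc4]
  simp only
  field_simp
  ring

theorem good_betp_lc (x : ℝ) : betp 1 lc x = 0 := by
  have h := (good_lc_pos x).ne'
  unfold betp
  rw [good_lc2, good_lc3, good_lc4, good_lc5]
  simp only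
  field_simp
  ring

end GoodX

section GOOD

open GoodX

variable {C g g' : ℝ} {F : ℝ → ℝ}

/-- `Y' = A + β`. -/
theorem Good.Yf_hasDerivAt (h : Adm C F) (g x : ℝ) :
    HasDerivAt (Yf g F) (g * iteratedDeriv 2 F x + bet g F x) x := by
  have h2 := (h.pos x).ne'
  have h3 := ((good_hd h.smb.smooth 3 x).div (good_hd h.smb.smooth 2 x) h2).neg.sub
    ((good_hd h.smb.smooth 1 x).const_mul g)
  refine h3.congr_deriv ?_
  unfold bet
  field_simp
  ring

theorem Good.D_hasDerivAt (h : Adm C F) (g x : ℝ) :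
    HasDerivAt (fun x => -(iteratedDeriv 3 F x / iteratedDeriv 2 F x) / 2
      - g * iteratedDeriv 1 F x) (bet g F x / 2) x := by
  have h2 := (h.pos x).ne'
  have h3 := (((good_hd h.smb.smooth 3 x).div (good_hd h.smb.smooth 2 x) h2).neg.div_const 2).sub
    ((good_hd h.smb.smooth 1 x).const_mul g)
  refine h3.congr_deriv ?_
  unfold bet
  field_simp
  ring

/-- `D = -(log F'')'/2 - g F' ≥ 0` on the half line. -/
theorem Good.D_nonneg (h : Good g C F) {x : ℝ} (hx : 0 ≤ x) :
    0 ≤ -(iteratedDeriv 3 F x / iteratedDeriv 2 F x) / 2 - g * iteratedDeriv 1 F x := by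
  refine good_mono (fun x => Good.D_hasDerivAt h.adm g x) ?_
    (fun y _ => div_nonneg (h.bet_nonneg y) (by norm_num)) hx
  rw [good_odd h.adm.even (j := 3) (by decide), good_odd h.adm.even (j := 1) (by decide)]
  simp

theorem Good.d1_nonneg (h : Good g C F) {x : ℝ} (hx : 0 ≤ x) : 0 ≤ iteratedDeriv 1 F x :=
  good_mono (fun x => good_hd h.adm.smb.smooth 1 x) (good_odd h.adm.even (j := 1) (by decide))
    (fun y _ => (h.adm.pos y).le) hx

theorem Good.Yf_nonneg (h : Good g C F) (hg : 0 < g) {x : ℝ} (hx : 0 ≤ x) : 0 ≤ Yf g F x := by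
  refine good_mono (fun x => Good.Yf_hasDerivAt h.adm g x) ?_
    (fun y _ => add_nonneg (mul_nonneg hg.le (h.adm.pos y).le) (h.bet_nonneg y)) hx
  unfold Yf
  rw [good_odd h.adm.even (j := 3) (by decide), good_odd h.adm.even (j := 1) (by decide)]
  simp

theorem Good.d3_nonpos (h : Good g C F) (hg : 0 < g) {x : ℝ} (hx : 0 ≤ x) :
    iteratedDeriv 3 F x ≤ 0 := by
  have h1 := h.Yf_nonneg hg hx
  have h2 := h.d1_nonneg hx
  have h3 := h.adm.pos x
  unfold Yf at h1
  have h4 : iteratedDeriv 3 F x / iteratedDeriv 2 F x ≤ 0 := by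
    have := mul_nonneg hg.le h2
    linarith
  by_contra hc
  rw [not_le] at hc
  have := div_pos hc h3
  linarith

theorem Good.x_mul_d2_le (h : Good g C F) (hg : 0 < g) {x : ℝ} (hx : 0 ≤ x) :
    x * iteratedDeriv 2 F x ≤ iteratedDeriv 1 F x := by
  have hd : ∀ y, HasDerivAt (fun y => iteratedDeriv 1 F y - y * iteratedDeriv 2 F y)
      (-(y * iteratedDeriv 3 F y)) y := by
    intro y
    have h1 := (good_hd h.adm.smb.smooth 1 y).sub
      ((hasDerivAt_id y).mul (good_hd h.adm.smb.smooth 2 y))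
    refine h1.congr_deriv ?_
    simp only [id]
    ring
  have := good_mono hd (by
      rw [good_odd h.adm.even (j := 1) (by decide)]; simp)
    (fun y hy => by
      have := h.d3_nonpos hg hy
      nlinarith) hx
  linarith

theorem Good.lower (h : Good g C F) (hg' : 0 < g') (hgg : g' ≤ g) : Good g' C F := by
  have e1 : ∀ x, bet g' F x = bet g F x + 2 * (g - g') * iteratedDeriv 2 F x := fun x => by
    unfold bet; ring
  have e2 : ∀ x, betp g' F x = betp g F x + 2 * (g - g') * iteratedDeriv 3 F x := fun x => by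
    unfold betp; ring
  have e3 : ∀ x, Yf g' F x = Yf g F x + (g - g') * iteratedDeriv 1 F x := fun x => by
    unfold Yf; ring
  have hd : 0 ≤ g - g' := sub_nonneg.2 hgg
  have hg : 0 < g := hg'.trans_le hgg
  refine ⟨h.adm, fun x => ?_, fun x hx => ?_⟩
  · rw [e1]
    have h1 := h.bet_nonneg x
    have h2 := (h.adm.pos x).le
    positivity
  · rw [e1, e2, e3]
    have h1 := h.betp_le x hx
    have h2 := h.bet_nonneg x
    have h3 := (h.adm.pos x).le
    have h4 := h.d1_nonneg hx
    have h5 := h.Yf_nonneg hg hx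
    have h6 := h.d3_nonpos hg hx
    have a1 : (g - g') * iteratedDeriv 3 F x ≤ 0 := mul_nonpos_of_nonneg_of_nonpos hd h6
    have a2 : 0 ≤ Yf g F x * ((g - g') * iteratedDeriv 2 F x) := by positivity
    have a3 : 0 ≤ ((g - g') * iteratedDeriv 1 F x) * bet g F x := by positivity
    have a4 : 0 ≤ ((g - g') * iteratedDeriv 1 F x) * ((g - g') * iteratedDeriv 2 F x) := by
      positivity
    have e : (Yf g F x + (g - g') * iteratedDeriv 1 F x) *
        (bet g F x + 2 * (g - g') * iteratedDeriv 2 F x) =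
        Yf g F x * bet g F x + 2 * (Yf g F x * ((g - g') * iteratedDeriv 2 F x)) +
        ((g - g') * iteratedDeriv 1 F x) * bet g F x +
        2 * (((g - g') * iteratedDeriv 1 F x) * ((g - g') * iteratedDeriv 2 F x)) := by ring
    rw [e]
    linarith

end GOOD

end Vale.Agent.P146.Gap
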