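import Vale.Agent.P146.Gap.Cert
import Vale.Agent.P146.Gap.GoodBasic

/-! The integrated certificate (one integration by parts, `ε → 0`). -/

open MeasureTheory ProbabilityTheory Filter Topology Set

namespace Vale.Agent.P146.Gap

open Vale.Agent.P157.Par

theorem cint_hasDerivAt {F : ℝ → ℝ} (h : ContDiff ℝ (⊤ : ℕ∞) F) (j : ℕ) (x : ℝ) :
    HasDerivAt (iteratedDeriv j F) (iteratedDeriv (j + 1) F x) x := by
  rw [iteratedDeriv_succ]
  exact ((h.differentiable_iteratedDeriv j (by exact_mod_cast ENat.natCast_lt_top j)) x).hasDerivAt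

theorem cint_rho_deriv {e K B x : ℝ} {P D W A bb : ℝ → ℝ} (he : 0 < e) (hb : 0 ≤ bb x)
    (hP : HasDerivAt P (A x) x) (hD : HasDerivAt D (bb x / 2) x) (hW : HasDerivAt W K x)
    (hA : HasDerivAt A (-2 * (P x + D x) * A x) x) (hbb : HasDerivAt bb B x) :
    HasDerivAt (fun y => rho e (P y) (D y) (W y) (A y) K (bb y))
      (rhop e (P x) (D x) (W x) (A x) K (bb x) B) x := by
  have hΔ : (D x ^ 2 + bb x / 4 + e) ≠ 0 := by positivity
  have h1 := (((hP.pow 3).const_mul (21 / 4 : ℝ)).add (((hP.pow 2).const_mul (68 / 5 : ℝ)).mul hD)).add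
    ((hP.const_mul (153 / 10 : ℝ)).mul (hD.pow 2))
  have h2 := (((hP.pow 2).const_mul (47 / 20 : ℝ)).mul hW)
  have h3 := ((hP.const_mul (67 / 20 : ℝ)).mul hD).mul hW
  have h4 := (hP.const_mul (9 / 10 : ℝ)).mul_const K
  have h5 := (hA.const_mul (9 / 10 : ℝ)).mul hW
  have h6 := (hA.const_mul (173 / 20 : ℝ)).mul hD
  have h7 := (hA.const_mul (97 / 10 : ℝ)).mul hP
  have h8 := (hbb.const_mul (9 / 20 : ℝ)).mul hP
  have h9 := ((((hbb.pow 2).mul hD).div (((hD.pow 2).add (hbb.div_const 4)).add_const e) hΔ).const_mul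
    (1 / 8 : ℝ))
  have h := ((((((((h1.sub h2).sub h3).sub h4).add h5).sub h6).sub h7).sub h8).sub h9)
  refine (h.congr_deriv ?_)
  unfold rhop
  simp only [Pi.pow_apply, Pi.mul_apply, Pi.add_apply]
  generalize hΔd : (D x ^ 2 + bb x / 4 + e) = Δ at hΔ ⊢
  field_simp
  ring

section Comp

variable (g τ e : ℝ) (F : ℝ → ℝ)

/-- `D`. -/
noncomputable def cintD (x : ℝ) : ℝ :=
  -(iteratedDeriv 3 F x / iteratedDeriv 2 F x) / 2 - g * iteratedDeriv 1 F x

/-- The weight. -/
noncomputable def cintW (x : ℝ) : ℝ :=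
  Real.exp (g * F x - x ^ 2 / (2 * τ)) * iteratedDeriv 2 F x ^ 2

/-- The square bracket. -/
noncomputable def cintJ (x : ℝ) : ℝ :=
  (4 * (g * iteratedDeriv 1 F x + cintD g F x) ^ 2 - 2 * (g * iteratedDeriv 2 F x) - bet g F x) ^ 2
    - 48 * (g * iteratedDeriv 2 F x) * (g * iteratedDeriv 1 F x + cintD g F x) ^ 2
    + 6 * (g * iteratedDeriv 2 F x) ^ 2

/-- The primitive. -/
noncomputable def cintK (x : ℝ) : ℝ :=
  cintW g τ F x * rho e (g * iteratedDeriv 1 F x) (cintD g F x) (x / τ)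
    (g * iteratedDeriv 2 F x) (1 / τ) (bet g F x)

end Comp

variable {g C τ e x : ℝ} {F : ℝ → ℝ}

theorem cintD_deriv (h : ContDiff ℝ (⊤ : ℕ∞) F) (h2 : iteratedDeriv 2 F x ≠ 0) :
    HasDerivAt (cintD g F) (bet g F x / 2) x := by
  have h' := ((((cint_hasDerivAt h 3 x).div (cint_hasDerivAt h 2 x) h2).neg).div_const 2).sub
    ((cint_hasDerivAt h 1 x).const_mul g)
  refine h'.congr_deriv ?_
  unfold bet
  norm_num
  field_simp
  ring

theorem cint_bet_deriv (h : ContDiff ℝ (⊤ : ℕ∞) F) (h2 : iteratedDeriv 2 F x ≠ 0) :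
    HasDerivAt (bet g F) (betp g F x) x := by
  have h' := (((((cint_hasDerivAt h 3 x).div (cint_hasDerivAt h 2 x) h2).pow 2).sub
    ((cint_hasDerivAt h 4 x).div (cint_hasDerivAt h 2 x) h2))).sub
    ((cint_hasDerivAt h 2 x).const_mul (2 * g))
  refine h'.congr_deriv ?_
  unfold betp
  simp only [Pi.div_apply]
  norm_num
  field_simp
  ring

theorem cint_PD (h2 : iteratedDeriv 2 F x ≠ 0) :
    -2 * (g * iteratedDeriv 1 F x + cintD g F x) * (g * iteratedDeriv 2 F x) =
      g * iteratedDeriv 3 F x := by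
  unfold cintD
  field_simp
  ring

theorem cintW_deriv (h : ContDiff ℝ (⊤ : ℕ∞) F) (h2 : iteratedDeriv 2 F x ≠ 0) (hτ : 0 < τ) :
    HasDerivAt (cintW g τ F) (-(3 * (g * iteratedDeriv 1 F x) + 4 * cintD g F x + x / τ)
      * cintW g τ F x) x := by
  have h0 : HasDerivAt F (iteratedDeriv 1 F x) x := by
    have := cint_hasDerivAt h 0 x
    rwa [iteratedDeriv_zero] at this
  have h' := (((h0.const_mul g).sub (((hasDerivAt_id x).pow 2).div_const (2 * τ))).exp).mul
    ((cint_hasDerivAt h 2 x).pow 2)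
  refine h'.congr_deriv ?_
  unfold cintW cintD
  simp only [Pi.pow_apply, Pi.sub_apply, id]
  norm_num
  field_simp
  ring

theorem cintK_deriv (h : ContDiff ℝ (⊤ : ℕ∞) F) (h2 : iteratedDeriv 2 F x ≠ 0) (hτ : 0 < τ)
    (he : 0 < e) (hb : 0 ≤ bet g F x) :
    HasDerivAt (cintK g τ e F) (cintW g τ F x *
      (rhop e (g * iteratedDeriv 1 F x) (cintD g F x) (x / τ)
        (g * iteratedDeriv 2 F x) (1 / τ) (bet g F x) (betp g F x)
      - (3 * (g * iteratedDeriv 1 F x) + 4 * cintD g F x + x / τ)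
        * rho e (g * iteratedDeriv 1 F x) (cintD g F x) (x / τ)
        (g * iteratedDeriv 2 F x) (1 / τ) (bet g F x))) x := by
  have hA : HasDerivAt (fun y => g * iteratedDeriv 2 F y)
      (-2 * (g * iteratedDeriv 1 F x + cintD g F x) * (g * iteratedDeriv 2 F x)) x := by
    rw [cint_PD h2]
    exact (cint_hasDerivAt h 2 x).const_mul g
  have h' := (cintW_deriv h h2 hτ (g := g)).mul (cint_rho_deriv
    (P := fun y => g * iteratedDeriv 1 F y) (A := fun y => g * iteratedDeriv 2 F y) he hb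
    ((cint_hasDerivAt h 1 x).const_mul g) (cintD_deriv h h2) ((hasDerivAt_id x).div_const τ) hA
    (cint_bet_deriv h h2))
  refine h'.congr_deriv ?_
  simp only [id]
  ring

/-- The differential inequality on the half line. -/
theorem cint_ineq (h : Good g C F) (hg : 0 < g) (hτ : 0 < τ) (he : 0 < e) (hx : 0 ≤ x) :
    0 ≤ cintW g τ F x * (cintJ g F x + 3 * e * bet g F x) + cintW g τ F x *
      (rhop e (g * iteratedDeriv 1 F x) (cintD g F x) (x / τ)
        (g * iteratedDeriv 2 F x) (1 / τ) (bet g F x) (betp g F x)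
      - (3 * (g * iteratedDeriv 1 F x) + 4 * cintD g F x + x / τ)
        * rho e (g * iteratedDeriv 1 F x) (cintD g F x) (x / τ)
        (g * iteratedDeriv 2 F x) (1 / τ) (bet g F x)) := by
  have h2 := h.adm.pos x
  have h1 := h.d1_nonneg hx
  have hD := h.D_nonneg hx
  have hc := cert (e := e) (P := g * iteratedDeriv 1 F x) (D := cintD g F x) (W := x / τ)
    (A := g * iteratedDeriv 2 F x) (K := 1 / τ) (b := bet g F x) (B := betp g F x) he
    (by positivity) hD (by positivity) (by positivity) (h.bet_nonneg x)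
    (by
      have := h.x_mul_d2_le hg hx
      rw [show g * iteratedDeriv 2 F x * (x / τ) = (g / τ) * (x * iteratedDeriv 2 F x) by ring,
        show 1 / τ * (g * iteratedDeriv 1 F x) = (g / τ) * iteratedDeriv 1 F x by ring]
      exact mul_le_mul_of_nonneg_left this (by positivity))
    (by
      refine (h.betp_le x hx).trans (le_of_eq ?_)
      unfold Yf cintD
      ring)
  have hw : 0 ≤ cintW g τ F x := by unfold cintW; positivity
  rw [← mul_add]
  refine mul_nonneg hw ?_
  unfold cintJ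
  linarith

/-- The integrand of the claim. -/
theorem cint_integrand (h2 : iteratedDeriv 2 F x ≠ 0) :
    cintW g τ F x * cintJ g F x = Real.exp (g * F x - x ^ 2 / (2 * τ)) *
      (iteratedDeriv 4 F x ^ 2 - 12 * g * iteratedDeriv 2 F x * iteratedDeriv 3 F x ^ 2
      + 6 * g ^ 2 * iteratedDeriv 2 F x ^ 4) := by
  unfold cintW cintJ cintD bet
  rw [mul_assoc]
  congr 1
  field_simp
  ring

/-! ### Bounds -/

/-- Bounded functions. -/
def CintBd (f : ℝ → ℝ) : Prop := ∃ M, ∀ x, |f x| ≤ M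

theorem CintBd.const (c : ℝ) : CintBd (fun _ => c) := ⟨|c|, fun _ => le_rfl⟩

theorem CintBd.add {f k : ℝ → ℝ} (hf : CintBd f) (hk : CintBd k) : CintBd (fun x => f x + k x) := by
  obtain ⟨M, hM⟩ := hf
  obtain ⟨N, hN⟩ := hk
  exact ⟨M + N, fun x => (abs_add_le _ _).trans (add_le_add (hM x) (hN x))⟩

theorem CintBd.neg {f : ℝ → ℝ} (hf : CintBd f) : CintBd (fun x => -f x) := by
  obtain ⟨M, hM⟩ := hf
  exact ⟨M, fun x => by rw [abs_neg]; exact hM x⟩

theorem CintBd.sub {f k : ℝ → ℝ} (hf : CintBd f) (hk : CintBd k) :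
    CintBd (fun x => f x - k x) := by
  simpa only [sub_eq_add_neg] using hf.add hk.neg

theorem CintBd.mul {f k : ℝ → ℝ} (hf : CintBd f) (hk : CintBd k) : CintBd (fun x => f x * k x) := by
  obtain ⟨M, hM⟩ := hf
  obtain ⟨N, hN⟩ := hk
  exact ⟨M * N, fun x => by
    rw [abs_mul]
    exact mul_le_mul (hM x) (hN x) (abs_nonneg _) ((abs_nonneg _).trans (hM x))⟩

theorem CintBd.pow {f : ℝ → ℝ} (hf : CintBd f) (n : ℕ) : CintBd (fun x => f x ^ n) := by
  induction n with
  | zero => simpa using CintBd.const 1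
  | succ n ih => simpa only [pow_succ] using ih.mul hf

theorem cint_bd1 (h : Adm C F) : CintBd (iteratedDeriv 1 F) := h.smb.bd 0

theorem cint_bd2 (h : Adm C F) : CintBd (iteratedDeriv 2 F) := h.smb.bd 1

theorem cint_bdZ (h : Adm C F) : CintBd (fun x => iteratedDeriv 3 F x / iteratedDeriv 2 F x) :=
  ⟨C, fun x => by
    rw [abs_div, abs_of_pos (h.pos x), div_le_iff₀ (h.pos x)]
    exact h.r3 x⟩

theorem cint_bd4 (h : Adm C F) : CintBd (fun x => iteratedDeriv 4 F x / iteratedDeriv 2 F x) := by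
  obtain ⟨C', hC'⟩ := h.r4
  exact ⟨C', fun x => by
    rw [abs_div, abs_of_pos (h.pos x), div_le_iff₀ (h.pos x)]
    exact hC' x⟩

theorem cint_bdD (h : Adm C F) (g : ℝ) : CintBd (cintD g F) := by
  have h1 := ((cint_bdZ h).neg.mul (CintBd.const (1 / 2))).sub
    ((CintBd.const g).mul (cint_bd1 h))
  have h2 : cintD g F = fun x => -(iteratedDeriv 3 F x / iteratedDeriv 2 F x) * (1 / 2)
      - g * iteratedDeriv 1 F x := by
    funext x
    unfold cintD
    ring
  rw [h2]
  exact h1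

theorem cint_bdb (h : Adm C F) (g : ℝ) : CintBd (bet g F) :=
  (((cint_bdZ h).pow 2).sub (cint_bd4 h)).sub ((CintBd.const (2 * g)).mul (cint_bd2 h))

theorem cint_bdJ (h : Adm C F) (g : ℝ) : CintBd (cintJ g F) := by
  have hP := (CintBd.const g).mul (cint_bd1 h)
  have hA := (CintBd.const g).mul (cint_bd2 h)
  have hD := cint_bdD h g
  have hb := cint_bdb h g
  exact ((((((CintBd.const 4).mul ((hP.add hD).pow 2)).sub ((CintBd.const 2).mul hA)).sub
    hb).pow 2).sub (((CintBd.const 48).mul hA).mul ((hP.add hD).pow 2))).add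
    ((CintBd.const 6).mul (hA.pow 2))

theorem cint_rho_bd (h : Adm C F) (g τ : ℝ) {e : ℝ} (he : 0 < e) (hb0 : ∀ x, 0 ≤ bet g F x) :
    ∃ M N : ℝ, ∀ x, |rho e (g * iteratedDeriv 1 F x) (cintD g F x) (x / τ)
      (g * iteratedDeriv 2 F x) (1 / τ) (bet g F x)| ≤ M + N * |x| := by
  have hP := (CintBd.const g).mul (cint_bd1 h)
  have hA := (CintBd.const g).mul (cint_bd2 h)
  have hD := cint_bdD h g
  have hb := cint_bdb h g
  have hq : CintBd (fun x => bet g F x / (cintD g F x ^ 2 + bet g F x / 4 + e)) := by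
    refine ⟨4, fun x => ?_⟩
    have := hb0 x
    have hΔ : 0 < cintD g F x ^ 2 + bet g F x / 4 + e := by positivity
    rw [abs_of_nonneg (by positivity), div_le_iff₀ hΔ]
    nlinarith [sq_nonneg (cintD g F x)]
  have h0 : CintBd (fun x => 21 / 4 * (g * iteratedDeriv 1 F x) ^ 3
      + 68 / 5 * (g * iteratedDeriv 1 F x) ^ 2 * cintD g F x
      + 153 / 10 * (g * iteratedDeriv 1 F x) * cintD g F x ^ 2
      - 9 / 10 * (g * iteratedDeriv 1 F x) * (1 / τ)
      - 173 / 20 * (g * iteratedDeriv 2 F x) * cintD g F x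
      - 97 / 10 * (g * iteratedDeriv 2 F x) * (g * iteratedDeriv 1 F x)
      - 9 / 20 * bet g F x * (g * iteratedDeriv 1 F x)
      - 1 / 8 * (bet g F x * cintD g F x
        * (bet g F x / (cintD g F x ^ 2 + bet g F x / 4 + e)))) :=
    ((((((((CintBd.const _).mul (hP.pow 3)).add (((CintBd.const _).mul (hP.pow 2)).mul hD)).add
      (((CintBd.const _).mul hP).mul (hD.pow 2))).sub
      (((CintBd.const _).mul hP).mul (CintBd.const _))).sub
      (((CintBd.const _).mul hA).mul hD)).sub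
      (((CintBd.const _).mul hA).mul hP)).sub
      (((CintBd.const _).mul hb).mul hP)).sub
      ((CintBd.const _).mul ((hb.mul hD).mul hq))
  have h1 : CintBd (fun x => (9 / 10 * (g * iteratedDeriv 2 F x)
      - 47 / 20 * (g * iteratedDeriv 1 F x) ^ 2
      - 67 / 20 * (g * iteratedDeriv 1 F x) * cintD g F x) * (1 / τ)) :=
    ((((CintBd.const _).mul hA).sub ((CintBd.const _).mul (hP.pow 2))).sub
      (((CintBd.const _).mul hP).mul hD)).mul (CintBd.const _)
  obtain ⟨M, hM⟩ := h0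
  obtain ⟨N, hN⟩ := h1
  refine ⟨M, N, fun x => ?_⟩
  have h2 : rho e (g * iteratedDeriv 1 F x) (cintD g F x) (x / τ)
      (g * iteratedDeriv 2 F x) (1 / τ) (bet g F x) =
      (21 / 4 * (g * iteratedDeriv 1 F x) ^ 3
      + 68 / 5 * (g * iteratedDeriv 1 F x) ^ 2 * cintD g F x
      + 153 / 10 * (g * iteratedDeriv 1 F x) * cintD g F x ^ 2
      - 9 / 10 * (g * iteratedDeriv 1 F x) * (1 / τ)
      - 173 / 20 * (g * iteratedDeriv 2 F x) * cintD g F x
      - 97 / 10 * (g * iteratedDeriv 2 F x) * (g * iteratedDeriv 1 F x)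
      - 9 / 20 * bet g F x * (g * iteratedDeriv 1 F x)
      - 1 / 8 * (bet g F x * cintD g F x
        * (bet g F x / (cintD g F x ^ 2 + bet g F x / 4 + e))))
      + (9 / 10 * (g * iteratedDeriv 2 F x)
      - 47 / 20 * (g * iteratedDeriv 1 F x) ^ 2
      - 67 / 20 * (g * iteratedDeriv 1 F x) * cintD g F x) * (1 / τ) * x := by
    unfold rho
    ring
  rw [h2]
  refine (abs_add_le _ _).trans (add_le_add (hM x) ?_)
  rw [abs_mul]
  exact mul_le_mul_of_nonneg_right (hN x) (abs_nonneg x)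

theorem cint_lip (h : Adm C F) (x : ℝ) : |F x| ≤ |F 0| + |x| := by
  have h1 : ∀ y, ‖iteratedDeriv 1 F y‖ ≤ 1 := by
    intro y
    have h1 := h.le1 y
    have h2 := h.pos y
    rw [Real.norm_eq_abs, abs_le_one_iff_mul_self_le_one]
    nlinarith
  have h2 := Convex.norm_image_sub_le_of_norm_hasDerivWithin_le (f := F)
    (f' := iteratedDeriv 1 F) (s := univ) (C := 1) (x := 0) (y := x)
    (fun y _ => (by
      have := cint_hasDerivAt h.smb.smooth 0 y
      rw [iteratedDeriv_zero] at this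
      exact this.hasDerivWithinAt)) (fun y _ => h1 y) convex_univ (mem_univ _) (mem_univ _)
  rw [Real.norm_eq_abs, Real.norm_eq_abs, one_mul, sub_zero] at h2
  have h3 := abs_sub_abs_le_abs_sub (F x) (F 0)
  linarith

theorem cint_exp_le (h : Adm C F) (hg : 0 < g) (hg1 : g ≤ 1) (hτ : 0 < τ) (x : ℝ) :
    Real.exp (g * F x - x ^ 2 / (2 * τ)) ≤
      Real.exp (|F 0| + τ) * Real.exp (-(1 / (4 * τ)) * x ^ 2) := by
  rw [← Real.exp_add]
  apply Real.exp_le_exp.mpr
  have h1 : g * F x ≤ |F 0| + |x| := by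
    calc g * F x ≤ g * |F x| := mul_le_mul_of_nonneg_left (le_abs_self _) hg.le
      _ ≤ 1 * |F x| := mul_le_mul_of_nonneg_right hg1 (abs_nonneg _)
      _ ≤ |F 0| + |x| := by rw [one_mul]; exact cint_lip h x
  have h2 : |x| ≤ x ^ 2 / (4 * τ) + τ := by
    have h3 : 0 ≤ (|x| - 2 * τ) ^ 2 / (4 * τ) := by positivity
    have h4 : (|x| - 2 * τ) ^ 2 / (4 * τ) = x ^ 2 / (4 * τ) + τ - |x| := by
      field_simp
      rw [← sq_abs x]
      ring
    linarith
  have h5 : x ^ 2 / (2 * τ) = 2 * (x ^ 2 / (4 * τ)) := by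
    field_simp
    norm_num
  have h6 : -(1 / (4 * τ)) * x ^ 2 = -(x ^ 2 / (4 * τ)) := by ring
  linarith

theorem cintW_le (h : Adm C F) (hg : 0 < g) (hg1 : g ≤ 1) (hτ : 0 < τ) (x : ℝ) :
    |cintW g τ F x| ≤ Real.exp (|F 0| + τ) * Real.exp (-(1 / (4 * τ)) * x ^ 2) := by
  have h2 := h.pos x
  have h1 : iteratedDeriv 2 F x ≤ 1 := by
    have := h.le1 x
    nlinarith [sq_nonneg (iteratedDeriv 1 F x)]
  have h3 : iteratedDeriv 2 F x ^ 2 ≤ 1 := pow_le_one₀ h2.le h1
  unfold cintW
  rw [abs_of_nonneg (by positivity)]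
  calc _ ≤ Real.exp (g * F x - x ^ 2 / (2 * τ)) * 1 :=
        mul_le_mul_of_nonneg_left h3 (Real.exp_pos _).le
    _ ≤ _ := by rw [mul_one]; exact cint_exp_le h hg hg1 hτ x

theorem cint_cont (h : Adm C F) (j : ℕ) : Continuous (iteratedDeriv j F) :=
  continuous_iff_continuousAt.mpr fun x => (cint_hasDerivAt h.smb.smooth j x).continuousAt

theorem cintW_cont (h : Adm C F) : Continuous (cintW g τ F) := by
  have h0 := cint_cont h 0
  rw [iteratedDeriv_zero] at h0
  exact (((h0.const_mul g).sub ((continuous_pow 2).div_const _)).rexp).mul ((cint_cont h 2).pow 2)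

theorem cintD_cont (h : Adm C F) : Continuous (cintD g F) :=
  ((((cint_cont h 3).div (cint_cont h 2) fun x => (h.pos x).ne').neg).div_const 2).sub
    ((cint_cont h 1).const_mul g)

theorem cintb_cont (h : Adm C F) : Continuous (bet g F) :=
  ((((cint_cont h 3).div (cint_cont h 2) fun x => (h.pos x).ne').pow 2).sub
    ((cint_cont h 4).div (cint_cont h 2) fun x => (h.pos x).ne')).sub
    ((cint_cont h 2).const_mul (2 * g))

theorem cintJ_cont (h : Adm C F) : Continuous (cintJ g F) := by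
  have hP := (cint_cont h 1).const_mul g
  have hA := (cint_cont h 2).const_mul g
  have hD := cintD_cont h (g := g)
  have hb := cintb_cont h (g := g)
  unfold cintJ
  fun_prop

theorem cint_integrable (h : Adm C F) (hg : 0 < g) (hg1 : g ≤ 1) (hτ : 0 < τ) {f : ℝ → ℝ}
    (hf : Continuous f) (hb : CintBd f) : Integrable (fun x => cintW g τ F x * f x) := by
  obtain ⟨M, hM⟩ := hb
  refine Integrable.mono' (g := fun x => Real.exp (|F 0| + τ)
    * Real.exp (-(1 / (4 * τ)) * x ^ 2) * M) ?_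
    ((cintW_cont h).mul hf).aestronglyMeasurable (ae_of_all _ fun x => ?_)
  · exact ((integrable_exp_neg_mul_sq (by positivity)).const_mul _).mul_const _
  · rw [Real.norm_eq_abs, abs_mul]
    exact mul_le_mul (cintW_le h hg hg1 hτ x) (hM x) (abs_nonneg _) (by positivity)

theorem cintK_tendsto (h : Good g C F) (hg : 0 < g) (hg1 : g ≤ 1) (hτ : 0 < τ) (he : 0 < e) :
    Tendsto (cintK g τ e F) atTop (𝓝 0) := by
  obtain ⟨M, N, hMN⟩ := cint_rho_bd h.adm g τ he h.bet_nonneg
  have h1 := (tendsto_rpow_abs_mul_exp_neg_mul_sq_cocompact (a := 1 / (4 * τ))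
    (by positivity) 0).mono_left atTop_le_cocompact
  have h2 := (tendsto_rpow_abs_mul_exp_neg_mul_sq_cocompact (a := 1 / (4 * τ))
    (by positivity) 1).mono_left atTop_le_cocompact
  have h3 := ((h1.const_mul (M * Real.exp (|F 0| + τ))).add
    (h2.const_mul (N * Real.exp (|F 0| + τ))))
  rw [mul_zero, mul_zero, add_zero] at h3
  refine squeeze_zero_norm (fun x => ?_) h3
  unfold cintK
  rw [Real.norm_eq_abs, abs_mul, Real.rpow_zero, Real.rpow_one]
  calc _ ≤ (Real.exp (|F 0| + τ) * Real.exp (-(1 / (4 * τ)) * x ^ 2)) * (M + N * |x|) :=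
        mul_le_mul (cintW_le h.adm hg hg1 hτ x) (hMN x) (abs_nonneg _) (by positivity)
    _ = _ := by ring

theorem cint_parity (h : Adm C F) (j : ℕ) (x : ℝ) :
    iteratedDeriv j F (-x) = (-1) ^ j * iteratedDeriv j F x := by
  have h1 := iteratedDeriv_comp_neg j F x
  have h2 : (fun x => F (-x)) = F := funext h.even
  rw [h2, smul_eq_mul] at h1
  rw [h1, ← mul_assoc, ← mul_pow]
  norm_num

theorem cint_odd_zero (h : Adm C F) : iteratedDeriv 1 F 0 = 0 ∧ iteratedDeriv 3 F 0 = 0 := by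
  have h1 := cint_parity h 1 0
  have h3 := cint_parity h 3 0
  rw [neg_zero] at h1 h3
  constructor <;> linarith

theorem cintK_zero (h : Adm C F) : cintK g τ e F 0 = 0 := by
  obtain ⟨h1, h3⟩ := cint_odd_zero h
  unfold cintK rho cintD
  rw [h1, h3]
  norm_num

theorem cintW_even (h : Adm C F) (x : ℝ) : cintW g τ F (-x) = cintW g τ F x := by
  unfold cintW
  rw [cint_parity h, h.even]
  norm_num

theorem cintD_odd (h : Adm C F) (x : ℝ) : cintD g F (-x) = -cintD g F x := by
  unfold cintD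
  rw [cint_parity h, cint_parity h, cint_parity h]
  norm_num
  ring

theorem cintb_even (h : Adm C F) (x : ℝ) : bet g F (-x) = bet g F x := by
  unfold bet
  rw [cint_parity h, cint_parity h, cint_parity h]
  norm_num
  ring

theorem cintJ_even (h : Adm C F) (x : ℝ) : cintJ g F (-x) = cintJ g F x := by
  unfold cintJ
  rw [cintD_odd h, cintb_even h, cint_parity h, cint_parity h]
  norm_num
  ring

theorem cint_half (h : Good g C F) (hg : 0 < g) (hg1 : g ≤ 1) (hτ : 0 < τ) (he : 0 < e) :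
    0 ≤ ∫ x in Ioi (0 : ℝ), cintW g τ F x * (cintJ g F x + 3 * e * bet g F x) := by
  have hb : CintBd (fun x => cintJ g F x + 3 * e * bet g F x) :=
    (cint_bdJ h.adm g).add ((CintBd.const _).mul (cint_bdb h.adm g))
  have hc : Continuous (fun x => cintJ g F x + 3 * e * bet g F x) :=
    (cintJ_cont h.adm).add ((cintb_cont h.adm).const_mul _)
  have hint := cint_integrable h.adm hg hg1 hτ hc hb
  have h1 := intervalIntegral_tendsto_integral_Ioi 0 hint.integrableOn tendsto_id
  have h2 : Tendsto (fun R => -cintK g τ e F R) atTop (𝓝 0) := by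
    simpa using (cintK_tendsto h hg hg1 hτ he).neg
  refine le_of_tendsto_of_tendsto h2 h1 ?_
  filter_upwards [eventually_ge_atTop 0] with R hR
  have hd : ∀ x, HasDerivAt (cintK g τ e F) _ x := fun x =>
    cintK_deriv h.adm.smb.smooth (h.adm.pos x).ne' hτ he (h.bet_nonneg x)
  have h3 := intervalIntegral.sub_le_integral_of_hasDeriv_right_of_le hR
    (g := fun x => -cintK g τ e F x)
    (fun x _ => (hd x).continuousAt.neg.continuousWithinAt)
    (fun x _ => (hd x).neg.hasDerivWithinAt) hint.integrableOn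
    (fun x hx => by
      have := cint_ineq h hg hτ he (x := x) hx.1.le
      linarith)
  rw [cintK_zero h.adm, neg_zero, sub_zero] at h3
  exact h3

theorem cint_full (h : Good g C F) (hg : 0 < g) (hg1 : g ≤ 1) (hτ : 0 < τ) :
    0 ≤ ∫ x, cintW g τ F x * cintJ g F x := by
  have hintJ := cint_integrable h.adm hg hg1 hτ (cintJ_cont h.adm) (cint_bdJ h.adm g)
  have hintb := cint_integrable h.adm hg hg1 hτ (cintb_cont h.adm) (cint_bdb h.adm g)
  have key : ∀ e : ℝ, 0 < e →
      0 ≤ (∫ x, cintW g τ F x * cintJ g F x) + 3 * e * ∫ x, cintW g τ F x * bet g F x := by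
    intro e he
    have h1 := cint_half h hg hg1 hτ he
    have h2 : (∫ x, cintW g τ F x * (cintJ g F x + 3 * e * bet g F x)) =
        2 * ∫ x in Ioi (0 : ℝ), cintW g τ F x * (cintJ g F x + 3 * e * bet g F x) := by
      rw [← integral_comp_abs (f := fun x => cintW g τ F x * (cintJ g F x + 3 * e * bet g F x))]
      congr 1
      funext x
      rcases abs_choice x with hx | hx <;> rw [hx]
      rw [cintW_even h.adm, cintJ_even h.adm, cintb_even h.adm]
    have h3 : (∫ x, cintW g τ F x * (cintJ g F x + 3 * e * bet g F x)) =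
        (∫ x, cintW g τ F x * cintJ g F x) + 3 * e * ∫ x, cintW g τ F x * bet g F x := by
      rw [← integral_const_mul, ← integral_add hintJ (hintb.const_mul _)]
      congr 1
      funext x
      ring
    rw [← h3, h2]
    positivity
  set I := ∫ x, cintW g τ F x * cintJ g F x
  set B := ∫ x, cintW g τ F x * bet g F x
  by_contra hneg
  push Not at hneg
  have h1 := key (-I / (6 * (|B| + 1))) (by
    have := abs_nonneg B
    exact div_pos (by linarith) (by positivity))
  have h2 : 3 * (-I / (6 * (|B| + 1))) * B ≤ -I / 2 := by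
    have h3 : B ≤ |B| + 1 := by linarith [le_abs_self B]
    have h4 : 0 < |B| + 1 := by positivity
    have h5 : 0 ≤ 3 * (-I / (6 * (|B| + 1))) := by
      have : 0 < -I := by linarith
      positivity
    calc 3 * (-I / (6 * (|B| + 1))) * B ≤ 3 * (-I / (6 * (|B| + 1))) * (|B| + 1) :=
          mul_le_mul_of_nonneg_left h3 h5
      _ = -I / 2 := by
        field_simp
        ring
  linarith

theorem cert_int {g C τ : ℝ} {F : ℝ → ℝ} (h : Good g C F) (hg : 0 < g) (hg1 : g ≤ 1)
    (hτ : 0 < τ) :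
    0 ≤ ∫ z, Real.exp (g * F (√τ * z)) * (iteratedDeriv 4 F (√τ * z) ^ 2
      - 12 * g * iteratedDeriv 2 F (√τ * z) * iteratedDeriv 3 F (√τ * z) ^ 2
      + 6 * g ^ 2 * iteratedDeriv 2 F (√τ * z) ^ 4) ∂(gaussianReal 0 1) := by
  have hs : 0 < √τ := Real.sqrt_pos.mpr hτ
  have h0 := cint_full h hg hg1 hτ
  rw [integral_gaussianReal_eq_integral_smul one_ne_zero]
  have h1 : ∀ z : ℝ, gaussianPDFReal 0 1 z • (Real.exp (g * F (√τ * z)) *
      (iteratedDeriv 4 F (√τ * z) ^ 2
      - 12 * g * iteratedDeriv 2 F (√τ * z) * iteratedDeriv 3 F (√τ * z) ^ 2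
      + 6 * g ^ 2 * iteratedDeriv 2 F (√τ * z) ^ 4)) =
      (fun x => (√(2 * Real.pi))⁻¹ * (cintW g τ F x * cintJ g F x)) (√τ * z) := by
    intro z
    simp only []
    rw [cint_integrand (h.adm.pos _).ne', Real.exp_sub, gaussianPDFReal, smul_eq_mul]
    have h2 : Real.exp (-(z - 0) ^ 2 / (2 * ((1 : NNReal) : ℝ))) =
        (Real.exp ((√τ * z) ^ 2 / (2 * τ)))⁻¹ := by
      rw [← Real.exp_neg]
      congr 1
      rw [mul_pow, Real.sq_sqrt hτ.le, NNReal.coe_one]
      field_simp
      ring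
    rw [h2, NNReal.coe_one, mul_one]
    ring
  simp_rw [h1]
  rw [Measure.integral_comp_mul_left (fun x => (√(2 * Real.pi))⁻¹ * (cintW g τ F x * cintJ g F x)),
    integral_const_mul, smul_eq_mul]
  positivity

end Vale.Agent.P146.Gap
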