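import Vale.Agent.P146.Gap.Defs
import Vale.Agent.P157.ParSp5

/-! EX: comparison of exponents, semigroup property, dependence on the variance. -/

open MeasureTheory ProbabilityTheory Filter Topology Set

namespace Vale.Agent.P146.Gap

open Vale.Agent.P157.Par

section EX

variable {C g g' v v' : ℝ} {F G : ℝ → ℝ}

theorem ex_ec (h : Adm C F) : Ec F (iteratedDeriv 1 F) (iteratedDeriv 2 F) where
  d1 := fun x => by
    have h1 : Differentiable ℝ F := h.smb.smooth.differentiable (by simp)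
    rw [iteratedDeriv_one]
    exact (h1 x).hasDerivAt
  d2 := fun x => by
    have h1 : Differentiable ℝ (iteratedDeriv 1 F) :=
      h.smb.smooth.differentiable_iteratedDeriv 1 (by exact_mod_cast (WithTop.coe_lt_top _))
    have h2 : iteratedDeriv 2 F = deriv (iteratedDeriv 1 F) := iteratedDeriv_succ
    rw [h2]
    exact (h1 x).hasDerivAt
  cD := (h.smb.smooth.differentiable_iteratedDeriv 2
    (WithTop.coe_lt_coe.2 (ENat.natCast_lt_top 2))).continuous
  even := h.even
  D0 := fun x => (h.pos x).le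
  D1 := h.le1

theorem ex_gstep_d1 (h : Adm C F) (hg : 0 < g) (v : ℝ) :
    iteratedDeriv 1 (gstep g v F) = tlt g v F (iteratedDeriv 1 F) := by
  have h1 := (ex_ec h).sm.step hg v
  funext x
  rw [iteratedDeriv_one]
  exact (h1.d1 x).deriv

theorem ex_gstep_zero (hg : g ≠ 0) (F : ℝ → ℝ) : gstep g 0 F = F := by
  funext x
  unfold gstep
  simp only [Real.sqrt_zero, zero_mul, add_zero, integral_const, probReal_univ, one_smul,
    Real.log_exp]
  field_simp

/-- The two families of the interpolation. -/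
theorem ex_fam1 {M D : ℝ → ℝ} (h : Ec F M D) (hg : 0 < g) (s : ℝ) :
    Fam 0 s (fun t => gstep g (s + t * -1) F) (fun t => tlt g (s + t * -1) F M)
      (fun t x => tlt g (s + t * -1) F (fun y => D y + g * M y ^ 2) x -
        g * tlt g (s + t * -1) F M x ^ 2)
      (fun t => tlt g (s + t * -1) F (fun y => 0 + -1 / 2 * (D y + g * M y ^ 2))) :=
  (sp5_fam_const h 0 s).step (m := g) hg (v₀ := s) (d := -1) (fun t ht => by
    have h1 := ht.2
    linarith)

theorem ex_us {M D : ℝ → ℝ} (m m' v v' : ℝ) (t x : ℝ) : tlt m (v + t * 1) (gstep m' (v' + t * -1) F)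
      (fun y => tlt m' (v' + t * -1) F (fun y => 0 + -1 / 2 * (D y + m' * M y ^ 2)) y + 1 / 2 *
        ((tlt m' (v' + t * -1) F (fun y => D y + m' * M y ^ 2) y -
        m' * tlt m' (v' + t * -1) F M y ^ 2) + m * tlt m' (v' + t * -1) F M y ^ 2)) x =
      1 / 2 * (m - m') * tlt m (v + t * 1) (gstep m' (v' + t * -1) F)
        (fun y => tlt m' (v' + t * -1) F M y ^ 2) x := by
  rw [← tlt_const_mul]
  congr 1
  funext y
  have h1 : tlt m' (v' + t * -1) F (fun y => 0 + -1 / 2 * (D y + m' * M y ^ 2)) y =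
      -1 / 2 * tlt m' (v' + t * -1) F (fun y => D y + m' * M y ^ 2) y := by
    rw [← tlt_const_mul]
    congr 1
    funext y
    ring
  rw [h1]
  ring

/-- The interpolation between two exponents. -/
theorem ex_interp {M D : ℝ → ℝ} (h : Ec F M D) (hg : 0 < g) (hg' : 0 < g') {s : ℝ}
    (hs : 0 ≤ s) (hv : 0 ≤ v) (x : ℝ) :
    ContinuousOn (fun t => tlt g' (v + t) (gstep g (s - t) F)
      (fun y => tlt g (s - t) F M y ^ 2) x) (Icc 0 s) ∧
    gstep g' (v + s) F x - gstep g' v (gstep g s F) x =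
      1 / 2 * (g' - g) * ∫ t in (0 : ℝ)..s, tlt g' (v + t) (gstep g (s - t) F)
        (fun y => tlt g (s - t) F M y ^ 2) x := by
  have f1 := ex_fam1 h hg s
  have f2 := f1.step (m := g') hg' (v₀ := v) (d := 1) (fun t ht => by
    have h1 := ht.1
    linarith)
  obtain ⟨L, B, hL, hB, hsm⟩ := f1.sp2_sm
  have hc1 : ContinuousOn (fun t => tlt g' (v + t) (gstep g (s - t) F)
      (fun y => tlt g (s - t) F M y ^ 2) x) (Icc 0 s) := by
    have h1 := f1.tlt_cont (g := fun t y => tlt g (s + t * -1) F M y ^ 2) (f1.c1.pow 2)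
      (B := L ^ 2) (fun t ht y => by
        rw [abs_pow]
        exact pow_le_pow_left₀ (abs_nonneg _) ((hsm t ht).bM y) 2) g' v 1
    have h2 := h1.comp (f := fun t : ℝ => ((t, x) : ℝ × ℝ)) (s := Icc 0 s) (by fun_prop)
      (fun t ht => ⟨ht, mem_univ _⟩)
    refine h2.congr fun t ht => ?_
    simp only [Function.comp_def, mul_one, mul_neg, ← sub_eq_add_neg]
  refine ⟨hc1, ?_⟩
  have hc2 : ContinuousOn (fun t => gstep g' (v + t) (gstep g (s - t) F) x) (Icc 0 s) := by
    have h2 := f2.c0.comp (f := fun t : ℝ => ((t, x) : ℝ × ℝ)) (s := Icc 0 s) (by fun_prop)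
      (fun t ht => ⟨ht, mem_univ _⟩)
    refine h2.congr fun t ht => ?_
    simp only [Function.comp_def, mul_one, mul_neg, ← sub_eq_add_neg]
  have hd : ∀ t ∈ Ioo 0 s, HasDerivAt (fun t => gstep g' (v + t) (gstep g (s - t) F) x)
      (1 / 2 * (g' - g) * tlt g' (v + t) (gstep g (s - t) F)
        (fun y => tlt g (s - t) F M y ^ 2) x) t := by
    intro t ht
    have h1 := f2.ds t ht x
    rw [ex_us] at h1
    simpa only [mul_one, mul_neg, ← sub_eq_add_neg] using h1
  have h3 := intervalIntegral.integral_eq_sub_of_hasDerivAt_of_le hs hc2 hd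
    ((hc1.const_smul (1 / 2 * (g' - g))).intervalIntegrable_of_Icc hs)
  rw [intervalIntegral.integral_const_mul] at h3
  rw [h3, sub_self, ex_gstep_zero hg.ne', add_zero, sub_zero]

theorem gstep_add (h : Adm C F) (hg : 0 < g) (hv : 0 ≤ v) (hv' : 0 ≤ v') :
    gstep g v (gstep g v' F) = gstep g (v + v') F := by
  funext x
  have h1 := (ex_interp (ex_ec h) hg hg hv' hv x).2
  rw [sub_self, mul_zero, zero_mul] at h1
  linarith

theorem gstep_diff (h : Adm C F) (hg : 0 < g) (hg1 : g ≤ 1) (hg' : 0 < g') (hg'1 : g' ≤ 1)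
    (hv : 0 ≤ v) (x : ℝ) :
    gstep g' v F x - gstep g v F x =
      1 / 2 * (g' - g) * ∫ τ in (0 : ℝ)..v, tlt g' τ (gstep g (v - τ) F)
        (fun y => iteratedDeriv 1 (gstep g (v - τ) F) y ^ 2) x := by
  have h1 := (ex_interp (ex_ec h) hg hg' hv le_rfl x).2
  rw [ex_gstep_zero hg'.ne', zero_add] at h1
  simp only [zero_add] at h1
  simp only [ex_gstep_d1 h hg]
  exact h1

theorem ex_tlt_mem (h : Adm C F) (hg : 0 < g) (hg1 : g ≤ 1) (s τ x : ℝ) :
    0 ≤ tlt g' τ (gstep g s F) (fun y => iteratedDeriv 1 (gstep g s F) y ^ 2) x ∧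
    tlt g' τ (gstep g s F) (fun y => iteratedDeriv 1 (gstep g s F) y ^ 2) x ≤ 1 := by
  have h1 := (ex_ec h).step hg hg1 s
  rw [ex_gstep_d1 h hg]
  have hM := h1.sm.cont1
  have hb : ∀ y, |tlt g s F (iteratedDeriv 1 F) y ^ 2| ≤ 1 := fun y => by
    rw [abs_pow]
    exact pow_le_one₀ (abs_nonneg _) (h1.abs_M y)
  have h2 := h1.sm.tlt_mono (g := fun _ => 0) (g' := fun y => tlt g s F (iteratedDeriv 1 F) y ^ 2)
    continuous_const (K := 0) (fun _ => by simp) (by fun_prop) hb (fun y => sq_nonneg _) g' τ x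
  have h3 := h1.sm.tlt_mono (g := fun y => tlt g s F (iteratedDeriv 1 F) y ^ 2) (g' := fun _ => 1)
    (by fun_prop) hb continuous_const (K' := 1) (fun _ => by simp)
    (fun y => (le_abs_self _).trans (hb y)) g' τ x
  rw [h1.sm.tlt_const] at h2 h3
  exact ⟨h2, h3⟩

theorem gstep_exp_mono (h : Adm C F) (hg : 0 < g) (hgg : g ≤ g') (hg'1 : g' ≤ 1)
    (hv : 0 ≤ v) (x : ℝ) : gstep g v F x ≤ gstep g' v F x := by
  have h1 := gstep_diff h hg (hgg.trans hg'1) (hg.trans_le hgg) hg'1 hv x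
  have h2 : 0 ≤ ∫ τ in (0 : ℝ)..v, tlt g' τ (gstep g (v - τ) F)
        (fun y => iteratedDeriv 1 (gstep g (v - τ) F) y ^ 2) x :=
    intervalIntegral.integral_nonneg hv fun τ _ =>
      (ex_tlt_mem h hg (hgg.trans hg'1) (v - τ) τ x).1
  have h3 : 0 ≤ 1 / 2 * (g' - g) := by linarith
  have h4 := mul_nonneg h3 h2
  linarith

theorem gstep_exp_lip (h : Adm C F) (hg : 0 < g) (hgg : g ≤ g') (hg'1 : g' ≤ 1)
    (hv : 0 ≤ v) (x : ℝ) : gstep g' v F x ≤ gstep g v F x + 1 / 2 * (g' - g) * v := by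
  have h1 := gstep_diff h hg (hgg.trans hg'1) (hg.trans_le hgg) hg'1 hv x
  have hc := (ex_interp (ex_ec h) hg (hg.trans_le hgg) hv le_rfl x).1
  simp only [zero_add] at hc
  have h2 : (∫ τ in (0 : ℝ)..v, tlt g' τ (gstep g (v - τ) F)
        (fun y => iteratedDeriv 1 (gstep g (v - τ) F) y ^ 2) x) ≤ ∫ τ in (0 : ℝ)..v, (1 : ℝ) := by
    refine intervalIntegral.integral_mono_on hv ?_ (by simp) fun τ _ =>
      (ex_tlt_mem h hg (hgg.trans hg'1) (v - τ) τ x).2
    simp only [ex_gstep_d1 h hg]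
    exact hc.intervalIntegrable_of_Icc hv
  rw [intervalIntegral.integral_const, smul_eq_mul, mul_one, sub_zero] at h2
  have h3 : 0 ≤ 1 / 2 * (g' - g) := by linarith
  have h4 := mul_le_mul_of_nonneg_left h2 h3
  linarith

theorem ex_nonexp_aux {M D M' D' : ℝ → ℝ} {c : ℝ} (hF : Ec F M D) (hG : Ec G M' D')
    (hg : 0 < g) (v : ℝ) (hFG : ∀ x, F x ≤ G x + c) (x : ℝ) :
    gstep g v F x ≤ gstep g v G x + c := by
  have h1 : ∫ z, Real.exp (g * F (x + √v * z)) ∂(gaussianReal 0 1) ≤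
      Real.exp (g * c) * ∫ z, Real.exp (g * G (x + √v * z)) ∂(gaussianReal 0 1) := by
    rw [← integral_const_mul]
    refine integral_mono (hF.sm.integrable_exp g v x)
      ((hG.sm.integrable_exp g v x).const_mul _) fun z => ?_
    simp only []
    rw [← Real.exp_add]
    refine Real.exp_le_exp.2 ?_
    have := mul_le_mul_of_nonneg_left (hFG (x + √v * z)) hg.le
    linarith
  have hp := hF.sm.int_exp_pos g v x
  have hq := hG.sm.int_exp_pos g v x
  have h2 := Real.log_le_log hp h1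
  rw [Real.log_mul (Real.exp_pos _).ne' hq.ne', Real.log_exp] at h2
  unfold gstep
  have h3 := mul_le_mul_of_nonneg_left h2 (one_div_pos.2 hg).le
  have h4 : 1 / g * (g * c + Real.log (∫ z, Real.exp (g * G (x + √v * z)) ∂(gaussianReal 0 1))) =
      1 / g * Real.log (∫ z, Real.exp (g * G (x + √v * z)) ∂(gaussianReal 0 1)) + c := by
    field_simp
    ring
  rw [h4] at h3
  exact h3

theorem gstep_nonexp {c : ℝ} (hF : Adm C F) {C' : ℝ} (hG : Adm C' G) (hg : 0 < g) (v : ℝ)
    (hFG : ∀ x, |F x - G x| ≤ c) (x : ℝ) : |gstep g v F x - gstep g v G x| ≤ c := by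
  have h1 := ex_nonexp_aux (ex_ec hF) (ex_ec hG) hg v (c := c) (fun y => by
    have := (abs_le.1 (hFG y)).2
    linarith) x
  have h2 := ex_nonexp_aux (ex_ec hG) (ex_ec hF) hg v (c := c) (fun y => by
    have := (abs_le.1 (hFG y)).1
    linarith) x
  rw [abs_le]
  constructor <;> linarith

theorem ex_var_lip {M D : ℝ → ℝ} (h : Ec F M D) (hg : 0 < g) (hg1 : g ≤ 1) (hv : 0 ≤ v)
    (hv' : v ≤ v') (x : ℝ) : |gstep g v' F x - gstep g v F x| ≤ 1 / 2 * (v' - v) := by
  have f1 := (sp5_fam_const h 0 (v' - v)).step (m := g) hg (v₀ := v) (d := 1) (fun t ht => by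
    have h1 := ht.1
    linarith)
  have hM := h.sm.cont1
  have hD := h.cD
  have hK : ∀ y, |(0 : ℝ) + 1 / 2 * (D y + g * M y ^ 2)| ≤ 1 / 2 := fun y => by
    have h1 := h.D0 y
    have h2 := h.D1 y
    have h3 := sq_nonneg (M y)
    have h4 : 0 ≤ g * M y ^ 2 := by positivity
    have h5 : g * M y ^ 2 ≤ M y ^ 2 := by nlinarith
    rw [abs_of_nonneg (by linarith)]
    linarith
  have hc : ContinuousOn (fun t => gstep g (v + t * 1) F x) (Icc 0 (v' - v)) :=
    f1.c0.comp (f := fun t : ℝ => ((t, x) : ℝ × ℝ)) (by fun_prop)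
      (fun t ht => ⟨ht, mem_univ _⟩)
  rcases eq_or_lt_of_le hv' with he | hlt
  · rw [he, sub_self, sub_self, abs_zero, mul_zero]
  · have hdiff : ∀ t ∈ Ioo 0 (v' - v), HasDerivAt (fun t => gstep g (v + t * 1) F x)
      (tlt g (v + t * 1) F (fun y => 0 + 1 / 2 * (D y + g * M y ^ 2)) x) t :=
      fun t ht => f1.ds t ht x
    obtain ⟨t, ht, hteq⟩ := exists_hasDerivAt_eq_slope _ _ (sub_pos.2 hlt) hc hdiff
    have h3 := h.sm.abs_tlt_le (g := fun y => 0 + 1 / 2 * (D y + g * M y ^ 2)) (by fun_prop) hK g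
      (v + t * 1) x
    rw [hteq, abs_div, sub_zero, abs_of_pos (sub_pos.2 hlt), div_le_iff₀ (sub_pos.2 hlt)] at h3
    have e1 : v + (v' - v) * 1 = v' := by ring
    have e2 : v + 0 * 1 = v := by ring
    rw [e1, e2] at h3
    exact h3

theorem gstep_var_lip (h : Adm C F) (hg : 0 < g) (hg1 : g ≤ 1) (hv : 0 ≤ v) (hv' : 0 ≤ v')
    (x : ℝ) : |gstep g v F x - gstep g v' F x| ≤ 1 / 2 * |v - v'| := by
  rcases le_total v v' with hle | hle
  · rw [abs_sub_comm, abs_sub_comm v v', abs_of_nonneg (sub_nonneg.2 hle)]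
    exact ex_var_lip (ex_ec h) hg hg1 hv hle x
  · rw [abs_of_nonneg (sub_nonneg.2 hle)]
    exact ex_var_lip (ex_ec h) hg hg1 hv' hle x

theorem gstep_le_mean (h : Adm C F) (hg : 0 < g) (hg1 : g ≤ 1) (hv : 0 ≤ v) (x : ℝ) :
    gstep g v F x ≤ ∫ z, F (x + √v * z) ∂(gaussianReal 0 1) + 1 / 2 * g * v := by
  have hE := ex_ec h
  set M := iteratedDeriv 1 F with hM
  set D := iteratedDeriv 2 F with hD
  have f1 := ex_fam1 hE hg v
  obtain ⟨L, B, hL, hB, hsm⟩ := f1.sp2_sm
  obtain ⟨Bs, hBs⟩ := f1.bs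
  have hder : ∀ t ∈ Ioo 0 v, HasDerivAt
      (fun t => ∫ z, gstep g (v + t * -1) F (x + √(0 + t * 1) * z) ∂(gaussianReal 0 1)) _ t :=
    fun t ht => sp2_deriv f1.d1 f1.d2 f1.ds f1.c0 f1.c1 f1.c2 f1.cs f1.sp2_ebd
      (sp2_EB_of_bdd fun s hs => (hsm s hs).bM) (sp2_EB_of_bdd fun s hs => (hsm s hs).bD)
      (sp2_EB_of_bdd hBs) (v₀ := 0) (d := 1) (fun s hs => by linarith [hs.1]) ht x
  have hcont : ContinuousOn (fun t => ∫ z, gstep g (v + t * -1) F (x + √(0 + t * 1) * z)
      ∂(gaussianReal 0 1)) (Icc 0 v) := by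
    have h1 := sp2_cont subset_rfl f1.c0 f1.sp2_ebd 0 1
    exact h1.comp (f := fun s : ℝ => ((s, x) : ℝ × ℝ)) (s := Icc 0 v) (by fun_prop)
      (fun s hs => ⟨hs, mem_univ _⟩)
  rcases hv.eq_or_lt with h0 | h0
  · rw [← h0, ex_gstep_zero hg.ne']
    simp
  · obtain ⟨t, ht, hteq⟩ := exists_hasDerivAt_eq_slope _ _ h0 hcont hder
    have e0 : (fun z => gstep g (v + 0 * -1) F (x + √(0 + 0 * 1) * z)) = fun _ => gstep g v F x := by
      funext z
      simp
    have e1 : (fun z => gstep g (v + v * -1) F (x + √(0 + v * 1) * z)) =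
        fun z => F (x + √v * z) := by
      funext z
      have : v + v * -1 = 0 := by ring
      rw [this, ex_gstep_zero hg.ne', zero_add, mul_one]
    rw [e0, e1] at hteq
    simp only [integral_const, probReal_univ, one_smul, sub_zero] at hteq
    have hE2 := hE.step hg hg1 (v + t * -1)
    have h5 : -(1 / 2 * g) ≤ ∫ z, (tlt g (v + t * -1) F (fun y => 0 + -1 / 2 * (D y + g * M y ^ 2))
        (x + √(0 + t * 1) * z) + 1 / 2 * (tlt g (v + t * -1) F (fun y => D y + g * M y ^ 2)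
        (x + √(0 + t * 1) * z) - g * tlt g (v + t * -1) F M (x + √(0 + t * 1) * z) ^ 2))
        ∂(gaussianReal 0 1) := by
      have h6 : ∀ y, tlt g (v + t * -1) F (fun y => 0 + -1 / 2 * (D y + g * M y ^ 2)) y +
          1 / 2 * (tlt g (v + t * -1) F (fun y => D y + g * M y ^ 2) y -
            g * tlt g (v + t * -1) F M y ^ 2) = -(1 / 2 * g) * tlt g (v + t * -1) F M y ^ 2 := by
        intro y
        have h1 : tlt g (v + t * -1) F (fun y => 0 + -1 / 2 * (D y + g * M y ^ 2)) y =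
            -1 / 2 * tlt g (v + t * -1) F (fun y => D y + g * M y ^ 2) y := by
          rw [← tlt_const_mul]
          congr 1
          funext y
          ring
        rw [h1]
        ring
      simp only [h6]
      have h7 : ∀ y, tlt g (v + t * -1) F M y ^ 2 ≤ 1 := fun y => by
        have h8 := hE2.abs_M y
        exact (sq_le_one_iff_abs_le_one _).2 h8
      have h9 : ∫ _z : ℝ, -(1 / 2 * g) ∂(gaussianReal 0 1) = -(1 / 2 * g) := by simp
      have hcM := hE2.sm.cont1
      refine h9.symm.trans_le (integral_mono (integrable_const _) ?_ fun z => ?_)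
      · refine Integrable.mono' (integrable_const (1 / 2 * g)) (by fun_prop : Continuous fun z =>
          -(1 / 2 * g) * tlt g (v + t * -1) F M (x + √(0 + t * 1) * z) ^ 2).aestronglyMeasurable
          (ae_of_all _ fun z => ?_)
        rw [Real.norm_eq_abs, abs_mul, abs_neg, abs_of_pos (by positivity : 0 < 1 / 2 * g),
          abs_of_nonneg (sq_nonneg _)]
        nlinarith [h7 (x + √(0 + t * 1) * z)]
      · have := h7 (x + √(0 + t * 1) * z)
        simp only []
        nlinarith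
    rw [hteq, le_div_iff₀ h0] at h5
    linarith

end EX

end Vale.Agent.P146.Gap
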