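import Vale.Agent.P146.Gap.AdmStep
import Vale.Agent.P157.ParSp5

/-!
# P146 / Gap: overlaps along the first block
-/

open MeasureTheory ProbabilityTheory Filter Topology Set

namespace Vale.Agent.P146.Gap

open Vale.Agent.P157.Par

section FIRST

variable {C g s₁ : ℝ} {F : ℝ → ℝ}

/-! ### bounded continuous functions of the two variables -/

/-- bounded and continuous -/
def first_Bc (q : ℝ → ℝ → ℝ) : Prop :=
  Continuous (fun p : ℝ × ℝ => q p.1 p.2) ∧ ∃ B, ∀ s x, |q s x| ≤ B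

lemma first_Bc.const (c : ℝ) : first_Bc (fun _ _ => c) :=
  ⟨continuous_const, |c|, fun _ _ => le_rfl⟩

lemma first_Bc.add {p q : ℝ → ℝ → ℝ} (hp : first_Bc p) (hq : first_Bc q) :
    first_Bc (fun s x => p s x + q s x) := by
  obtain ⟨c1, B1, b1⟩ := hp
  obtain ⟨c2, B2, b2⟩ := hq
  exact ⟨c1.add c2, B1 + B2, fun s x => (abs_add_le _ _).trans (add_le_add (b1 s x) (b2 s x))⟩

lemma first_Bc.mul {p q : ℝ → ℝ → ℝ} (hp : first_Bc p) (hq : first_Bc q) :
    first_Bc (fun s x => p s x * q s x) := by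
  obtain ⟨c1, B1, b1⟩ := hp
  obtain ⟨c2, B2, b2⟩ := hq
  refine ⟨c1.mul c2, B1 * B2, fun s x => ?_⟩
  rw [abs_mul]
  exact mul_le_mul (b1 s x) (b2 s x) (abs_nonneg _) ((abs_nonneg _).trans (b1 s x))

lemma first_Bc.smul {p : ℝ → ℝ → ℝ} (c : ℝ) (hp : first_Bc p) :
    first_Bc (fun s x => c * p s x) := (first_Bc.const c).mul hp

lemma first_Bc.slice {p : ℝ → ℝ → ℝ} (hp : first_Bc p) (s : ℝ) : Continuous (p s) :=
  hp.1.comp (Continuous.prodMk_right s)

/-- the jets of the step at distance `s₁ - τ` -/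
noncomputable def first_f (g s₁ : ℝ) (F : ℝ → ℝ) (j : ℕ) (τ x : ℝ) : ℝ := fj g F j (s₁ - τ) x

lemma first_f_bc (h : Adm C F) (hg : 0 < g) (s₁ : ℝ) (j : ℕ) :
    first_Bc (first_f g s₁ F (j + 1)) := by
  obtain ⟨B, hB⟩ := fj_bd h.smb hg j
  refine ⟨?_, B, fun s x => hB (s₁ - s) x⟩
  have h1 := fj_cont h.smb hg (j + 1)
  have h2 : Continuous fun p : ℝ × ℝ => (s₁ - p.1, p.2) := by fun_prop
  have e : (fun p : ℝ × ℝ => first_f g s₁ F (j + 1) p.1 p.2) =
      (fun p : ℝ × ℝ => fj g F (j + 1) p.1 p.2) ∘ (fun p : ℝ × ℝ => (s₁ - p.1, p.2)) := rfl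
  rw [e]
  exact h1.comp h2

lemma first_f_cont (h : Adm C F) (hg : 0 < g) (s₁ : ℝ) (j : ℕ) :
    Continuous (fun p : ℝ × ℝ => first_f g s₁ F j p.1 p.2) := by
  have h1 := fj_cont h.smb hg j
  have h2 : Continuous fun p : ℝ × ℝ => (s₁ - p.1, p.2) := by fun_prop
  have e : (fun p : ℝ × ℝ => first_f g s₁ F j p.1 p.2) =
      (fun p : ℝ × ℝ => fj g F j p.1 p.2) ∘ (fun p : ℝ × ℝ => (s₁ - p.1, p.2)) := rfl
  rw [e]
  exact h1.comp h2

lemma first_f_x (h : Adm C F) (hg : 0 < g) (s₁ : ℝ) (j : ℕ) (τ x : ℝ) :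
    HasDerivAt (first_f g s₁ F j τ) (first_f g s₁ F (j + 1) τ x) x :=
  fj_x h.smb hg j (s₁ - τ) x

lemma first_comp {f : ℝ → ℝ} {f' τ : ℝ} (h : HasDerivAt f f' (s₁ - τ)) :
    HasDerivAt (fun τ => f (s₁ - τ)) (-f') τ := by
  have h1 : HasDerivAt (fun τ : ℝ => s₁ - τ) (-1) τ := by
    simpa using (hasDerivAt_id τ).const_sub s₁
  have := h.comp τ h1
  rw [mul_neg_one] at this
  exact this

lemma first_f_zero (g s₁ : ℝ) (F : ℝ → ℝ) (τ : ℝ) :
    first_f g s₁ F 0 τ = gstep g (s₁ - τ) F := by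
  unfold first_f fj
  rw [iteratedDeriv_zero]

/-- the family of the log-weights -/
lemma first_fam (h : Adm C F) (hg : 0 < g) (s₁ : ℝ) :
    Fam 0 s₁ (first_f g s₁ F 0) (first_f g s₁ F 1) (first_f g s₁ F 2)
      (fun τ x => -(1 / 2 * (first_f g s₁ F 2 τ x + g * first_f g s₁ F 1 τ x ^ 2))) := by
  have b1 := first_f_bc h hg s₁ 0
  have b2 := first_f_bc h hg s₁ 1
  have bs : first_Bc (fun τ x => -(1 / 2 * (first_f g s₁ F 2 τ x +
      g * first_f g s₁ F 1 τ x ^ 2))) := by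
    have := ((b2.add ((b1.mul b1).smul g)).smul (1 / 2)).smul (-1)
    convert this using 3
    ring
  refine ⟨fun s _ x => first_f_x h hg s₁ 0 s x, fun s _ x => first_f_x h hg s₁ 1 s x,
    fun s hs x => ?_, (first_f_cont h hg s₁ 0).continuousOn, b1.1.continuousOn,
    b2.1.continuousOn, bs.1.continuousOn, ?_, ?_, ?_⟩
  · exact first_comp (fj_s0 h.smb hg (s := s₁ - s) (by linarith [hs.2]) x)
  · obtain ⟨B, hB⟩ := b1.2; exact ⟨B, fun s _ x => hB s x⟩
  · obtain ⟨B, hB⟩ := b2.2; exact ⟨B, fun s _ x => hB s x⟩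
  · obtain ⟨B, hB⟩ := bs.2; exact ⟨B, fun s _ x => hB s x⟩

/-! ### bounded families with their derivatives -/

/-- bounded family with its derivatives -/
structure first_P (T : ℝ) (p p1 p2 ps : ℝ → ℝ → ℝ) : Prop where
  d1 : ∀ s x, HasDerivAt (p s) (p1 s x) x
  d2 : ∀ s x, HasDerivAt (p1 s) (p2 s x) x
  ds : ∀ s ∈ Ioo 0 T, ∀ x, HasDerivAt (fun s => p s x) (ps s x) s
  b0 : first_Bc p
  b1 : first_Bc p1
  b2 : first_Bc p2
  bs : first_Bc ps

lemma first_P.const (T c : ℝ) : first_P T (fun _ _ => c) (fun _ _ => 0) (fun _ _ => 0)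
    (fun _ _ => 0) :=
  ⟨fun _ x => hasDerivAt_const x c, fun _ x => hasDerivAt_const x 0,
    fun s _ _ => hasDerivAt_const s c, .const _, .const _, .const _, .const _⟩

lemma first_P.add {T : ℝ} {p p1 p2 ps q q1 q2 qs : ℝ → ℝ → ℝ} (hp : first_P T p p1 p2 ps)
    (hq : first_P T q q1 q2 qs) : first_P T (fun s x => p s x + q s x)
      (fun s x => p1 s x + q1 s x) (fun s x => p2 s x + q2 s x) (fun s x => ps s x + qs s x) :=
  ⟨fun s x => (hp.d1 s x).add (hq.d1 s x), fun s x => (hp.d2 s x).add (hq.d2 s x),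
    fun s hs x => (hp.ds s hs x).add (hq.ds s hs x), hp.b0.add hq.b0, hp.b1.add hq.b1,
    hp.b2.add hq.b2, hp.bs.add hq.bs⟩

lemma first_P.mul {T : ℝ} {p p1 p2 ps q q1 q2 qs : ℝ → ℝ → ℝ} (hp : first_P T p p1 p2 ps)
    (hq : first_P T q q1 q2 qs) : first_P T (fun s x => p s x * q s x)
      (fun s x => p1 s x * q s x + p s x * q1 s x)
      (fun s x => (p2 s x * q s x + p1 s x * q1 s x) + (p1 s x * q1 s x + p s x * q2 s x))
      (fun s x => ps s x * q s x + p s x * qs s x) :=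
  ⟨fun s x => (hp.d1 s x).mul (hq.d1 s x),
    fun s x => ((hp.d2 s x).mul (hq.d1 s x)).add ((hp.d1 s x).mul (hq.d2 s x)),
    fun s hs x => (hp.ds s hs x).mul (hq.ds s hs x), hp.b0.mul hq.b0,
    (hp.b1.mul hq.b0).add (hp.b0.mul hq.b1),
    ((hp.b2.mul hq.b0).add (hp.b1.mul hq.b1)).add ((hp.b1.mul hq.b1).add (hp.b0.mul hq.b2)),
    (hp.bs.mul hq.b0).add (hp.b0.mul hq.bs)⟩

lemma first_P.congr {T : ℝ} {p p1 p2 ps q q1 q2 qs : ℝ → ℝ → ℝ} (hp : first_P T p p1 p2 ps)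
    (h0 : ∀ s x, p s x = q s x) (h1 : ∀ s x, p1 s x = q1 s x) (h2 : ∀ s x, p2 s x = q2 s x)
    (hs : ∀ s x, ps s x = qs s x) : first_P T q q1 q2 qs := by
  have e0 : p = q := by funext s x; exact h0 s x
  have e1 : p1 = q1 := by funext s x; exact h1 s x
  have e2 : p2 = q2 := by funext s x; exact h2 s x
  have es : ps = qs := by funext s x; exact hs s x
  subst e0; subst e1; subst e2; subst es
  exact hp

lemma first_P1 (h : Adm C F) (hg : 0 < g) (s₁ : ℝ) :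
    first_P s₁ (first_f g s₁ F 1) (first_f g s₁ F 2) (first_f g s₁ F 3)
      (fun s x => -(1 / 2 * first_f g s₁ F 3 s x
        + g * (first_f g s₁ F 1 s x * first_f g s₁ F 2 s x))) := by
  have b1 := first_f_bc h hg s₁ 0
  have b2 := first_f_bc h hg s₁ 1
  have b3 := first_f_bc h hg s₁ 2
  refine ⟨fun s x => first_f_x h hg s₁ 1 s x, fun s x => first_f_x h hg s₁ 2 s x,
    fun s hs x => first_comp (fj_s1 h.smb hg (s := s₁ - s) (by linarith [hs.2]) x),
    b1, b2, b3, ?_⟩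
  have := ((b3.smul (1 / 2)).add ((b1.mul b2).smul g)).smul (-1)
  convert this using 3
  ring

lemma first_P2 (h : Adm C F) (hg : 0 < g) (s₁ : ℝ) :
    first_P s₁ (first_f g s₁ F 2) (first_f g s₁ F 3) (first_f g s₁ F 4)
      (fun s x => -(1 / 2 * first_f g s₁ F 4 s x
        + g * (first_f g s₁ F 2 s x ^ 2 + first_f g s₁ F 1 s x * first_f g s₁ F 3 s x))) := by
  have b1 := first_f_bc h hg s₁ 0
  have b2 := first_f_bc h hg s₁ 1
  have b3 := first_f_bc h hg s₁ 2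
  have b4 := first_f_bc h hg s₁ 3
  refine ⟨fun s x => first_f_x h hg s₁ 2 s x, fun s x => first_f_x h hg s₁ 3 s x,
    fun s hs x => first_comp (fj_s2 h.smb hg (s := s₁ - s) (by linarith [hs.2]) x),
    b2, b3, b4, ?_⟩
  have := ((b4.smul (1 / 2)).add (((b2.mul b2).add (b1.mul b3)).smul g)).smul (-1)
  convert this using 3
  ring

lemma first_P3 (h : Adm C F) (hg : 0 < g) (s₁ : ℝ) :
    first_P s₁ (first_f g s₁ F 3) (first_f g s₁ F 4) (first_f g s₁ F 5)
      (fun s x => -(1 / 2 * first_f g s₁ F 5 s x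
        + g * (3 * first_f g s₁ F 2 s x * first_f g s₁ F 3 s x
          + first_f g s₁ F 1 s x * first_f g s₁ F 4 s x))) := by
  have b1 := first_f_bc h hg s₁ 0
  have b2 := first_f_bc h hg s₁ 1
  have b3 := first_f_bc h hg s₁ 2
  have b4 := first_f_bc h hg s₁ 3
  have b5 := first_f_bc h hg s₁ 4
  refine ⟨fun s x => first_f_x h hg s₁ 3 s x, fun s x => first_f_x h hg s₁ 4 s x,
    fun s hs x => first_comp (fj_s3 h.smb hg (s := s₁ - s) (by linarith [hs.2]) x),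
    b3, b4, b5, ?_⟩
  have := ((b5.smul (1 / 2)).add ((((b2.mul b3).smul 3).add (b1.mul b4)).smul g)).smul (-1)
  convert this using 3
  ring

/-! ### the derivative of tilted averages -/

/-- the unnormalised tilted average -/
noncomputable def first_N (g s₁ : ℝ) (F : ℝ → ℝ) (p : ℝ → ℝ → ℝ) (τ : ℝ) : ℝ :=
  ∫ z, p τ (0 + √τ * z) * Real.exp (g * first_f g s₁ F 0 τ (0 + √τ * z)) ∂(gaussianReal 0 1)

lemma first_N_deriv (h : Adm C F) (hg : 0 < g) {p p1 p2 ps : ℝ → ℝ → ℝ}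
    (hp : first_P s₁ p p1 p2 ps) {τ : ℝ} (hτ : τ ∈ Ioo 0 s₁) :
    HasDerivAt (first_N g s₁ F p) (first_N g s₁ F (fun s x => ps s x + 1 / 2 * p2 s x
      + g * first_f g s₁ F 1 s x * p1 s x) τ) τ := by
  have hf := first_fam h hg s₁
  have b1 := first_f_bc h hg s₁ 0
  have b2 := first_f_bc h hg s₁ 1
  have hI : Ioo 0 s₁ ⊆ Icc 0 s₁ := Ioo_subset_Icc_self
  -- multipliers
  have m1 : first_Bc (fun s x => p1 s x + g * (first_f g s₁ F 1 s x * p s x)) :=
    hp.b1.add ((b1.mul hp.b0).smul g)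
  have m2 : first_Bc (fun s x => p2 s x + g * (2 * (first_f g s₁ F 1 s x * p1 s x)
      + first_f g s₁ F 2 s x * p s x + g * ((first_f g s₁ F 1 s x * first_f g s₁ F 1 s x)
        * p s x))) :=
    hp.b2.add ((((b1.mul hp.b1).smul 2).add (b2.mul hp.b0)).add
      (((b1.mul b1).mul hp.b0).smul g) |>.smul g)
  have ms : first_Bc (fun s x => ps s x + (-g / 2) * ((first_f g s₁ F 2 s x +
      g * (first_f g s₁ F 1 s x * first_f g s₁ F 1 s x)) * p s x)) :=
    hp.bs.add (((b2.add ((b1.mul b1).smul g)).mul hp.b0).smul (-g / 2))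
  have eb : ∀ {q : ℝ → ℝ → ℝ}, first_Bc q → sp2_EB (Icc 0 s₁)
      (fun s x => q s x * Real.exp (g * first_f g s₁ F 0 s x)) := by
    rintro q ⟨-, B, hB⟩
    exact (sp2_EB_of_bdd fun s _ x => hB s x).mul (hf.sp2_ebd_exp g)
  have ce : ∀ {q : ℝ → ℝ → ℝ}, first_Bc q → ContinuousOn (fun r : ℝ × ℝ => q r.1 r.2 *
      Real.exp (g * first_f g s₁ F 0 r.1 r.2)) (Icc 0 s₁ ×ˢ univ) := fun hq =>
    hq.1.continuousOn.mul (hf.sp2_cexp g)
  have hder := sp2_deriv (a := 0) (b := s₁)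
    (G := fun s x => p s x * Real.exp (g * first_f g s₁ F 0 s x))
    (G1 := fun s x => (p1 s x + g * (first_f g s₁ F 1 s x * p s x)) *
      Real.exp (g * first_f g s₁ F 0 s x))
    (G2 := fun s x => (p2 s x + g * (2 * (first_f g s₁ F 1 s x * p1 s x)
      + first_f g s₁ F 2 s x * p s x + g * ((first_f g s₁ F 1 s x * first_f g s₁ F 1 s x)
        * p s x))) * Real.exp (g * first_f g s₁ F 0 s x))
    (Gs := fun s x => (ps s x + (-g / 2) * ((first_f g s₁ F 2 s x +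
      g * (first_f g s₁ F 1 s x * first_f g s₁ F 1 s x)) * p s x)) *
      Real.exp (g * first_f g s₁ F 0 s x)) (v₀ := 0) (d := 1)
    (fun s hs x => by
      refine ((hp.d1 s x).mul ((hf.d1 s hs x).const_mul g).exp).congr_deriv ?_
      ring)
    (fun s hs x => by
      refine (((hp.d2 s x).add (((hf.d2 s hs x).mul (hp.d1 s x)).const_mul g)).mul
        ((hf.d1 s hs x).const_mul g).exp).congr_deriv ?_
      simp only [Pi.add_apply, Pi.mul_apply]
      ring)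
    (fun s hs x => by
      refine ((hp.ds s hs x).mul ((hf.ds s hs x).const_mul g).exp).congr_deriv ?_
      ring)
    (ce hp.b0) (ce m1) (ce m2) ((ce ms).mono (prod_mono hI subset_rfl))
    (eb hp.b0) (eb m1) (eb m2) ((eb ms).mono hI)
    (fun s hs => by linarith [hs.1]) hτ 0
  simp only [zero_add, mul_one] at hder
  unfold first_N
  simp only [zero_add]
  refine hder.congr_deriv ?_
  refine integral_congr_ae (Eventually.of_forall fun z => ?_)
  simp only []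
  ring

lemma first_N_pos (h : Adm C F) (hg : 0 < g) {τ : ℝ} (hτ : τ ∈ Icc 0 s₁) :
    0 < first_N g s₁ F (fun _ _ => 1) τ := by
  obtain ⟨L, B, -, -, hsm⟩ := (first_fam h hg s₁).sp2_sm
  have := (hsm τ hτ).int_exp_pos g τ 0
  simpa [first_N] using this

lemma first_tlt_eq (p : ℝ → ℝ → ℝ) (τ : ℝ) :
    tlt g τ (gstep g (s₁ - τ) F) (p τ) 0 =
      first_N g s₁ F p τ / first_N g s₁ F (fun _ _ => 1) τ := by
  unfold tlt first_N
  rw [first_f_zero]
  simp only [one_mul]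

lemma first_tlt_deriv (h : Adm C F) (hg : 0 < g) {p p1 p2 ps : ℝ → ℝ → ℝ}
    (hp : first_P s₁ p p1 p2 ps) {τ : ℝ} (hτ : τ ∈ Ioo 0 s₁) :
    HasDerivAt (fun τ => tlt g τ (gstep g (s₁ - τ) F) (p τ) 0)
      (tlt g τ (gstep g (s₁ - τ) F) (fun x => ps τ x + 1 / 2 * p2 τ x
        + g * first_f g s₁ F 1 τ x * p1 τ x) 0) τ := by
  have h1 := first_N_deriv h hg hp hτ
  have h2 := first_N_deriv h hg (first_P.const s₁ 1) hτ
  have h3 := first_N_pos h hg (Ioo_subset_Icc_self hτ)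
  have h4 : first_N g s₁ F (fun s x => (0 : ℝ) + 1 / 2 * 0 + g * first_f g s₁ F 1 s x * 0) τ
      = 0 := by
    unfold first_N
    simp
  rw [h4] at h2
  have h5 := h1.div h2 h3.ne'
  have e : (fun τ => tlt g τ (gstep g (s₁ - τ) F) (p τ) 0) =
      first_N g s₁ F p / first_N g s₁ F (fun _ _ => 1) := by
    funext τ
    exact first_tlt_eq p τ
  rw [e]
  refine h5.congr_deriv ?_
  rw [first_tlt_eq (fun s x => ps s x + 1 / 2 * p2 s x + g * first_f g s₁ F 1 s x * p1 s x),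
    mul_zero, sub_zero, sq, mul_div_mul_right _ _ h3.ne']

lemma first_tlt_cont (h : Adm C F) (hg : 0 < g) {p : ℝ → ℝ → ℝ} (hp : first_Bc p) (g' : ℝ) :
    ContinuousOn (fun τ => tlt g' τ (gstep g (s₁ - τ) F) (p τ) 0) (Icc 0 s₁) := by
  obtain ⟨hc, B, hB⟩ := hp
  have h1 := (first_fam h hg s₁).tlt_cont hc.continuousOn (fun s _ x => hB s x) g' 0 1
  have h2 := h1.comp (f := fun s : ℝ => ((s, (0 : ℝ)) : ℝ × ℝ)) (s := Icc 0 s₁) (by fun_prop)
    (fun s hs => ⟨hs, mem_univ _⟩)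
  simp only [Function.comp_def, zero_add, mul_one, first_f_zero] at h2
  exact h2

lemma first_Rf_eq (g' g s₁ : ℝ) (F : ℝ → ℝ) : Rf g' g s₁ F =
    fun τ => tlt g' τ (gstep g (s₁ - τ) F)
      (fun x => first_f g s₁ F 1 τ x * first_f g s₁ F 1 τ x) 0 := by
  funext τ
  unfold Rf
  congr 1
  funext y
  rw [sq]
  rfl

lemma first_Mf_eq (g s₁ : ℝ) (F : ℝ → ℝ) : Mf g s₁ F =
    fun τ => tlt g τ (gstep g (s₁ - τ) F)
      (fun x => first_f g s₁ F 2 τ x * first_f g s₁ F 2 τ x) 0 := by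
  funext τ
  unfold Mf
  congr 1
  funext y
  rw [sq]
  rfl

lemma first_M1f_eq (g s₁ : ℝ) (F : ℝ → ℝ) : M1f g s₁ F =
    fun τ => tlt g τ (gstep g (s₁ - τ) F)
      (fun x => first_f g s₁ F 3 τ x * first_f g s₁ F 3 τ x
        + -(2 * g) * (first_f g s₁ F 2 τ x * (first_f g s₁ F 2 τ x * first_f g s₁ F 2 τ x))) 0 := by
  funext τ
  unfold M1f
  congr 1
  funext y
  change first_f g s₁ F 3 τ y ^ 2 - 2 * g * first_f g s₁ F 2 τ y ^ 3 = _
  ring

theorem Rf_hasDerivAt (h : Adm C F) (hg : 0 < g) (hg1 : g ≤ 1) {τ : ℝ} (hτ : τ ∈ Ioo 0 s₁) :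
    HasDerivAt (Rf g g s₁ F) (Mf g s₁ F τ) τ := by
  have hp := (first_P1 h hg s₁).mul (first_P1 h hg s₁)
  rw [first_Rf_eq]
  refine (first_tlt_deriv h hg hp hτ).congr_deriv ?_
  rw [first_Mf_eq]
  congr 1
  funext y
  ring

theorem Mf_hasDerivAt (h : Adm C F) (hg : 0 < g) (hg1 : g ≤ 1) {τ : ℝ} (hτ : τ ∈ Ioo 0 s₁) :
    HasDerivAt (Mf g s₁ F) (M1f g s₁ F τ) τ := by
  have hp := (first_P2 h hg s₁).mul (first_P2 h hg s₁)
  rw [first_Mf_eq]
  refine (first_tlt_deriv h hg hp hτ).congr_deriv ?_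
  rw [first_M1f_eq]
  congr 1
  funext y
  ring

theorem M1f_hasDerivAt (h : Adm C F) (hg : 0 < g) (hg1 : g ≤ 1) {τ : ℝ} (hτ : τ ∈ Ioo 0 s₁) :
    HasDerivAt (M1f g s₁ F) (M2f g s₁ F τ) τ := by
  have h2 := first_P2 h hg s₁
  have h3 := first_P3 h hg s₁
  have hp := (h3.mul h3).add ((first_P.const s₁ (-(2 * g))).mul (h2.mul (h2.mul h2)))
  rw [first_M1f_eq]
  refine (first_tlt_deriv h hg hp hτ).congr_deriv ?_
  unfold M2f
  congr 1
  funext y
  change _ = first_f g s₁ F 4 τ y ^ 2 - 12 * g * first_f g s₁ F 2 τ y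
    * first_f g s₁ F 3 τ y ^ 2 + 6 * g ^ 2 * first_f g s₁ F 2 τ y ^ 4
  ring

theorem Rf_cont (h : Adm C F) (hg : 0 < g) (hg1 : g ≤ 1) {g' : ℝ} (hg' : 0 < g') (hg'1 : g' ≤ 1) :
    ContinuousOn (Rf g' g s₁ F) (Icc 0 s₁) := by
  have b1 := first_f_bc h hg s₁ 0
  rw [first_Rf_eq]
  exact first_tlt_cont (s₁ := s₁) h hg (b1.mul b1) g'

theorem Mf_cont (h : Adm C F) (hg : 0 < g) (hg1 : g ≤ 1) :
    ContinuousOn (Mf g s₁ F) (Icc 0 s₁) := by
  have b2 := first_f_bc h hg s₁ 1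
  rw [first_Mf_eq]
  exact first_tlt_cont (s₁ := s₁) h hg (b2.mul b2) g

theorem M1f_cont (h : Adm C F) (hg : 0 < g) (hg1 : g ≤ 1) :
    ContinuousOn (M1f g s₁ F) (Icc 0 s₁) := by
  have b2 := first_f_bc h hg s₁ 1
  have b3 := first_f_bc h hg s₁ 2
  rw [first_M1f_eq]
  exact first_tlt_cont (s₁ := s₁) h hg
    ((b3.mul b3).add ((b2.mul (b2.mul b2)).smul (-(2 * g)))) g

/-! ### bounds -/

lemma first_sm (h : Adm C F) (hg : 0 < g) {τ : ℝ} (hτ : τ ∈ Icc 0 s₁) :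
    ∃ L B : ℝ, Sm L B (gstep g (s₁ - τ) F) (first_f g s₁ F 1 τ) (first_f g s₁ F 2 τ) := by
  obtain ⟨L, B, -, -, hsm⟩ := (first_fam h hg s₁).sp2_sm
  have := hsm τ hτ
  rw [first_f_zero] at this
  exact ⟨L, B, this⟩

lemma first_adm (h : Adm C F) (hg : 0 < g) (hg1 : g ≤ 1) {τ : ℝ} (hτ : τ ∈ Icc 0 s₁) :
    Adm (C * Real.exp (2 * g * (s₁ - τ))) (gstep g (s₁ - τ) F) :=
  h.step hg hg1 (by linarith [hτ.2])

lemma first_d1_zero (h : Adm C F) (hg : 0 < g) (hg1 : g ≤ 1) {τ : ℝ} (hτ : τ ∈ Icc 0 s₁) :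
    first_f g s₁ F 1 τ 0 = 0 := by
  have h1 := (first_adm h hg hg1 hτ).even
  have h2 : HasDerivAt (gstep g (s₁ - τ) F) (first_f g s₁ F 1 τ 0) 0 := by
    have := first_f_x h hg s₁ 0 τ 0
    rwa [first_f_zero] at this
  have h3 : HasDerivAt (fun x => gstep g (s₁ - τ) F (-x)) (-(first_f g s₁ F 1 τ 0)) 0 := by
    have h4 : HasDerivAt (gstep g (s₁ - τ) F) (first_f g s₁ F 1 τ 0) (-0) := by simpa using h2
    have := h4.comp 0 (hasDerivAt_neg (0 : ℝ))
    rw [mul_neg_one] at this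
    exact this
  have h5 : (fun x => gstep g (s₁ - τ) F (-x)) = gstep g (s₁ - τ) F := funext h1
  rw [h5] at h3
  have := h3.unique h2
  linarith

lemma first_d1_sq (h : Adm C F) (hg : 0 < g) (hg1 : g ≤ 1) {τ : ℝ} (hτ : τ ∈ Icc 0 s₁) (x : ℝ) :
    0 < first_f g s₁ F 2 τ x ∧ first_f g s₁ F 2 τ x + first_f g s₁ F 1 τ x ^ 2 ≤ 1 :=
  ⟨(first_adm h hg hg1 hτ).pos x, (first_adm h hg hg1 hτ).le1 x⟩

theorem Rf_zero (h : Adm C F) (hg : 0 < g) (hg1 : g ≤ 1) (g' : ℝ) (hs : 0 ≤ s₁) :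
    Rf g' g s₁ F 0 = 0 := by
  rw [first_Rf_eq]
  simp only []
  rw [sp3_tlt_triv le_rfl, first_d1_zero h hg hg1 ⟨le_rfl, hs⟩, mul_zero]

theorem Mf_zero (h : Adm C F) (hg : 0 < g) (hg1 : g ≤ 1) (hs : 0 ≤ s₁) :
    Mf g s₁ F 0 = iteratedDeriv 2 (gstep g s₁ F) 0 ^ 2 := by
  unfold Mf
  rw [sp3_tlt_triv le_rfl, sub_zero]

theorem M1f_le (h : Adm C F) (hg : 0 < g) (hg1 : g ≤ 1) {τ : ℝ} (hτ : τ ∈ Icc 0 s₁) :
    M1f g s₁ F τ ≤ (C * Real.exp (2 * s₁)) ^ 2 := by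
  obtain ⟨L, B, hsm⟩ := first_sm h hg hτ
  have hA := first_adm h hg hg1 hτ
  have b2 := first_f_bc h hg s₁ 1
  have b3 := first_f_bc h hg s₁ 2
  have hb := (b3.mul b3).add ((b2.mul (b2.mul b2)).smul (-(2 * g)))
  obtain ⟨K, hK⟩ := hb.2
  rw [first_M1f_eq]
  have h1 := hsm.tlt_mono (g := fun x => first_f g s₁ F 3 τ x * first_f g s₁ F 3 τ x
        + -(2 * g) * (first_f g s₁ F 2 τ x * (first_f g s₁ F 2 τ x * first_f g s₁ F 2 τ x)))
    (g' := fun _ => (C * Real.exp (2 * s₁)) ^ 2) (hb.slice τ) (hK τ) continuous_const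
    (K' := |(C * Real.exp (2 * s₁)) ^ 2|) (fun _ => le_rfl) (fun x => ?_) g τ 0
  · rwa [hsm.tlt_const] at h1
  · obtain ⟨p1, p2⟩ := first_d1_sq h hg hg1 hτ x
    have p3 : |first_f g s₁ F 3 τ x| ≤ C * Real.exp (2 * g * (s₁ - τ)) * first_f g s₁ F 2 τ x :=
      hA.r3 x
    have hC := h.C_nonneg
    have p4 : Real.exp (2 * g * (s₁ - τ)) ≤ Real.exp (2 * s₁) := by
      apply Real.exp_le_exp.2
      have := hτ.1
      have := hτ.2
      nlinarith
    have p5 : first_f g s₁ F 2 τ x ≤ 1 := by nlinarith [sq_nonneg (first_f g s₁ F 1 τ x)]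
    have p6 : |first_f g s₁ F 3 τ x| ≤ C * Real.exp (2 * s₁) := by
      refine p3.trans ?_
      calc C * Real.exp (2 * g * (s₁ - τ)) * first_f g s₁ F 2 τ x
          ≤ C * Real.exp (2 * s₁) * 1 := by
            apply mul_le_mul (mul_le_mul_of_nonneg_left p4 hC) p5 p1.le
            have := Real.exp_pos (2 * s₁)
            positivity
        _ = _ := mul_one _
    have p7 : first_f g s₁ F 3 τ x ^ 2 ≤ (C * Real.exp (2 * s₁)) ^ 2 := by
      rw [← sq_abs]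
      exact pow_le_pow_left₀ (abs_nonneg _) p6 2
    have p8 : 0 ≤ g * (first_f g s₁ F 2 τ x * (first_f g s₁ F 2 τ x * first_f g s₁ F 2 τ x)) := by
      positivity
    nlinarith

lemma first_d1_le (h : Adm C F) (hg : 0 < g) (hg1 : g ≤ 1) {τ : ℝ} (hτ : τ ∈ Icc 0 s₁) (x : ℝ) :
    |first_f g s₁ F 1 τ x| ≤ 1 := by
  obtain ⟨p1, p2⟩ := first_d1_sq h hg hg1 hτ x
  exact (sq_le_one_iff_abs_le_one _).1 (by linarith)

theorem Rf_le_one (h : Adm C F) (hg : 0 < g) (hg1 : g ≤ 1) {g' : ℝ} (hg' : 0 < g')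
    {τ : ℝ} (hτ : τ ∈ Icc 0 s₁) : Rf g' g s₁ F τ ≤ 1 := by
  obtain ⟨L, B, hsm⟩ := first_sm h hg hτ
  have b1 := first_f_bc h hg s₁ 0
  rw [first_Rf_eq]
  refine (le_abs_self _).trans (hsm.abs_tlt_le
    (g := fun x => first_f g s₁ F 1 τ x * first_f g s₁ F 1 τ x) ((b1.mul b1).slice τ) ?_ _ _ _)
  intro x
  rw [abs_mul]
  have := first_d1_le h hg hg1 hτ x
  nlinarith [abs_nonneg (first_f g s₁ F 1 τ x)]

/-! ### change of the tilt exponent -/

lemma first_cube_int (c : ℝ) : Integrable (fun z : ℝ => |z| ^ 3 * Real.exp (c * |z|))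
    (gaussianReal 0 1) := by
  refine ((sp2_integrable_exp_abs (1 + c)).const_mul 6).mono' (by fun_prop)
    (Eventually.of_forall fun z => ?_)
  rw [Real.norm_eq_abs, abs_of_nonneg (by positivity), add_mul, one_mul, Real.exp_add]
  have h1 := Real.pow_div_factorial_le_exp |z| (abs_nonneg z) 3
  have h2 : ((Nat.factorial 3 : ℕ) : ℝ) = 6 := by norm_num [Nat.factorial]
  rw [h2, div_le_iff₀ (by norm_num)] at h1
  calc |z| ^ 3 * Real.exp (c * |z|) ≤ (Real.exp |z| * 6) * Real.exp (c * |z|) :=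
        mul_le_mul_of_nonneg_right h1 (Real.exp_pos _).le
    _ = _ := by ring

lemma first_ec (h : Adm C F) (hg : 0 < g) (hg1 : g ≤ 1) {τ : ℝ} (hτ : τ ∈ Icc 0 s₁) :
    Ec (gstep g (s₁ - τ) F) (first_f g s₁ F 1 τ) (first_f g s₁ F 2 τ) := by
  obtain ⟨L, B, hsm⟩ := first_sm h hg hτ
  exact ⟨hsm.d1, hsm.d2, hsm.cD, (first_adm h hg hg1 hτ).even,
    fun x => (first_d1_sq h hg hg1 hτ x).1.le, fun x => (first_d1_sq h hg hg1 hτ x).2⟩

lemma first_min {G M D : ℝ → ℝ} (h : Ec G M D) (x : ℝ) : G 0 ≤ G x := by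
  have hm : MonotoneOn G (Ici 0) := by
    refine monotoneOn_of_deriv_nonneg (convex_Ici 0) h.sm.cont.continuousOn
      (fun x _ => (h.d1 x).differentiableAt.differentiableWithinAt) fun x hx => ?_
    rw [(h.d1 x).deriv]
    rw [interior_Ici] at hx
    exact sp3_nonneg h (le_of_lt hx)
  rcases le_total 0 x with hx | hx
  · exact hm (by simp) hx hx
  · rw [← h.even x]
    exact hm (by simp) (by simpa using hx) (by linarith)

lemma first_M_le {G M D : ℝ → ℝ} (h : Ec G M D) (x : ℝ) : M x ^ 2 ≤ x ^ 2 := by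
  have h0 : M 0 = 0 := by
    have := h.odd 0
    rw [neg_zero] at this
    linarith
  have h1 := convex_univ.norm_image_sub_le_of_norm_hasDerivWithin_le (f := M) (f' := D)
    (s := Set.univ) (C := 1) (fun x _ => (h.d2 x).hasDerivWithinAt) (fun x _ => h.sm.bD x)
    (mem_univ 0) (mem_univ x)
  rw [h0, sub_zero, sub_zero, one_mul, Real.norm_eq_abs, Real.norm_eq_abs] at h1
  exact sq_le_sq.2 h1

/-- Change of the tilt exponent. -/
theorem Rf_tilt (S : ℝ) : ∃ K : ℝ, 0 ≤ K ∧ ∀ (C g g' s₁ : ℝ) (F : ℝ → ℝ), Adm C F → 0 < g →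
    g ≤ g' → g' ≤ 1 → s₁ ≤ S → ∀ τ ∈ Icc 0 s₁,
      Rf g' g s₁ F τ ≤ Rf g g s₁ F τ + K * (g' - g) * τ := by
  refine ⟨√S * ∫ z, |z| ^ 3 * Real.exp (√S * |z|) ∂(gaussianReal 0 1), ?_, ?_⟩
  · exact mul_nonneg (Real.sqrt_nonneg _) (integral_nonneg fun z => by positivity)
  intro C g g' s₁ F h hg hgg hg'1 hS τ hτ
  have hg1 : g ≤ 1 := hgg.trans hg'1
  set I := ∫ z, |z| ^ 3 * Real.exp (√S * |z|) ∂(gaussianReal 0 1) with hI
  have hE := first_ec h hg hg1 hτ
  set G := gstep g (s₁ - τ) F with hG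
  set M := first_f g s₁ F 1 τ with hM
  set D := first_f g s₁ F 2 τ with hD
  set w : ℝ → ℝ := fun y => G y + -(G 0) with hw
  have hw0 : ∀ y, 0 ≤ w y := fun y => by
    have := first_min hE y
    simp only [hw]; linarith
  have hw1 : ∀ y, w y ≤ |y| := fun y => by
    have := hE.sm.lip y 0
    rw [sub_zero, one_mul] at this
    exact (le_abs_self _).trans this
  have hwS : Sm 1 1 w M D :=
    ⟨fun x => by simpa [hw] using (hE.d1 x).add_const (-(G 0)), hE.d2, hE.cD, hE.sm.bM, hE.sm.bD⟩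
  have hMc : Continuous fun x => M x * M x := hE.sm.cont1.mul hE.sm.cont1
  have hMb : ∀ x, |M x * M x| ≤ 1 := fun x => by
    rw [abs_mul]
    have := hE.abs_M x
    nlinarith [abs_nonneg (M x)]
  have e : ∀ m : ℝ, tlt m τ G (fun x => M x * M x) 0 = tlt m τ w (fun x => M x * M x) 0 :=
    fun m => (sp5_tlt_add_const m τ (-(G 0)) G (fun x => M x * M x) 0).symm
  rw [first_Rf_eq, first_Rf_eq]
  simp only []
  rw [← hG, ← hM, e, e]
  unfold tlt
  set A' := ∫ z, M (0 + √τ * z) * M (0 + √τ * z) * Real.exp (g' * w (0 + √τ * z))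
    ∂(gaussianReal 0 1) with hA'
  set Z' := ∫ z, Real.exp (g' * w (0 + √τ * z)) ∂(gaussianReal 0 1) with hZ'
  set A := ∫ z, M (0 + √τ * z) * M (0 + √τ * z) * Real.exp (g * w (0 + √τ * z))
    ∂(gaussianReal 0 1) with hA
  set Z := ∫ z, Real.exp (g * w (0 + √τ * z)) ∂(gaussianReal 0 1) with hZ
  have hτ0 : 0 ≤ τ := hτ.1
  have hτS : τ ≤ S := hτ.2.trans hS
  have hZ1 : 1 ≤ Z := by
    have h1 : ∫ _z : ℝ, (1 : ℝ) ∂(gaussianReal 0 1) = 1 := by simp
    rw [← h1, hZ]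
    refine integral_mono (integrable_const _) (hwS.integrable_exp g τ 0) fun z => ?_
    exact Real.one_le_exp (mul_nonneg hg.le (hw0 _))
  have hZZ : Z ≤ Z' := by
    refine integral_mono (hwS.integrable_exp g τ 0) (hwS.integrable_exp g' τ 0) fun z => ?_
    exact Real.exp_le_exp.2 (mul_le_mul_of_nonneg_right hgg (hw0 _))
  have hA'0 : 0 ≤ A' := integral_nonneg fun z => mul_nonneg (mul_self_nonneg _) (Real.exp_pos _).le
  have hAA : A' ≤ A + √S * I * (g' - g) * τ := by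
    have h1 : A + √S * I * (g' - g) * τ = ∫ z, (M (0 + √τ * z) * M (0 + √τ * z) *
        Real.exp (g * w (0 + √τ * z)) + (√S * (g' - g) * τ) *
          (|z| ^ 3 * Real.exp (√S * |z|))) ∂(gaussianReal 0 1) := by
      rw [integral_add (hwS.integrable hMc hMb g τ 0) ((first_cube_int _).const_mul _),
        integral_const_mul]
      ring
    rw [h1, hA']
    refine integral_mono (hwS.integrable hMc hMb g' τ 0)
      ((hwS.integrable hMc hMb g τ 0).add ((first_cube_int _).const_mul _)) fun z => ?_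
    simp only [zero_add]
    set y := √τ * z with hy
    have hη : 0 ≤ g' - g := by linarith
    have k1 : Real.exp (g' * w y) - Real.exp (g * w y) ≤ (g' - g) * |y| * Real.exp |y| := by
      have k2 : Real.exp (g * w y) = Real.exp (g' * w y) * Real.exp (-((g' - g) * w y)) := by
        rw [← Real.exp_add]; congr 1; ring
      have k3 := Real.add_one_le_exp (-((g' - g) * w y))
      have k4 : Real.exp (g' * w y) ≤ Real.exp |y| := by
        apply Real.exp_le_exp.2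
        have := hw0 y
        have := hw1 y
        nlinarith
      have k5 : 0 ≤ (g' - g) * w y := mul_nonneg hη (hw0 y)
      calc Real.exp (g' * w y) - Real.exp (g * w y)
          = Real.exp (g' * w y) * (1 - Real.exp (-((g' - g) * w y))) := by rw [k2]; ring
        _ ≤ Real.exp (g' * w y) * ((g' - g) * w y) :=
            mul_le_mul_of_nonneg_left (by linarith) (Real.exp_pos _).le
        _ ≤ Real.exp |y| * ((g' - g) * |y|) :=
            mul_le_mul k4 (mul_le_mul_of_nonneg_left (hw1 y) hη) k5 (Real.exp_pos _).le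
        _ = _ := by ring
    have k6 : M y * M y ≤ y ^ 2 := by rw [← sq]; exact first_M_le hE y
    have k7 : |y| = √τ * |z| := by rw [hy, abs_mul, abs_of_nonneg (Real.sqrt_nonneg τ)]
    have k8 : √τ ≤ √S := Real.sqrt_le_sqrt hτS
    have k9 : (g' - g) * |y| ^ 3 * Real.exp |y| ≤
        √S * (g' - g) * τ * (|z| ^ 3 * Real.exp (√S * |z|)) := by
      have j1 : Real.exp |y| ≤ Real.exp (√S * |z|) := by
        rw [k7]
        exact Real.exp_le_exp.2 (mul_le_mul_of_nonneg_right k8 (abs_nonneg _))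
      have j2 : |y| ^ 3 = √τ * τ * |z| ^ 3 := by
        rw [k7, mul_pow, pow_succ, Real.sq_sqrt hτ0]; ring
      calc (g' - g) * |y| ^ 3 * Real.exp |y|
          ≤ (g' - g) * (√S * τ * |z| ^ 3) * Real.exp (√S * |z|) := by
            refine mul_le_mul (mul_le_mul_of_nonneg_left ?_ hη) j1 (Real.exp_pos _).le ?_
            · rw [j2]
              exact mul_le_mul_of_nonneg_right (mul_le_mul_of_nonneg_right k8 hτ0)
                (by positivity)
            · have := Real.sqrt_nonneg S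
              positivity
        _ = _ := by ring
    have k10 : M y * M y * (Real.exp (g' * w y) - Real.exp (g * w y)) ≤
        (g' - g) * |y| ^ 3 * Real.exp |y| := by
      have j3 : 0 ≤ Real.exp (g' * w y) - Real.exp (g * w y) := by
        have := Real.exp_le_exp.2 (mul_le_mul_of_nonneg_right hgg (hw0 y))
        linarith
      calc M y * M y * (Real.exp (g' * w y) - Real.exp (g * w y))
          ≤ y ^ 2 * ((g' - g) * |y| * Real.exp |y|) :=
            mul_le_mul k6 k1 j3 (sq_nonneg _)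
        _ = _ := by rw [← sq_abs]; ring
    linarith
  have hZ0 : 0 < Z := by linarith
  have hr : 0 ≤ √S * I * (g' - g) * τ := by
    have : 0 ≤ I := integral_nonneg fun z => by positivity
    have := Real.sqrt_nonneg S
    have : 0 ≤ g' - g := by linarith
    positivity
  calc A' / Z' ≤ A' / Z := div_le_div_of_nonneg_left hA'0 hZ0 hZZ
    _ ≤ (A + √S * I * (g' - g) * τ) / Z := div_le_div_of_nonneg_right hAA hZ0.le
    _ = A / Z + √S * I * (g' - g) * τ / Z := add_div _ _ _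
    _ ≤ A / Z + √S * I * (g' - g) * τ := by
        have := div_le_self hr hZ1
        linarith

end FIRST

end Vale.Agent.P146.Gap
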