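import Mathlib

/-!
# P146: the elementary one-variable conclusion
-/

open MeasureTheory Set

namespace Vale.Agent.P146.Gap

/-- a convex function which is negative at `0` and positive at `τ` is positive after `τ` -/
theorem real_convex_pos {k : ℝ → ℝ} {s : ℝ} (hk : ConvexOn ℝ (Icc 0 s) k) (h0 : k 0 < 0) {τ σ : ℝ}
    (hτ : 0 ≤ τ) (hτσ : τ ≤ σ) (hσ : σ ≤ s) (hpos : 0 < k τ) : 0 < k σ := by
  have h1 : k τ ≤ max (k 0) (k σ) :=
    hk.le_max_of_mem_Icc ⟨le_rfl, by linarith⟩ ⟨by linarith, hσ⟩ ⟨hτ, hτσ⟩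
  rcases le_max_iff.1 h1 with h | h
  · linarith
  · linarith

/-- the sign of `h` -/
theorem real_nonpos {s : ℝ} {h k : ℝ → ℝ} (hs : 0 < s) (hc : ContinuousOn h (Icc 0 s))
    (hd : ∀ τ ∈ Ioo 0 s, HasDerivAt h (k τ) τ) (hk : ConvexOn ℝ (Icc 0 s) k) (h0 : k 0 < 0)
    (hh0 : h 0 = 0) (hhs : h s ≤ 0) : ∀ t ∈ Icc 0 s, h t ≤ 0 := by
  intro t ht
  by_cases hA : ∀ τ ∈ Ioo 0 t, k τ ≤ 0
  · have h1 : AntitoneOn h (Icc 0 t) := by
      refine antitoneOn_of_deriv_nonpos (convex_Icc 0 t) (hc.mono (Icc_subset_Icc_right ht.2))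
        ?_ ?_
      · rw [interior_Icc]
        intro τ hτ
        exact (hd τ ⟨hτ.1, hτ.2.trans_le ht.2⟩).differentiableAt.differentiableWithinAt
      · rw [interior_Icc]
        intro τ hτ
        rw [(hd τ ⟨hτ.1, hτ.2.trans_le ht.2⟩).deriv]
        exact hA τ hτ
    have := h1 (left_mem_Icc.2 ht.1) (right_mem_Icc.2 ht.1) ht.1
    linarith
  · push Not at hA
    obtain ⟨τ, hτ, hpos⟩ := hA
    have h1 : MonotoneOn h (Icc τ s) := by
      refine monotoneOn_of_deriv_nonneg (convex_Icc τ s) (hc.mono (Icc_subset_Icc_left hτ.1.le))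
        ?_ ?_
      · rw [interior_Icc]
        intro σ hσ
        exact (hd σ ⟨hτ.1.trans hσ.1, hσ.2⟩).differentiableAt.differentiableWithinAt
      · rw [interior_Icc]
        intro σ hσ
        rw [(hd σ ⟨hτ.1.trans hσ.1, hσ.2⟩).deriv]
        exact (real_convex_pos hk h0 hτ.1.le hσ.1.le hσ.2.le hpos).le
    have := h1 ⟨hτ.2.le, ht.2⟩ ⟨(hτ.2.le.trans ht.2), le_rfl⟩ ht.2
    linarith

/-- the decay of `h` near `0` and its integral -/
theorem real_integral {s D e : ℝ} {h k : ℝ → ℝ} (hs : 0 < s) (hD : 0 < D) (he : 0 ≤ e)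
    (hc : ContinuousOn h (Icc 0 s)) (hd : ∀ τ ∈ Ioo 0 s, HasDerivAt h (k τ) τ)
    (hk : ∀ τ ∈ Ioo 0 s, τ ≤ D → k τ ≤ -e) (hh0 : h 0 = 0)
    (hneg : ∀ t ∈ Icc 0 s, h t ≤ 0) :
    ∫ τ in (0 : ℝ)..s, h τ ≤ - (e * (min s D) ^ 2 / 2) := by
  obtain ⟨t0, ht0⟩ : ∃ t0, t0 = min s D := ⟨_, rfl⟩
  have ht0s : t0 ≤ s := by rw [ht0]; exact min_le_left _ _
  have ht0D : t0 ≤ D := by rw [ht0]; exact min_le_right _ _
  have ht0p : 0 < t0 := by rw [ht0]; exact lt_min hs hD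
  rw [← ht0]
  have h1 : AntitoneOn (fun t => h t + e * t) (Icc 0 t0) := by
    refine antitoneOn_of_deriv_nonpos (convex_Icc 0 t0) ?_ ?_ ?_
    · exact (hc.mono (Icc_subset_Icc_right ht0s)).add (by fun_prop)
    · rw [interior_Icc]
      intro τ hτ
      have := (hd τ ⟨hτ.1, hτ.2.trans_le ht0s⟩).add ((hasDerivAt_id τ).const_mul e)
      exact this.differentiableAt.differentiableWithinAt
    · rw [interior_Icc]
      intro τ hτ
      have := (hd τ ⟨hτ.1, hτ.2.trans_le ht0s⟩).add ((hasDerivAt_id τ).const_mul e)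
      have e1 : deriv (fun t => h t + e * t) τ = k τ + e * 1 := this.deriv
      rw [e1]
      have := hk τ ⟨hτ.1, hτ.2.trans_le ht0s⟩ (hτ.2.le.trans ht0D)
      linarith
  have h2 : ∀ t ∈ Icc 0 t0, h t ≤ - e * t := by
    intro t ht
    have := h1 (left_mem_Icc.2 ht0p.le) ht ht.1
    simp only [mul_zero, add_zero, hh0] at this
    linarith
  have i1 : IntervalIntegrable h volume 0 t0 := by
    apply ContinuousOn.intervalIntegrable
    rw [uIcc_of_le ht0p.le]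
    exact hc.mono (Icc_subset_Icc_right ht0s)
  have i2 : IntervalIntegrable h volume t0 s := by
    apply ContinuousOn.intervalIntegrable
    rw [uIcc_of_le ht0s]
    exact hc.mono (Icc_subset_Icc_left ht0p.le)
  rw [← intervalIntegral.integral_add_adjacent_intervals i1 i2]
  have h3 : ∫ τ in (0 : ℝ)..t0, h τ ≤ ∫ τ in (0 : ℝ)..t0, - e * τ := by
    refine intervalIntegral.integral_mono_on ht0p.le i1 ?_ h2
    exact (by fun_prop : Continuous fun τ : ℝ => - e * τ).intervalIntegrable _ _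
  have h4 : ∫ τ in t0..s, h τ ≤ 0 := by
    have : ∫ τ in t0..s, h τ ≤ ∫ τ in t0..s, (0 : ℝ) := by
      refine intervalIntegral.integral_mono_on ht0s i2 (by simp) fun t ht => ?_
      exact hneg t ⟨ht0p.le.trans ht.1, ht.2⟩
    simpa using this
  have h5 : ∫ τ in (0 : ℝ)..t0, - e * τ = - (e * t0 ^ 2 / 2) := by
    rw [intervalIntegral.integral_const_mul, integral_id]; ring
  linarith

theorem gap_real {b S C δ : ℝ} (hb : 0 < b) (hC : 0 ≤ C) (hδ : 0 < δ) :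
    ∃ η₀ > 0, ∀ (s₁ : ℝ) (R M M1 M2 : ℝ → ℝ), 0 < s₁ → s₁ ≤ S →
      ContinuousOn R (Icc 0 s₁) → ContinuousOn M (Icc 0 s₁) → ContinuousOn M1 (Icc 0 s₁) →
      (∀ τ ∈ Ioo 0 s₁, HasDerivAt R (M τ) τ) → (∀ τ ∈ Ioo 0 s₁, HasDerivAt M (M1 τ) τ) →
      (∀ τ ∈ Ioo 0 s₁, HasDerivAt M1 (M2 τ) τ) → (∀ τ ∈ Ioo 0 s₁, 0 ≤ M2 τ) →
      (∀ τ ∈ Icc 0 s₁, M1 τ ≤ C) → R 0 = 0 → R s₁ ≤ s₁ / b ^ 2 →
      s₁ ^ 2 / (2 * b ^ 2) - η₀ * s₁ ^ 2 ≤ ∫ τ in (0 : ℝ)..s₁, R τ →
      (1 - δ) / b ^ 2 ≤ M 0 := by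
  obtain ⟨c, hc⟩ : ∃ c : ℝ, c = 1 / b ^ 2 := ⟨_, rfl⟩
  have hc0 : 0 < c := by rw [hc]; positivity
  obtain ⟨D, hD⟩ : ∃ D : ℝ, D = δ * c / (2 * (C + 1)) := ⟨_, rfl⟩
  have hD0 : 0 < D := by rw [hD]; positivity
  refine ⟨min (δ * c / 8) (δ * c * D ^ 2 / (8 * (S ^ 2 + 1))), by positivity, ?_⟩
  intro s R M M1 M2 hs hsS cR cM cM1 dR dM dM1 hM2 hM1 hR0 hRs hint
  by_contra hcon
  push Not at hcon
  have e1 : (1 - δ) / b ^ 2 = c - δ * c := by rw [hc]; ring
  rw [e1] at hcon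
  have hM1mono : MonotoneOn M1 (Icc 0 s) := by
    refine monotoneOn_of_deriv_nonneg (convex_Icc 0 s) cM1 ?_ ?_
    · rw [interior_Icc]
      exact fun τ hτ => (dM1 τ hτ).differentiableAt.differentiableWithinAt
    · rw [interior_Icc]
      intro τ hτ
      rw [(dM1 τ hτ).deriv]; exact hM2 τ hτ
  have hkd : ∀ τ ∈ Ioo 0 s, HasDerivAt (fun t => M t - c) (M1 τ) τ := fun τ hτ =>
    (dM τ hτ).sub_const c
  have hconv : ConvexOn ℝ (Icc 0 s) (fun t => M t - c) := by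
    refine MonotoneOn.convexOn_of_deriv (convex_Icc 0 s) (cM.sub continuousOn_const) ?_ ?_
    · rw [interior_Icc]
      exact fun τ hτ => (hkd τ hτ).differentiableAt.differentiableWithinAt
    · rw [interior_Icc]
      intro x hx y hy hxy
      rw [(hkd x hx).deriv, (hkd y hy).deriv]
      exact hM1mono (Ioo_subset_Icc_self hx) (Ioo_subset_Icc_self hy) hxy
  have hd : ∀ τ ∈ Ioo 0 s, HasDerivAt (fun t => R t - c * t) (M τ - c) τ := by
    intro τ hτ
    have := (dR τ hτ).sub ((hasDerivAt_id τ).const_mul c)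
    rw [mul_one] at this
    exact this
  have hcont : ContinuousOn (fun t => R t - c * t) (Icc 0 s) := cR.sub (by fun_prop)
  have hk0 : M 0 - c < 0 := by
    have : 0 < δ * c := by positivity
    linarith
  have hneg : ∀ t ∈ Icc 0 s, R t - c * t ≤ 0 := by
    refine real_nonpos hs hcont hd hconv hk0 (by simp [hR0]) ?_
    have e2 : s / b ^ 2 = c * s := by rw [hc]; ring
    rw [e2] at hRs
    linarith
  have hkb : ∀ τ ∈ Ioo 0 s, τ ≤ D → M τ - c ≤ -(δ * c / 2) := by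
    intro τ hτ hτD
    have h1 : MonotoneOn (fun t => C * t - (M t - c)) (Icc 0 s) := by
      refine monotoneOn_of_deriv_nonneg (convex_Icc 0 s) ?_ ?_ ?_
      · exact ContinuousOn.sub (by fun_prop) (cM.sub continuousOn_const)
      · rw [interior_Icc]
        intro τ hτ
        exact (((hasDerivAt_id τ).const_mul C).sub (hkd τ hτ)).differentiableAt.differentiableWithinAt
      · rw [interior_Icc]
        intro τ hτ
        have e3 : deriv (fun t => C * t - (M t - c)) τ = C * 1 - M1 τ :=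
          (((hasDerivAt_id τ).const_mul C).sub (hkd τ hτ)).deriv
        rw [e3]
        have := hM1 τ (Ioo_subset_Icc_self hτ)
        linarith
    have h2 := h1 (left_mem_Icc.2 hs.le) (Ioo_subset_Icc_self hτ) hτ.1.le
    simp only [mul_zero] at h2
    have h3 : C * τ ≤ δ * c / 2 := by
      have h4 : C * τ ≤ C * D := mul_le_mul_of_nonneg_left hτD hC
      have h5 : (C + 1) * D = δ * c / 2 := by rw [hD]; field_simp
      nlinarith
    linarith
  have hI := real_integral hs hD0 (by positivity : 0 ≤ δ * c / 2) hcont hd hkb (by simp [hR0]) hneg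
  have hsplit : ∫ τ in (0 : ℝ)..s, (R τ - c * τ) = (∫ τ in (0 : ℝ)..s, R τ) - c * s ^ 2 / 2 := by
    rw [intervalIntegral.integral_sub, intervalIntegral.integral_const_mul, integral_id]
    · ring
    · apply ContinuousOn.intervalIntegrable
      rw [uIcc_of_le hs.le]
      exact cR
    · exact (by fun_prop : Continuous fun τ : ℝ => c * τ).intervalIntegrable _ _
  rw [hsplit] at hI
  have e4 : s ^ 2 / (2 * b ^ 2) = c * s ^ 2 / 2 := by rw [hc]; ring
  rw [e4] at hint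
  have hkey : δ * c / 4 * (min s D) ^ 2 ≤
      min (δ * c / 8) (δ * c * D ^ 2 / (8 * (S ^ 2 + 1))) * s ^ 2 := by
    linarith
  have hs2 : 0 < s ^ 2 := by positivity
  have hδc : 0 < δ * c := by positivity
  rcases le_total s D with h | h
  · rw [min_eq_left h] at hkey
    have h1 : min (δ * c / 8) (δ * c * D ^ 2 / (8 * (S ^ 2 + 1))) * s ^ 2 ≤ δ * c / 8 * s ^ 2 :=
      mul_le_mul_of_nonneg_right (min_le_left _ _) hs2.le
    nlinarith
  · rw [min_eq_right h] at hkey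
    have h1 : min (δ * c / 8) (δ * c * D ^ 2 / (8 * (S ^ 2 + 1))) * s ^ 2 ≤
        δ * c * D ^ 2 / (8 * (S ^ 2 + 1)) * (S ^ 2 + 1) := by
      have h2 : s ^ 2 ≤ S ^ 2 + 1 := by nlinarith
      exact mul_le_mul (min_le_right _ _) h2 hs2.le (by positivity)
    have h3 : δ * c * D ^ 2 / (8 * (S ^ 2 + 1)) * (S ^ 2 + 1) = δ * c * D ^ 2 / 8 := by
      field_simp
    rw [h3] at h1
    have h4 : 0 < δ * c * D ^ 2 := by positivity
    linarith

end Vale.Agent.P146.Gap
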