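import Vale.Agent.P146.Gap.CertInt
import Vale.Agent.P146.Gap.First
import Vale.Agent.P146.Gap.GapReal
import Vale.Agent.P146.Gap.Vari
import Vale.Agent.P146.Gap.Minb

/-!
GAPN: the gap theorem for minimisers.
-/

open MeasureTheory ProbabilityTheory Filter Topology Set

namespace Vale.Agent.P146.Gap

open Vale.Agent.P157.Par

lemma gapn_exp_nonneg {k : ℕ} {m : ℕ → ℝ} (hm : Exponents k m) :
    ∀ l, l ≤ k + 1 → 0 ≤ m l := by
  intro l
  induction l with
  | zero => intro _; rw [hm.1]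
  | succ l ih => intro hl; exact (ih (by omega)).trans (hm.2.2 l (by omega)).le

lemma gapn_exp_pos {k : ℕ} {m : ℕ → ℝ} (hm : Exponents k m) {l : ℕ} (hl : 1 ≤ l)
    (hlk : l ≤ k + 1) : 0 < m l := by
  obtain ⟨l, rfl⟩ := Nat.exists_eq_add_of_le' hl
  exact (gapn_exp_nonneg hm l (by omega)).trans_lt (hm.2.2 l (by omega))

lemma gapn_exp_le_one {k : ℕ} {m : ℕ → ℝ} (hm : Exponents k m) {l : ℕ} (hlk : l ≤ k + 1) :
    m l ≤ 1 := by
  have key : ∀ d, d ≤ k + 1 → m (k + 1 - d) ≤ 1 := by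
    intro d
    induction d with
    | zero => intro _; rw [Nat.sub_zero, hm.2.1]
    | succ d ih =>
      intro hd
      have h1 := hm.2.2 (k + 1 - (d + 1)) (by omega)
      have h2 : k + 1 - (d + 1) + 1 = k + 1 - d := by omega
      rw [h2] at h1
      exact h1.le.trans (ih (by omega))
  have := key (k + 1 - l) (by omega)
  rwa [show k + 1 - (k + 1 - l) = l by omega] at this

lemma gapn_path_le {k : ℕ} {r : ℕ → ℝ} (hr : Path k r) {i j : ℕ} (hij : i ≤ j) (hj : j ≤ k) :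
    r i ≤ r j := by
  induction j, hij using Nat.le_induction with
  | base => exact le_rfl
  | succ j hij ih => exact (ih (by omega)).trans (hr.2 j (by omega))

lemma gapn_cascade_zero {k : ℕ} {m r : ℕ → ℝ} (hm : Exponents k m) (hr : Path k r)
    (h0 : r 0 = 0) (hk : r k = 0) (F : ℝ → ℝ) : ∀ l, l ≤ k → cascade m r l F = F := by
  have hz : ∀ i, i ≤ k → r i = 0 := by
    intro i hi
    exact le_antisymm (hk ▸ gapn_path_le hr hi le_rfl) (h0 ▸ gapn_path_le hr (Nat.zero_le i) hi)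
  intro l
  induction l with
  | zero => intro _; rfl
  | succ l ih =>
    intro hl
    rw [cascade_succ_def, hz (l + 1) hl, hz l (by omega), sub_zero,
      gstep_zero (gapn_exp_pos hm (by omega) (by omega)).ne']
    exact ih (by omega)

lemma gapn_lc_deriv2 : iteratedDeriv 2 lc 0 = 1 := by
  have h := ec_logcosh
  have h1 : deriv lc = Real.tanh := funext fun x => (h.d1 x).deriv
  have h2 : iteratedDeriv 2 lc = fun x => 1 - Real.tanh x ^ 2 := by
    rw [iteratedDeriv_succ, iteratedDeriv_one, h1]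
    exact funext fun x => (h.d2 x).deriv
  rw [h2]; simp

lemma gapn_tlt_add_const (g s c : ℝ) (F h : ℝ → ℝ) (x : ℝ) :
    tlt g s (fun y => F y + c) h x = tlt g s F h x := by
  unfold tlt
  have e : ∀ y, Real.exp (g * (F y + c)) = Real.exp (g * F y) * Real.exp (g * c) := by
    intro y; rw [← Real.exp_add]; ring_nf
  simp only [e, ← mul_assoc]
  rw [integral_mul_const, integral_mul_const, mul_div_mul_right _ _ (Real.exp_pos _).ne']

lemma gapn_Rf_const {g s₁ c : ℝ} (hg : g ≠ 0) {F G : ℝ → ℝ} (h : ∀ x, F x = G x + c) :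
    Rf g g s₁ F s₁ = Rf g g s₁ G s₁ := by
  have hF : F = fun x => G x + c := funext h
  unfold Rf
  rw [sub_self, gstep_zero hg, gstep_zero hg]
  have hd : iteratedDeriv 1 F = iteratedDeriv 1 G := by
    rw [iteratedDeriv_one, iteratedDeriv_one, hF]
    funext x
    rw [deriv_add_const]
  rw [hd, hF, gapn_tlt_add_const]

lemma gapn_M2f_nonneg {g g' C s₁ τ : ℝ} {F : ℝ → ℝ} (h : Good g' C F) (hg : 0 < g)
    (hgg : g ≤ g') (hg' : g' ≤ 1) (hτ : τ ∈ Ioo 0 s₁) : 0 ≤ M2f g s₁ F τ := by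
  have hG := h.step hg hgg hg' (s := s₁ - τ) (by linarith [hτ.2])
  have hc := cert_int hG hg (hgg.trans hg') hτ.1
  unfold M2f tlt
  refine div_nonneg ?_ (integral_nonneg fun z => (Real.exp_pos _).le)
  simp only [zero_add]
  refine hc.trans (le_of_eq ?_)
  congr 1
  funext z
  ring

theorem gap_n {b : ℝ} (hb : 1 < b) {δ : ℝ} (hδ : 0 < δ) :
    ∃ η > 0, ∀ (k : ℕ) (m r : ℕ → ℝ), Exponents k m → (∀ l ≤ k, m (l + 1) - m l ≤ η) →
      BPath b k r → (∀ r', BPath b k r' → SKr b k m r ≤ SKr b k m r') →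
      (1 - δ) / b ^ 2 ≤ iteratedDeriv 2 (cascade m r k lc) 0 ^ 2 := by
  have hb0 : 0 < b := by linarith
  have hb2 : 1 ≤ b ^ 2 := by nlinarith
  set C0 : ℝ := 2 * Real.exp (2 * b ^ 2) with hC0
  have hC0p : 0 < C0 := by positivity
  obtain ⟨η₀, hη₀, hreal⟩ := gap_real (b := b) (S := b ^ 2)
    (C := (C0 * Real.exp (2 * b ^ 2)) ^ 2) (δ := δ) hb0 (by positivity) hδ
  obtain ⟨K, hK, htilt⟩ := Rf_tilt (b ^ 2)
  refine ⟨2 * η₀ / (K + 1), by positivity, ?_⟩
  intro k m r hm hinc hr hmin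
  by_cases hne : r k = 0
  · have h1 := gapn_cascade_zero hm hr.2.1 hr.1 hne lc k le_rfl
    rw [h1, gapn_lc_deriv2, one_pow, div_le_one (by positivity)]
    linarith
  have hrk : 0 < r k := lt_of_le_of_ne (hr.1 ▸ gapn_path_le hr.2.1 (Nat.zero_le k) le_rfl)
    (Ne.symm hne)
  obtain ⟨j, F, hj1, hjk, hrj, hF, hcas, hup, hdown⟩ := first_block hb0 hm hr hmin hrk
  have hg : 0 < m j := gapn_exp_pos hm hj1 (by omega)
  have hgg : m j < m (j + 1) := hm.2.2 j hjk
  have hg'1 : m (j + 1) ≤ 1 := gapn_exp_le_one hm (by omega)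
  have hg1 : m j ≤ 1 := hgg.le.trans hg'1
  have hg' : 0 < m (j + 1) := hg.trans hgg
  have hs : r j ≤ b ^ 2 := (gapn_path_le hr.2.1 hjk le_rfl).trans hr.2.2
  have hA := hF.adm
  rw [hcas, ← Mf_zero hA hg hg1 hrj.le]
  refine hreal (r j) (Rf (m j) (m j) (r j) F) (Mf (m j) (r j) F) (M1f (m j) (r j) F)
    (M2f (m j) (r j) F) hrj hs (Rf_cont hA hg hg1 hg hg1) (Mf_cont hA hg hg1) (M1f_cont hA hg hg1)
    (fun τ hτ => Rf_hasDerivAt hA hg hg1 hτ) (fun τ hτ => Mf_hasDerivAt hA hg hg1 hτ)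
    (fun τ hτ => M1f_hasDerivAt hA hg hg1 hτ)
    (fun τ hτ => gapn_M2f_nonneg hF hg hgg.le hg'1 hτ) ?_ (Rf_zero hA hg hg1 _ hrj.le) ?_ ?_
  · intro τ hτ
    refine (M1f_le hA hg hg1 hτ).trans ?_
    refine pow_le_pow_left₀ (by positivity) ?_ 2
    refine mul_le_mul_of_nonneg_left ?_ hC0p.le
    exact Real.exp_le_exp.2 (by linarith)
  · rcases hdown with h | ⟨g₂, v, F₂, hg2, hg21, hv, hA2, ⟨c, hc⟩, hmin2⟩
    · refine (Rf_le_one hA hg hg1 hg ⟨hrj.le, le_rfl⟩).trans (le_of_eq ?_)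
      rw [h, div_self (by positivity)]
    · rw [gapn_Rf_const hg.ne' hc]
      exact vari_down hb0 hA2 hg hg2 hg21 hrj hv hmin2
  · have h1 := vari_up hb0 hA hg hgg hg'1 hrj hup
    have h2 : ∫ τ in (0 : ℝ)..(r j), Rf (m (j + 1)) (m j) (r j) F τ ≤
        ∫ τ in (0 : ℝ)..(r j), (Rf (m j) (m j) (r j) F τ + K * (m (j + 1) - m j) * τ) := by
      refine intervalIntegral.integral_mono_on hrj.le ?_ ?_ ?_
      · exact (Rf_cont hA hg hg1 hg' hg'1).intervalIntegrable_of_Icc hrj.le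
      · exact ContinuousOn.intervalIntegrable_of_Icc hrj.le
          ((Rf_cont hA hg hg1 hg hg1).add (by fun_prop))
      · intro τ hτ
        exact htilt _ _ _ _ F hA hg hgg.le hg'1 hs τ hτ
    have h3 : ∫ τ in (0 : ℝ)..(r j), (Rf (m j) (m j) (r j) F τ + K * (m (j + 1) - m j) * τ) =
        (∫ τ in (0 : ℝ)..(r j), Rf (m j) (m j) (r j) F τ)
          + K * (m (j + 1) - m j) * (r j ^ 2 / 2) := by
      rw [intervalIntegral.integral_add
        ((Rf_cont hA hg hg1 hg hg1).intervalIntegrable_of_Icc hrj.le)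
        (ContinuousOn.intervalIntegrable_of_Icc hrj.le (by fun_prop)),
        intervalIntegral.integral_const_mul, integral_id]
      ring
    have h4 : K * (m (j + 1) - m j) ≤ 2 * η₀ := by
      have h5 := hinc j hjk
      have h6 : K * (m (j + 1) - m j) ≤ K * (2 * η₀ / (K + 1)) := mul_le_mul_of_nonneg_left h5 hK
      refine h6.trans ?_
      rw [mul_div_assoc', div_le_iff₀ (by positivity)]
      nlinarith
    have h7 : K * (m (j + 1) - m j) * (r j ^ 2 / 2) ≤ η₀ * r j ^ 2 := by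
      have := mul_le_mul_of_nonneg_right h4 (show 0 ≤ r j ^ 2 / 2 by positivity)
      linarith
    linarith

end Vale.Agent.P146.Gap
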