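import Vale.Agent.P146.Gap.Defs
import Vale.Agent.P157.ParSp8

set_option linter.all false

/-! LINK: tangent inequality for paths which are not strict, and the value of `F''(0)`. -/

open MeasureTheory ProbabilityTheory Filter Topology Set

namespace Vale.Agent.P146.Gap

open Vale.Agent.P157.Par

/-- The tangent inequality for paths which are not strict. -/
theorem tangent_path {k : ℕ} {m r r' : ℕ → ℝ} (hm : Exponents k m) (hr : Path k r)
    (hr' : Path k r') :
    spinPart k m r' ≤ spinPart k m r -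
      1 / 2 * ∑ l ∈ Finset.range (k + 1), (m (l + 1) - m l) * spR k m r l * (r' l - r l) := by
  set r₀ : ℕ → ℝ := fun l => r l + ((l : ℝ) + 1) with hr₀
  set η : ℕ → ℝ := fun l => -((l : ℝ) + 1) with hη
  have hs : ∀ s ∈ Set.Ico (0 : ℝ) 1, SPath k (fun l => r₀ l + s * η l) := by
    intro s hs
    have h1 : 0 < 1 - s := by linarith [hs.2]
    refine ⟨?_, fun l hl => ?_⟩
    · have h0 := hr.1
      simp only [hr₀, hη, Nat.cast_zero]
      nlinarith
    · have h0 := hr.2 l hl
      simp only [hr₀, hη, Nat.cast_succ]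
      nlinarith
  have e1 : (fun l => r₀ l + (1 : ℝ) * η l) = r := by
    funext l
    simp only [hr₀, hη]
    ring
  have hp : Path k (fun l => r₀ l + (1 : ℝ) * η l) := by rw [e1]; exact hr
  obtain ⟨c1, -, c3⟩ := spin_deriv hm one_pos hs hp
  set G : ℝ → ℝ := fun s => spinPart k m (fun l => r₀ l + s * η l) -
      1 / 2 * ∑ l ∈ Finset.range (k + 1), (m (l + 1) - m l) *
        spR k m (fun l => r₀ l + s * η l) l * (r' l - (r₀ l + s * η l)) with hG
  have hGc : ContinuousOn G (Set.Icc 0 1) := by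
    refine c1.sub (continuousOn_const.mul (continuousOn_finset_sum _ fun l hl => ?_))
    have hl' : l ≤ k := by have := Finset.mem_range.1 hl; omega
    exact (continuousOn_const.mul (c3 l hl')).mul (by fun_prop)
  have hle : ∀ s ∈ Set.Ico (0 : ℝ) 1, spinPart k m r' ≤ G s := fun s hsI =>
    spin_tangent hm (hs s hsI) hr'
  have ht : Tendsto G (𝓝[Set.Ico 0 1] 1) (𝓝 (G 1)) :=
    (hGc 1 (right_mem_Icc.2 zero_le_one)).mono Ico_subset_Icc_self
  have hne : (𝓝[Set.Ico (0 : ℝ) 1] 1).NeBot := by
    rw [← mem_closure_iff_nhdsWithin_neBot, closure_Ico zero_ne_one]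
    exact right_mem_Icc.2 zero_le_one
  have hlim : spinPart k m r' ≤ G 1 :=
    ge_of_tendsto ht (eventually_nhdsWithin_of_forall hle)
  have e2 : G 1 = spinPart k m r -
      1 / 2 * ∑ l ∈ Finset.range (k + 1), (m (l + 1) - m l) * spR k m r l * (r' l - r l) := by
    simp only [hG]
    rw [e1]
    congr 2
    refine Finset.sum_congr rfl fun l _ => ?_
    have : r₀ l + 1 * η l = r l := congrFun e1 l
    rw [this]
  rw [← e2]
  exact hlim

theorem link_iter2 {F M D : ℝ → ℝ} (h1 : ∀ x, HasDerivAt F (M x) x)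
    (h2 : ∀ x, HasDerivAt M (D x) x) (x : ℝ) : iteratedDeriv 2 F x = D x := by
  rw [iteratedDeriv_succ, iteratedDeriv_one]
  have e : deriv F = M := funext fun y => (h1 y).deriv
  rw [e]
  exact (h2 x).deriv

theorem link_main {m r : ℕ → ℝ} (hm0 : m 0 = 0) (hr0 : r 0 = 0) : ∀ (l : ℕ),
    (∀ j < l, 0 < m (j + 1)) → ∀ {L B : ℝ} {F M D : ℝ → ℝ}, Sm L B F M D →
    iteratedDeriv 2 (cascade m r l F) 0 =
      chn m r l F (fun y => D y + m l * M y ^ 2) -
        ∑ j ∈ Finset.range l, (m (j + 1) - m j) * Rc m r l F M j := by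
  intro l
  induction l with
  | zero =>
    intro _ L B F M D h
    have e : cascade m r 0 F = F := rfl
    rw [e, chn_zero_def, hr0, hm0, link_iter2 h.d1 h.d2]
    simp
  | succ l ih =>
    intro hm L B F M D h
    have hml : 0 < m (l + 1) := hm l (by omega)
    have hm'' : ∀ j < l, 0 < m (j + 1) := fun j hj => hm j (by omega)
    set v : ℝ := r (l + 1) - r l with hv
    have hstep := h.step hml v
    have h1 := ih hm'' hstep
    have hc1 : Continuous M := h.cont1
    have hc2 : Continuous D := h.cD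
    set G : ℝ → ℝ := fun y => D y + m (l + 1) * M y ^ 2 with hG
    have hGc : Continuous G := by fun_prop
    have hGb : ∀ x, |G x| ≤ B + m (l + 1) * L ^ 2 := by
      intro x
      refine (abs_add_le _ _).trans (add_le_add (h.bD x) ?_)
      rw [abs_mul, abs_of_pos hml, abs_pow]
      exact mul_le_mul_of_nonneg_left (pow_le_pow_left₀ (abs_nonneg _) (h.bM x) 2) hml.le
    have t2 : chn m r l (gstep (m (l + 1)) v F) (fun y =>
        (tlt (m (l + 1)) v F (fun y => D y + m (l + 1) * M y ^ 2) y -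
          m (l + 1) * tlt (m (l + 1)) v F M y ^ 2) +
        m l * tlt (m (l + 1)) v F M y ^ 2) =
        chn m r (l + 1) F G - (m (l + 1) - m l) * Rc m r (l + 1) F M l := by
      have hT1c : Continuous (tlt (m (l + 1)) v F M) := h.tlt_cont hc1 h.bM _ _
      have hT1b : ∀ x, |tlt (m (l + 1)) v F M x| ≤ L := fun x => h.abs_tlt_le hc1 h.bM _ _ x
      have hTGc : Continuous (tlt (m (l + 1)) v F G) := h.tlt_cont hGc hGb _ _
      have hTGb : ∀ x, |tlt (m (l + 1)) v F G x| ≤ B + m (l + 1) * L ^ 2 := fun x =>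
        h.abs_tlt_le hGc hGb _ _ x
      have e : (fun y =>
        (tlt (m (l + 1)) v F (fun y => D y + m (l + 1) * M y ^ 2) y -
          m (l + 1) * tlt (m (l + 1)) v F M y ^ 2) +
        m l * tlt (m (l + 1)) v F M y ^ 2) = fun y => tlt (m (l + 1)) v F G y +
          (-(m (l + 1) - m l)) * tlt (m (l + 1)) v F M y ^ 2 := by
        funext y
        ring
      have hcT : Continuous (fun y => (-(m (l + 1) - m l)) *
          tlt (m (l + 1)) v F M y ^ 2) := continuous_const.mul (hT1c.pow 2)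
      have hbT : ∀ x, |(fun y => (-(m (l + 1) - m l)) *
          tlt (m (l + 1)) v F M y ^ 2) x| ≤ |-(m (l + 1) - m l)| * L ^ 2 := by
        intro x
        simp only [abs_mul, abs_pow]
        exact mul_le_mul_of_nonneg_left
          (pow_le_pow_left₀ (abs_nonneg _) (hT1b x) 2) (abs_nonneg _)
      have e2 := sp4_chn_add (r := r) l hm'' hstep hTGc hTGb hcT hbT
      rw [sp4_chn_const_mul] at e2
      rw [e, e2, chn_succ_def, Rc_succ_le _ _ _ _ _ le_rfl, Rc_self]
      ring
    have t3 : ∀ j ∈ Finset.range l, (m (j + 1) - m j) *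
        Rc m r l (gstep (m (l + 1)) v F) (tlt (m (l + 1)) v F M) j =
        (m (j + 1) - m j) * Rc m r (l + 1) F M j := by
      intro j hj
      have hjl : j ≤ l := (Finset.mem_range.1 hj).le
      rw [Rc_succ_le _ _ _ _ _ hjl]
    rw [cascade_succ_def, ← hv, h1, t2, Finset.sum_congr rfl t3, Finset.sum_range_succ]
    ring

theorem second_deriv_eq {k : ℕ} {m r : ℕ → ℝ} (hm : Exponents k m) (hr : Path k r)
    (h0 : r 0 = 0) :
    iteratedDeriv 2 (cascade m r k lc) 0 =
      1 - ∑ l ∈ Finset.range (k + 1), (m (l + 1) - m l) * spR k m r l := by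
  have hSm := ec_logcosh.sm
  have hT : Continuous Real.tanh := hSm.cont1
  have hpos : ∀ j < k, 0 < m (j + 1) := fun j hj => sp4_exp_pos hm hj.le
  have h1 := link_main hm.1 h0 k hpos hSm
  have e1 : chn m r k (fun x => Real.log (Real.cosh x))
      (fun y => 1 - Real.tanh y ^ 2 + m k * Real.tanh y ^ 2) =
      1 - (1 - m k) * spR k m r k := by
    have hcT : Continuous (fun y => (-(1 - m k)) * Real.tanh y ^ 2) :=
      continuous_const.mul (hT.pow 2)
    have hbT : ∀ x, |(fun y => (-(1 - m k)) * Real.tanh y ^ 2) x| ≤ |-(1 - m k)| * 1 ^ 2 := by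
      intro x
      simp only [abs_mul, abs_pow]
      exact mul_le_mul_of_nonneg_left
        (pow_le_pow_left₀ (abs_nonneg _) (hSm.bM x) 2) (abs_nonneg _)
    have e2 := sp4_chn_add (r := r) k hpos hSm (g := fun _ => 1) continuous_const
      (K := 1) (fun _ => by simp) hcT hbT
    rw [sp4_chn_const_mul, sp4_chn_const 1 k hpos hSm] at e2
    have e3 : (fun y => 1 - Real.tanh y ^ 2 + m k * Real.tanh y ^ 2) =
        fun y => 1 + (-(1 - m k)) * Real.tanh y ^ 2 := by
      funext y
      ring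
    rw [e3, e2, spR, Rc_self]
    ring
  rw [e1] at h1
  have e4 : lc = fun x => Real.log (Real.cosh x) := rfl
  rw [e4, h1, Finset.sum_range_succ, hm.2.1]
  simp only [spR]
  ring

theorem link_Rc_zero {m r : ℕ → ℝ} (hr0 : r 0 = 0) : ∀ (l : ℕ),
    (∀ j < l, 0 < m (j + 1)) → (∀ j < l, m (j + 1) ≤ 1) → ∀ {F M D : ℝ → ℝ}, Ec F M D →
    Rc m r l F M 0 = 0 := by
  intro l
  induction l with
  | zero =>
    intro _ _ F M D h
    rw [Rc_zero_def, chn_zero_def, hr0]
    have h0 : M 0 = 0 := by
      have := h.odd 0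
      rw [neg_zero] at this
      linarith
    simp [h0]
  | succ l ih =>
    intro hm hm1 F M D h
    rw [Rc_succ_le _ _ _ _ _ (Nat.zero_le l)]
    exact ih (fun j hj => hm j (by omega)) (fun j hj => hm1 j (by omega))
      (h.step (hm l (by omega)) (hm1 l (by omega)) _)

theorem spR_zero {k : ℕ} {m r : ℕ → ℝ} (hm : Exponents k m) (hr : Path k r) (h0 : r 0 = 0) :
    spR k m r 0 = 0 :=
  link_Rc_zero h0 k (fun j hj => sp4_exp_pos hm hj.le)
    (fun j hj => sp5_exp_le hm (j + 1) (by omega)) ec_logcosh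

end Vale.Agent.P146.Gap
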