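import Vale.Agent.P146.Gap.Comp
import Vale.Agent.P146.Gap.Minb
import Vale.Agent.P146.Gap.GapN
import Vale.Agent.P146.Gap.Link
import Vale.Agent.P157.ParSp7

/-! # FINAL: the output of T1 -/

open MeasureTheory ProbabilityTheory Filter Topology Set

namespace Vale.Agent.P146.Gap

open Vale.Agent.P157.Par

theorem final_sum {k : ℕ} {m : ℕ → ℝ} :
    ∑ l ∈ Finset.range (k + 1), (m (l + 1) - m l) = m (k + 1) - m 0 :=
  Finset.sum_range_sub _ _

theorem gap_final {b : ℝ} (hb : 1 < b) {e : ℝ} (he : 0 < e) {k : ℕ} {m q : ℕ → ℝ}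
    (hm : Exponents k m) (hq : Path k q) (hq1 : q k ≤ 1) :
    ∃ (k' : ℕ) (m' q' : ℕ → ℝ), Exponents k' m' ∧ (∀ l ≤ k', m' (l + 1) - m' l ≤ e) ∧
      Path k' q' ∧ q' 0 = 0 ∧ q' k' ≤ 1 ∧
      (∀ r : ℕ → ℝ, Path k' r → spinPart k' m' r
        + 1 / 2 * ∑ l ∈ Finset.range (k' + 1), (m' (l + 1) - m' l) * r l * q' l
        + b ^ 2 / 4 * (1 - ∑ l ∈ Finset.range (k' + 1), (m' (l + 1) - m' l) * q' l ^ 2)
          ≤ SKpar b k m q + e) ∧
      1 - e ≤ b * (1 - ∑ l ∈ Finset.range (k' + 1), (m' (l + 1) - m' l) * q' l) := by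
  have hb0 : 0 < b := by linarith
  obtain ⟨η, hη, hgap⟩ := gap_n hb he
  obtain ⟨k', m', q1, hm', hmesh, hq', hq1', hSK⟩ := refine_exp (b := b) hm hq hq1
    (η := min η (min e (e / b ^ 2))) (by positivity)
  obtain ⟨r₀, hr₀, hS₀⟩ := zero_start hb0 hm' hq' hq1'
  obtain ⟨r, hr, hmin⟩ := exists_min hb0 hm'
  have hm0 : m' 0 = 0 := hm'.1
  have hm1 : m' 1 * b ^ 2 ≤ e := by
    have h1 : m' (0 + 1) - m' 0 ≤ e / b ^ 2 :=
      (hmesh 0 (Nat.zero_le _)).trans ((min_le_right _ _).trans (min_le_right _ _))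
    rw [hm0, sub_zero, le_div_iff₀ (by positivity)] at h1
    exact h1
  have hp : ∀ l ∈ Finset.range (k' + 1), 0 ≤ m' (l + 1) - m' l := fun l hl =>
    (sub_pos.2 (hm'.2.2 l (Nat.lt_succ_iff.1 (Finset.mem_range.1 hl)))).le
  have hgap' := hgap k' m' r hm' (fun l hl => (hmesh l hl).trans (min_le_left _ _)) hr hmin
  have h2 := second_deriv_eq hm' hr.2.1 hr.1
  rw [h2] at hgap'
  set S : ℝ := 1 - ∑ l ∈ Finset.range (k' + 1), (m' (l + 1) - m' l) * spR k' m' r l with hS
  have hS0 : 0 ≤ S := by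
    have h3 : ∑ l ∈ Finset.range (k' + 1), (m' (l + 1) - m' l) * spR k' m' r l ≤
        ∑ l ∈ Finset.range (k' + 1), (m' (l + 1) - m' l) := by
      refine Finset.sum_le_sum fun l hl => ?_
      have h4 := (spR_lt_one hm' hr.2.1 (Nat.lt_succ_iff.1 (Finset.mem_range.1 hl))).le
      exact mul_le_of_le_one_right (hp l hl) h4
    rw [final_sum, hm'.2.1, hm0] at h3
    linarith
  refine ⟨k', m', spR k' m' r, hm', fun l hl => (hmesh l hl).trans
    ((min_le_right _ _).trans (min_le_left _ _)), ⟨spR_nonneg hm' hr.2.1 (Nat.zero_le _),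
      fun l hl => spR_mono hm' hr.2.1 hl⟩, spR_zero hm' hr.2.1 hr.1,
      (spR_lt_one hm' hr.2.1 le_rfl).le, ?_, ?_⟩
  · intro r' hr'
    have ht := tangent_path hm' hr.2.1 hr'
    have hle : SKr b k' m' r ≤ SKpar b k m q + e := by
      have := hmin r₀ hr₀
      rw [← hSK]
      linarith
    refine le_trans ?_ hle
    have hamgm : ∑ l ∈ Finset.range (k' + 1), (m' (l + 1) - m' l) * (r l * spR k' m' r l) / 2 ≤
        ∑ l ∈ Finset.range (k' + 1), ((m' (l + 1) - m' l) * r l ^ 2 / (4 * b ^ 2)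
          + b ^ 2 / 4 * ((m' (l + 1) - m' l) * spR k' m' r l ^ 2)) := by
      refine Finset.sum_le_sum fun l hl => ?_
      have h5 : r l * spR k' m' r l / 2 ≤ r l ^ 2 / (4 * b ^ 2) + b ^ 2 / 4 * spR k' m' r l ^ 2 := by
        have h6 : 0 ≤ (r l / b - b * spR k' m' r l) ^ 2 := sq_nonneg _
        have h7 : (r l / b - b * spR k' m' r l) ^ 2 = r l ^ 2 / b ^ 2 - 2 * (r l * spR k' m' r l)
            + b ^ 2 * spR k' m' r l ^ 2 := by
          field_simp
          ring
        have h8 : r l ^ 2 / (4 * b ^ 2) = r l ^ 2 / b ^ 2 / 4 := by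
          field_simp
        rw [h8]
        linarith
      have := mul_le_mul_of_nonneg_left h5 (hp l hl)
      calc (m' (l + 1) - m' l) * (r l * spR k' m' r l) / 2
          = (m' (l + 1) - m' l) * (r l * spR k' m' r l / 2) := by ring
        _ ≤ _ := this
        _ = _ := by ring
    rw [Finset.sum_add_distrib, ← Finset.sum_div, ← Finset.sum_div, ← Finset.mul_sum] at hamgm
    have e1 : ∑ l ∈ Finset.range (k' + 1), (m' (l + 1) - m' l) * spR k' m' r l * (r' l - r l) =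
        ∑ l ∈ Finset.range (k' + 1), (m' (l + 1) - m' l) * r' l * spR k' m' r l -
          ∑ l ∈ Finset.range (k' + 1), (m' (l + 1) - m' l) * (r l * spR k' m' r l) := by
      rw [← Finset.sum_sub_distrib]
      exact Finset.sum_congr rfl fun l _ => by ring
    rw [e1] at ht
    unfold SKr
    linarith
  · by_cases h1 : 1 ≤ b * S
    · linarith
    · push Not at h1
      have h3 : 1 - e ≤ (b * S) ^ 2 := by
        rw [div_le_iff₀ (by positivity)] at hgap'
        calc 1 - e ≤ S ^ 2 * b ^ 2 := hgap'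
          _ = (b * S) ^ 2 := by ring
      have h4 : 0 ≤ b * S := by positivity
      nlinarith

end Vale.Agent.P146.Gap
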