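import Vale.Agent.P146.Gap.Defs
import Vale.Agent.P157.ParUCalc

/-!
# P146 / Gap, HEAT: Gaussian averages of derivatives
-/

set_option linter.all false

open MeasureTheory ProbabilityTheory Filter Topology Set

namespace Vale.Agent.P146.Gap

open Vale.Agent.P157.Par

/-! ### basic facts -/

theorem heat_smooth_iter {ψ : ℝ → ℝ} (h : ContDiff ℝ (⊤ : ℕ∞) ψ) (j : ℕ) :
    ContDiff ℝ (⊤ : ℕ∞) (iteratedDeriv j ψ) := by
  rw [contDiff_infty]
  intro m
  exact (h.of_le (m := ((m + j : ℕ) : WithTop ℕ∞)) (by exact_mod_cast le_top)).iterate_deriv' m j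
    |> fun h' => by rwa [← iteratedDeriv_eq_iterate] at h'

theorem heat_hasDeriv {ψ : ℝ → ℝ} (h : ContDiff ℝ (⊤ : ℕ∞) ψ) (j : ℕ) (x : ℝ) :
    HasDerivAt (iteratedDeriv j ψ) (iteratedDeriv (j + 1) ψ x) x := by
  rw [iteratedDeriv_succ]
  exact ((heat_smooth_iter h j).differentiable (by simp) x).hasDerivAt

theorem heat_cont {ψ : ℝ → ℝ} (h : ContDiff ℝ (⊤ : ℕ∞) ψ) (j : ℕ) :
    Continuous (iteratedDeriv j ψ) := (heat_smooth_iter h j).continuous

/-- a nonnegative control constant -/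
theorem heat_ctrl {ψ : ℝ → ℝ} (h : PosF ψ) (j : ℕ) :
    ∃ C : ℝ, 0 ≤ C ∧ ∀ x, |iteratedDeriv j ψ x| ≤ C * ψ x := by
  obtain ⟨C, hC⟩ := h.ctrl j
  refine ⟨|C|, abs_nonneg C, fun x => (hC x).trans ?_⟩
  exact mul_le_mul_of_nonneg_right (le_abs_self C) (h.pos x).le

theorem heat_growth {ψ : ℝ → ℝ} (h : PosF ψ) :
    ∃ c : ℝ, 0 ≤ c ∧ ∀ x y, ψ y ≤ ψ x * Real.exp (c * |y - x|) := by
  obtain ⟨c, hc0, hc⟩ := heat_ctrl h 1
  refine ⟨c, hc0, fun x y => ?_⟩
  have hd : ∀ x, HasDerivAt (fun x => Real.log (ψ x)) (iteratedDeriv 1 ψ x / ψ x) x := by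
    intro x
    have h1 := heat_hasDeriv h.smooth 0 x
    rw [iteratedDeriv_zero] at h1
    exact h1.log (h.pos x).ne'
  have h2 : ‖Real.log (ψ y) - Real.log (ψ x)‖ ≤ c * ‖y - x‖ := by
    refine Convex.norm_image_sub_le_of_norm_hasDerivWithin_le (s := univ)
      (f' := fun x => iteratedDeriv 1 ψ x / ψ x) (fun x _ => (hd x).hasDerivWithinAt)
      (fun x _ => ?_) convex_univ (mem_univ x) (mem_univ y)
    rw [Real.norm_eq_abs, abs_div, abs_of_pos (h.pos x), div_le_iff₀ (h.pos x)]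
    exact hc x
  rw [Real.norm_eq_abs, Real.norm_eq_abs] at h2
  have h3 : Real.log (ψ y) ≤ Real.log (ψ x) + c * |y - x| := by
    linarith [(abs_le.1 h2).2]
  calc ψ y = Real.exp (Real.log (ψ y)) := (Real.exp_log (h.pos y)).symm
    _ ≤ Real.exp (Real.log (ψ x) + c * |y - x|) := Real.exp_le_exp.2 h3
    _ = ψ x * Real.exp (c * |y - x|) := by rw [Real.exp_add, Real.exp_log (h.pos x)]

theorem heat_int_exp (c : ℝ) : Integrable (fun z : ℝ => Real.exp (c * |z|)) (gaussianReal 0 1) :=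
  integrable_exp_mul_abs (X := fun x : ℝ => x) (t := c)
    (by simpa using integrable_exp_mul_gaussianReal (μ := 0) (v := 1) c)
    (by simpa using integrable_exp_mul_gaussianReal (μ := 0) (v := 1) (-c))

theorem heat_abs_le_exp (z : ℝ) : |z| ≤ Real.exp |z| := by
  have := Real.add_one_le_exp |z|
  linarith

/-- the master bound -/
theorem heat_bound {ψ : ℝ → ℝ} (h : PosF ψ) (j : ℕ) :
    ∃ K c : ℝ, 0 ≤ K ∧ 0 ≤ c ∧ ∀ (S x₀ s x z : ℝ), 0 ≤ S → √s ≤ S → |x - x₀| ≤ 1 →
      |iteratedDeriv j ψ (x + √s * z)| ≤ K * ψ x₀ * Real.exp (c * S * |z|) := by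
  obtain ⟨c, hc0, hc⟩ := heat_growth h
  obtain ⟨C, hC0, hC⟩ := heat_ctrl h j
  refine ⟨C * Real.exp c, c, by positivity, hc0, fun S x₀ s x z hS hs hx => ?_⟩
  have h1 : |x + √s * z - x₀| ≤ 1 + S * |z| := by
    calc |x + √s * z - x₀| = |(x - x₀) + √s * z| := by ring_nf
      _ ≤ |x - x₀| + |√s * z| := abs_add_le _ _
      _ ≤ 1 + S * |z| := by
          rw [abs_mul, abs_of_nonneg (Real.sqrt_nonneg s)]
          exact add_le_add hx (mul_le_mul_of_nonneg_right hs (abs_nonneg z))
  calc |iteratedDeriv j ψ (x + √s * z)| ≤ C * ψ (x + √s * z) := hC _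
    _ ≤ C * (ψ x₀ * Real.exp (c * |x + √s * z - x₀|)) :=
        mul_le_mul_of_nonneg_left (hc x₀ _) hC0
    _ ≤ C * (ψ x₀ * Real.exp (c * (1 + S * |z|))) := by
        refine mul_le_mul_of_nonneg_left (mul_le_mul_of_nonneg_left ?_ (h.pos x₀).le) hC0
        exact Real.exp_le_exp.2 (mul_le_mul_of_nonneg_left h1 hc0)
    _ = C * Real.exp c * ψ x₀ * Real.exp (c * S * |z|) := by
        rw [mul_add, Real.exp_add, mul_one, mul_assoc c S]; ring

theorem heat_meas {ψ : ℝ → ℝ} (h : PosF ψ) (j : ℕ) (s x : ℝ) :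
    AEStronglyMeasurable (fun z => iteratedDeriv j ψ (x + √s * z)) (gaussianReal 0 1) :=
  ((heat_cont h.smooth j).comp (by fun_prop)).aestronglyMeasurable

theorem heat_int {ψ : ℝ → ℝ} (h : PosF ψ) (j : ℕ) (s x : ℝ) :
    Integrable (fun z => iteratedDeriv j ψ (x + √s * z)) (gaussianReal 0 1) := by
  obtain ⟨K, c, hK, hc, hb⟩ := heat_bound h j
  refine ((heat_int_exp (c * √s)).const_mul (K * ψ x)).mono' (heat_meas h j s x)
    (Eventually.of_forall fun z => ?_)
  rw [Real.norm_eq_abs]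
  exact hb _ x s x z (Real.sqrt_nonneg s) le_rfl (by simp)

theorem heat_int_z {ψ : ℝ → ℝ} (h : PosF ψ) (j : ℕ) (s x : ℝ) :
    Integrable (fun z => z * iteratedDeriv j ψ (x + √s * z)) (gaussianReal 0 1) := by
  obtain ⟨K, c, hK, hc, hb⟩ := heat_bound h j
  refine ((heat_int_exp (c * √s + 1)).const_mul (K * ψ x)).mono'
    ((continuous_id.aestronglyMeasurable).mul (heat_meas h j s x))
    (Eventually.of_forall fun z => ?_)
  rw [Real.norm_eq_abs, abs_mul]
  calc |z| * |iteratedDeriv j ψ (x + √s * z)|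
      ≤ Real.exp |z| * (K * ψ x * Real.exp (c * √s * |z|)) :=
        mul_le_mul (heat_abs_le_exp z) (hb _ x s x z (Real.sqrt_nonneg s) le_rfl (by simp))
          (abs_nonneg _) (Real.exp_pos _).le
    _ = K * ψ x * Real.exp ((c * √s + 1) * |z|) := by
        rw [add_mul, Real.exp_add, one_mul]; ring

/-! ### the statements -/

theorem U_zero (ψ : ℝ → ℝ) (j : ℕ) (x : ℝ) : U ψ j 0 x = iteratedDeriv j ψ x := by
  simp [U]

variable {ψ : ℝ → ℝ}

theorem U_pos (h : PosF ψ) (s x : ℝ) : 0 < U ψ 0 s x := by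
  unfold U
  rw [integral_pos_iff_support_of_nonneg (fun z => ?_) (heat_int h 0 s x)]
  · have : Function.support (fun z => iteratedDeriv 0 ψ (x + √s * z)) = univ := by
      ext z
      simp only [Function.mem_support, iteratedDeriv_zero, mem_univ, iff_true]
      exact (h.pos _).ne'
    rw [this, measure_univ]
    exact one_pos
  · simp only [iteratedDeriv_zero, Pi.zero_apply]
    exact (h.pos _).le

theorem U_ctrl (h : PosF ψ) (j : ℕ) : ∃ C : ℝ, ∀ s x, |U ψ j s x| ≤ C * U ψ 0 s x := by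
  obtain ⟨C, hC0, hC⟩ := heat_ctrl h j
  refine ⟨C, fun s x => ?_⟩
  unfold U
  calc |∫ z, iteratedDeriv j ψ (x + √s * z) ∂(gaussianReal 0 1)|
      ≤ ∫ z, |iteratedDeriv j ψ (x + √s * z)| ∂(gaussianReal 0 1) := abs_integral_le_integral_abs
    _ ≤ ∫ z, C * iteratedDeriv 0 ψ (x + √s * z) ∂(gaussianReal 0 1) := by
        refine integral_mono (heat_int h j s x).abs ((heat_int h 0 s x).const_mul C) fun z => ?_
        simp only [iteratedDeriv_zero]
        exact hC _
    _ = _ := integral_const_mul _ _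

theorem U_x (h : PosF ψ) (j : ℕ) (s x : ℝ) :
    HasDerivAt (fun x => U ψ j s x) (U ψ (j + 1) s x) x := by
  obtain ⟨K, c, hK, hc, hb⟩ := heat_bound h (j + 1)
  refine (hasDerivAt_integral_of_dominated_loc_of_deriv_le (μ := gaussianReal 0 1)
    (F := fun x z => iteratedDeriv j ψ (x + √s * z))
    (F' := fun x z => iteratedDeriv (j + 1) ψ (x + √s * z))
    (bound := fun z => K * ψ x * Real.exp (c * √s * |z|)) (x₀ := x)
    (Metric.ball_mem_nhds x one_pos) (Eventually.of_forall fun y => heat_meas h j s y)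
    (heat_int h j s x) (heat_meas h (j + 1) s x) (Eventually.of_forall fun z y hy => ?_)
    ((heat_int_exp (c * √s)).const_mul (K * ψ x)) (Eventually.of_forall fun z y hy => ?_)).2
  · rw [Real.norm_eq_abs]
    refine hb _ x s y z (Real.sqrt_nonneg s) le_rfl ?_
    rw [Metric.mem_ball, Real.dist_eq] at hy
    exact hy.le
  · have h1 := heat_hasDeriv h.smooth j (y + √s * z)
    exact (h1.comp_add_const y (√s * z))

theorem U_s (h : PosF ψ) (j : ℕ) {s : ℝ} (hs : 0 < s) (x : ℝ) :
    HasDerivAt (fun s => U ψ j s x) (1 / 2 * U ψ (j + 2) s x) s := by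
  obtain ⟨K, c, hK, hc, hb⟩ := heat_bound h (j + 1)
  have hs2 : 0 < s / 2 := by positivity
  have key := (hasDerivAt_integral_of_dominated_loc_of_deriv_le (μ := gaussianReal 0 1)
    (F := fun s z => iteratedDeriv j ψ (x + √s * z))
    (F' := fun s z => iteratedDeriv (j + 1) ψ (x + √s * z) * (1 / (2 * √s) * z))
    (bound := fun z => (1 / (2 * √(s / 2))) * (K * ψ x * Real.exp ((c * √(2 * s) + 1) * |z|)))
    (x₀ := s) (Metric.ball_mem_nhds s hs2) (Eventually.of_forall fun y => heat_meas h j y x)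
    (heat_int h j s x)
    ((heat_meas h (j + 1) s x).mul (by fun_prop : Continuous fun z : ℝ =>
      1 / (2 * √s) * z).aestronglyMeasurable) (Eventually.of_forall fun z t ht => ?_)
    (((heat_int_exp (c * √(2 * s) + 1)).const_mul (K * ψ x)).const_mul _)
    (Eventually.of_forall fun z t ht => ?_)).2
  · have hst := heat_int_z h (j + 1) s x
    have h5 : (1 / 2 * U ψ (j + 2) s x) = ∫ z, iteratedDeriv (j + 1) ψ (x + √s * z) *
        (1 / (2 * √s) * z) ∂(gaussianReal 0 1) := by
      have h6 := stein_one_int (fun z => iteratedDeriv (j + 1) ψ (x + √s * z))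
        (fun z => √s * iteratedDeriv (j + 2) ψ (x + √s * z)) (fun z => by
          have h7 := heat_hasDeriv h.smooth (j + 1) (x + √s * z)
          have h8 : HasDerivAt (fun z : ℝ => x + √s * z) (√s) z := by
            simpa using ((hasDerivAt_id z).const_mul (√s)).const_add x
          have h9 := h7.comp z h8
          rw [mul_comm (√s)]
          exact h9) (heat_int h (j + 1) s x) hst
        ((heat_int h (j + 2) s x).const_mul _)
      have h10 : ∫ z, iteratedDeriv (j + 1) ψ (x + √s * z) *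
          (1 / (2 * √s) * z) ∂(gaussianReal 0 1) =
          (1 / (2 * √s)) * ∫ z, z * iteratedDeriv (j + 1) ψ (x + √s * z) ∂(gaussianReal 0 1) := by
        rw [← integral_const_mul]
        refine integral_congr_ae (Eventually.of_forall fun z => ?_)
        show _ = _
        ring
      rw [h10, h6, integral_const_mul]
      have hsq : √s ≠ 0 := (Real.sqrt_pos.2 hs).ne'
      unfold U
      field_simp
    rw [h5]
    exact key
  · rw [Metric.mem_ball, Real.dist_eq, abs_lt] at ht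
    have ht0 : s / 2 < t := by linarith [ht.1]
    have ht1 : t ≤ 2 * s := by linarith [ht.2]
    have e1 : √t ≤ √(2 * s) := Real.sqrt_le_sqrt ht1
    have e2 : √(s / 2) ≤ √t := Real.sqrt_le_sqrt ht0.le
    have e3 : 0 < √(s / 2) := Real.sqrt_pos.2 hs2
    have e4 : 0 < √t := lt_of_lt_of_le e3 e2
    rw [Real.norm_eq_abs, abs_mul, abs_mul, abs_of_pos (by positivity : 0 < 1 / (2 * √t))]
    have e5 : 1 / (2 * √t) ≤ 1 / (2 * √(s / 2)) := by
      apply one_div_le_one_div_of_le (by positivity)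
      linarith
    have e6 := hb _ x t x z (Real.sqrt_nonneg (2 * s)) e1 (by simp)
    calc |iteratedDeriv (j + 1) ψ (x + √t * z)| * (1 / (2 * √t) * |z|)
        ≤ (K * ψ x * Real.exp (c * √(2 * s) * |z|)) * (1 / (2 * √(s / 2)) * Real.exp |z|) := by
          refine mul_le_mul e6 (mul_le_mul e5 (heat_abs_le_exp z) (abs_nonneg _) (by positivity))
            (by positivity) ?_
          exact le_trans (abs_nonneg _) e6
      _ = _ := by
          rw [add_mul, Real.exp_add, one_mul]; ring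
  · rw [Metric.mem_ball, Real.dist_eq, abs_lt] at ht
    have ht0 : 0 < t := by linarith [ht.1]
    have h7 := heat_hasDeriv h.smooth j (x + √t * z)
    have h8 : HasDerivAt (fun t : ℝ => x + √t * z) (1 / (2 * √t) * z) t :=
      ((Real.hasDerivAt_sqrt ht0.ne').mul_const z).const_add x
    exact h7.comp t h8

theorem U_cont (h : PosF ψ) (j : ℕ) : Continuous (fun p : ℝ × ℝ => U ψ j p.1 p.2) := by
  obtain ⟨K, c, hK, hc, hb⟩ := heat_bound h j
  rw [continuous_iff_continuousAt]
  rintro ⟨s, x⟩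
  unfold U
  refine continuousAt_of_dominated (bound := fun z => K * ψ x * Real.exp (c * √(s + 1) * |z|))
    (Eventually.of_forall fun p => heat_meas h j p.1 p.2) ?_
    ((heat_int_exp (c * √(s + 1))).const_mul (K * ψ x)) (Eventually.of_forall fun z => ?_)
  · have h1 : ∀ᶠ p : ℝ × ℝ in 𝓝 (s, x), p.1 < s + 1 :=
      continuous_fst.continuousAt.eventually_lt_const (by simp)
    have h2 : ∀ᶠ p : ℝ × ℝ in 𝓝 (s, x), p.2 ∈ Metric.ball x 1 :=
      continuous_snd.continuousAt.eventually_mem (Metric.ball_mem_nhds x one_pos)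
    filter_upwards [h1, h2] with p hp1 hp2
    refine Eventually.of_forall fun z => ?_
    rw [Real.norm_eq_abs]
    refine hb _ x p.1 p.2 z (Real.sqrt_nonneg _) (Real.sqrt_le_sqrt hp1.le) ?_
    rw [Metric.mem_ball, Real.dist_eq] at hp2
    exact hp2.le
  · exact ((heat_cont h.smooth j).comp (by fun_prop : Continuous fun p : ℝ × ℝ =>
      p.2 + √p.1 * z)).continuousAt

/-! ### exponentials -/

/-- smooth functions with all derivatives (of order `≥ 0`) bounded -/
def heat_BB (f : ℝ → ℝ) : Prop :=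
  ContDiff ℝ (⊤ : ℕ∞) f ∧ ∀ j : ℕ, ∃ C : ℝ, ∀ x, |iteratedDeriv j f x| ≤ C

theorem heat_BB_const (c : ℝ) : heat_BB (fun _ => c) := by
  refine ⟨contDiff_const, fun j => ?_⟩
  cases j with
  | zero => exact ⟨|c|, fun x => by simp⟩
  | succ j =>
    refine ⟨0, fun x => ?_⟩
    rw [iteratedDeriv_succ']
    have : deriv (fun _ : ℝ => c) = fun _ => 0 := by ext x; simp
    rw [this]
    have h0 : iteratedDeriv j (fun _ : ℝ => (0 : ℝ)) x = 0 := by
      rw [iteratedDeriv_const]; simp
    rw [h0]; simp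

theorem heat_BB_add {f g : ℝ → ℝ} (hf : heat_BB f) (hg : heat_BB g) :
    heat_BB (fun x => f x + g x) := by
  refine ⟨hf.1.add hg.1, fun j => ?_⟩
  obtain ⟨C, hC⟩ := hf.2 j
  obtain ⟨C', hC'⟩ := hg.2 j
  refine ⟨C + C', fun x => ?_⟩
  have h1 : iteratedDeriv j (fun x => f x + g x) x = iteratedDeriv j f x + iteratedDeriv j g x :=
    iteratedDeriv_add (n := j) (hf.1.contDiffAt.of_le (by exact_mod_cast le_top))
      (hg.1.contDiffAt.of_le (by exact_mod_cast le_top))
  rw [h1]
  exact (abs_add_le _ _).trans (add_le_add (hC x) (hC' x))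

theorem heat_BB_mul {f g : ℝ → ℝ} (hf : heat_BB f) (hg : heat_BB g) :
    heat_BB (fun x => f x * g x) := by
  refine ⟨hf.1.mul hg.1, fun j => ?_⟩
  choose A hA using hf.2
  choose B hB using hg.2
  refine ⟨∑ i ∈ Finset.range (j + 1), (j.choose i : ℝ) * A i * B (j - i), fun x => ?_⟩
  have h1 := norm_iteratedFDeriv_mul_le (n := j) hf.1 hg.1 x (by exact_mod_cast le_top)
  rw [norm_iteratedFDeriv_eq_norm_iteratedDeriv] at h1
  refine le_trans h1 (Finset.sum_le_sum fun i _ => ?_)
  rw [norm_iteratedFDeriv_eq_norm_iteratedDeriv, norm_iteratedFDeriv_eq_norm_iteratedDeriv,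
    Real.norm_eq_abs, Real.norm_eq_abs]
  have hA0 : 0 ≤ A i := le_trans (abs_nonneg _) (hA i x)
  exact mul_le_mul (mul_le_mul_of_nonneg_left (hA i x) (by positivity)) (hB _ x) (abs_nonneg _)
    (by positivity)

theorem heat_BB_deriv {f : ℝ → ℝ} (hf : heat_BB f) : heat_BB (deriv f) := by
  constructor
  · have := heat_smooth_iter hf.1 1
    rwa [iteratedDeriv_one] at this
  · intro j
    rw [← iteratedDeriv_succ']
    exact hf.2 (j + 1)

theorem posF_exp {F : ℝ → ℝ} (h : SmB F) (g : ℝ) : PosF (fun x => Real.exp (g * F x)) := by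
  have hF' : heat_BB (deriv F) := by
    constructor
    · have := heat_smooth_iter h.smooth 1
      rwa [iteratedDeriv_one] at this
    · intro j
      rw [← iteratedDeriv_succ']
      exact h.bd j
  have hsm : ContDiff ℝ (⊤ : ℕ∞) (fun x => Real.exp (g * F x)) :=
    (contDiff_const.mul h.smooth).exp
  have key : ∀ j : ℕ, ∃ Q : ℝ → ℝ, heat_BB Q ∧
      ∀ x, iteratedDeriv j (fun x => Real.exp (g * F x)) x = Q x * Real.exp (g * F x) := by
    intro j
    induction j with
    | zero => exact ⟨fun _ => 1, heat_BB_const 1, fun x => by simp⟩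
    | succ j ih =>
      obtain ⟨Q, hQ, hQe⟩ := ih
      refine ⟨fun x => deriv Q x + Q x * (g * deriv F x),
        heat_BB_add (heat_BB_deriv hQ) (heat_BB_mul hQ (heat_BB_mul (heat_BB_const g) hF')),
        fun x => ?_⟩
      rw [iteratedDeriv_succ]
      have h1 : iteratedDeriv j (fun x => Real.exp (g * F x)) =
          fun x => Q x * Real.exp (g * F x) := funext hQe
      rw [h1]
      have h2 : HasDerivAt Q (deriv Q x) x :=
        (hQ.1.differentiable (by simp) x).hasDerivAt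
      have h3 : HasDerivAt F (deriv F x) x := (h.smooth.differentiable (by simp) x).hasDerivAt
      have h4 := h2.mul ((h3.const_mul g).exp)
      have h5 : deriv (fun x => Q x * Real.exp (g * F x)) x = _ := h4.deriv
      rw [h5]
      ring
  refine ⟨hsm, fun x => Real.exp_pos _, fun j => ?_⟩
  obtain ⟨Q, hQ, hQe⟩ := key j
  obtain ⟨C, hC⟩ := hQ.2 0
  refine ⟨C, fun x => ?_⟩
  rw [hQe x, abs_mul, abs_of_pos (Real.exp_pos _)]
  have := hC x
  rw [iteratedDeriv_zero] at this
  exact mul_le_mul_of_nonneg_right this (Real.exp_pos _).le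

end Vale.Agent.P146.Gap
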