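import Mathlib

/-!
# P146, no-gap theorem: parabolic maximum principle on the line and on the half line
-/

open MeasureTheory ProbabilityTheory Filter Topology Set

namespace Vale.Agent.P146.Gap

/-- one-sided first order condition. -/
theorem maxp_left {f : ℝ → ℝ} {f' s₁ s₀ : ℝ} (h0 : s₀ < s₁) (hf : HasDerivAt f f' s₁)
    (hmin : ∀ s ∈ Ioo s₀ s₁, f s₁ ≤ f s) : f' ≤ 0 := by
  have h1 := (hasDerivAt_iff_tendsto_slope.1 hf).mono_left
    (nhdsWithin_mono s₁ (fun x (hx : x ∈ Iio s₁) => (ne_of_lt hx : x ≠ s₁)))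
  refine le_of_tendsto h1 ?_
  filter_upwards [Ioo_mem_nhdsLT h0] with s hs
  rw [slope_def_field]
  exact div_nonpos_of_nonneg_of_nonpos (sub_nonneg.2 (hmin s hs)) (by linarith [hs.2])

/-- second order condition at a minimum. -/
theorem maxp_second {f f' : ℝ → ℝ} {f'' x₁ lo hi : ℝ} (h0 : lo < x₁) (h1 : x₁ < hi)
    (hf : ∀ x ∈ Ioo lo hi, HasDerivAt f (f' x) x) (hf' : HasDerivAt f' f'' x₁)
    (hmin : ∀ x ∈ Ioo lo hi, f x₁ ≤ f x) : f' x₁ = 0 ∧ 0 ≤ f'' := by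
  have hz : f' x₁ = 0 := by
    have hl : IsLocalMin f x₁ := by
      filter_upwards [Ioo_mem_nhds h0 h1] with x hx
      exact hmin x hx
    exact hl.hasDerivAt_eq_zero (hf x₁ ⟨h0, h1⟩)
  refine ⟨hz, ?_⟩
  by_contra hneg
  push Not at hneg
  have h2 := (hasDerivAt_iff_tendsto_slope.1 hf').mono_left
    (nhdsWithin_mono x₁ (fun x (hx : x ∈ Ioi x₁) => (ne_of_gt hx : x ≠ x₁)))
  have h3 : ∀ᶠ x in 𝓝[>] x₁, slope f' x₁ x < 0 := h2.eventually (gt_mem_nhds hneg)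
  obtain ⟨u, hu, hu'⟩ := mem_nhdsGT_iff_exists_Ioo_subset.1 (h3.and (Ioo_mem_nhdsGT h1))
  have hu0 : x₁ < u := hu
  have hsub : ∀ x ∈ Ioo x₁ u, f' x < 0 ∧ x < hi := by
    intro x hx
    obtain ⟨h4, h5⟩ := hu' hx
    refine ⟨?_, h5.2⟩
    rw [slope_def_field, hz, sub_zero] at h4
    have h6 : 0 < x - x₁ := by linarith [hx.1]
    by_contra h7
    push Not at h7
    exact absurd (div_nonneg h7 h6.le) (not_le.2 h4)
  set m := (x₁ + u) / 2 with hm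
  have hm1 : x₁ < m := by rw [hm]; linarith
  have hm2 : m < u := by rw [hm]; linarith
  have hcont : ContinuousOn f (Icc x₁ m) := by
    intro x hx
    have : x ∈ Ioo lo hi := by
      refine ⟨lt_of_lt_of_le h0 hx.1, ?_⟩
      rcases eq_or_lt_of_le hx.1 with h | h
      · rw [← h]; exact h1
      · exact (hsub x ⟨h, lt_of_le_of_lt hx.2 hm2⟩).2
    exact (hf x this).continuousAt.continuousWithinAt
  have hanti : StrictAntiOn f (Icc x₁ m) := by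
    refine strictAntiOn_of_deriv_neg (convex_Icc _ _) hcont ?_
    intro x hx
    rw [interior_Icc] at hx
    have hx' : x ∈ Ioo x₁ u := ⟨hx.1, hx.2.trans hm2⟩
    rw [(hf x ⟨h0.trans hx.1, (hsub x hx').2⟩).deriv]
    exact (hsub x hx').1
  have h8 : f m < f x₁ := hanti (left_mem_Icc.2 hm1.le) (right_mem_Icc.2 hm1.le) hm1
  have h9 := hmin m ⟨h0.trans hm1, (hsub m ⟨hm1, hm2⟩).2⟩
  linarith

/-- the maximum principle on a rectangle. -/
theorem maxp_rect {T lo hi : ℝ} {v vs vx vxx b c : ℝ → ℝ → ℝ}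
    (hv : ContinuousOn (fun p : ℝ × ℝ => v p.1 p.2) (Icc 0 T ×ˢ Icc lo hi))
    (hs : ∀ s ∈ Ioc 0 T, ∀ x ∈ Ioo lo hi, HasDerivAt (fun s => v s x) (vs s x) s)
    (hx : ∀ s ∈ Ioc 0 T, ∀ x ∈ Ioo lo hi, HasDerivAt (v s) (vx s x) x)
    (hxx : ∀ s ∈ Ioc 0 T, ∀ x ∈ Ioo lo hi, HasDerivAt (vx s) (vxx s x) x)
    (hc : ∀ s ∈ Ioc 0 T, ∀ x ∈ Ioo lo hi, c s x ≤ 0)
    (hpde : ∀ s ∈ Ioc 0 T, ∀ x ∈ Ioo lo hi,
      1 / 2 * vxx s x + b s x * vx s x + c s x * v s x < vs s x)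
    (h0 : ∀ x ∈ Icc lo hi, 0 ≤ v 0 x) (hlo : ∀ s ∈ Icc 0 T, 0 ≤ v s lo)
    (hhi : ∀ s ∈ Icc 0 T, 0 ≤ v s hi) : ∀ s ∈ Icc 0 T, ∀ x ∈ Icc lo hi, 0 ≤ v s x := by
  intro s hsT x hxI
  have hne : (Icc 0 T ×ˢ Icc lo hi : Set (ℝ × ℝ)).Nonempty := ⟨(s, x), hsT, hxI⟩
  obtain ⟨⟨s₁, x₁⟩, ⟨h1, h2⟩, hmin⟩ :=
    (isCompact_Icc.prod isCompact_Icc).exists_isMinOn hne hv
  have hmin' : ∀ s ∈ Icc 0 T, ∀ x ∈ Icc lo hi, v s₁ x₁ ≤ v s x := fun s hs x hx =>
    hmin (show (s, x) ∈ Icc 0 T ×ˢ Icc lo hi from ⟨hs, hx⟩)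
  simp only at h1 h2
  by_contra hneg
  push Not at hneg
  have h3 : v s₁ x₁ < 0 := lt_of_le_of_lt (hmin' s hsT x hxI) hneg
  have hs1 : 0 < s₁ := by
    rcases eq_or_lt_of_le h1.1 with h | h
    · rw [← h] at h3
      exact absurd (h0 x₁ h2) (not_le.2 h3)
    · exact h
  have hx1 : lo < x₁ := by
    rcases eq_or_lt_of_le h2.1 with h | h
    · rw [← h] at h3
      exact absurd (hlo s₁ h1) (not_le.2 h3)
    · exact h
  have hx2 : x₁ < hi := by
    rcases eq_or_lt_of_le h2.2 with h | h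
    · rw [h] at h3
      exact absurd (hhi s₁ h1) (not_le.2 h3)
    · exact h
  have hsI : s₁ ∈ Ioc 0 T := ⟨hs1, h1.2⟩
  have hxI' : x₁ ∈ Ioo lo hi := ⟨hx1, hx2⟩
  have e1 : vs s₁ x₁ ≤ 0 := maxp_left hs1 (hs s₁ hsI x₁ hxI') fun t ht =>
    hmin' t ⟨ht.1.le, ht.2.le.trans h1.2⟩ x₁ h2
  obtain ⟨e2, e3⟩ := maxp_second hx1 hx2 (fun y hy => hx s₁ hsI y hy) (hxx s₁ hsI x₁ hxI')
    fun y hy => hmin' s₁ h1 y ⟨hy.1.le, hy.2.le⟩
  have e4 := hpde s₁ hsI x₁ hxI'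
  have e5 := hc s₁ hsI x₁ hxI'
  rw [e2, mul_zero, add_zero] at e4
  have e6 : 0 ≤ c s₁ x₁ * v s₁ x₁ := mul_nonneg_of_nonpos_of_nonpos e5 h3.le
  linarith

/-- the maximum principle on a rectangle for the original equation, with a barrier. -/
theorem maxp_mid {T B lo hi ε : ℝ} {w ws wx wxx b c : ℝ → ℝ → ℝ} (hB0 : 0 ≤ B) (hε : 0 < ε)
    (hw : ContinuousOn (fun p : ℝ × ℝ => w p.1 p.2) (Icc 0 T ×ˢ Icc lo hi))
    (hs : ∀ s ∈ Ioc 0 T, ∀ x ∈ Ioo lo hi, HasDerivAt (fun s => w s x) (ws s x) s)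
    (hx : ∀ s ∈ Ioc 0 T, ∀ x ∈ Ioo lo hi, HasDerivAt (w s) (wx s x) x)
    (hxx : ∀ s ∈ Ioc 0 T, ∀ x ∈ Ioo lo hi, HasDerivAt (wx s) (wxx s x) x)
    (hb : ∀ s ∈ Ioc 0 T, ∀ x ∈ Ioo lo hi, |b s x| ≤ B)
    (hc : ∀ s ∈ Ioc 0 T, ∀ x ∈ Ioo lo hi, c s x ≤ B)
    (hpde : ∀ s ∈ Ioc 0 T, ∀ x ∈ Ioo lo hi,
      1 / 2 * wxx s x + b s x * wx s x + c s x * w s x ≤ ws s x)
    (h0 : ∀ x ∈ Icc lo hi, 0 ≤ w 0 x)
    (hlo : ∀ s ∈ Icc 0 T, 0 ≤ Real.exp (-(B + 1) * s) * w s lo +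
      ε * Real.exp ((2 * B + 10) * s) * (1 + lo ^ 2))
    (hhi : ∀ s ∈ Icc 0 T, 0 ≤ Real.exp (-(B + 1) * s) * w s hi +
      ε * Real.exp ((2 * B + 10) * s) * (1 + hi ^ 2)) :
    ∀ s ∈ Icc 0 T, ∀ x ∈ Icc lo hi, 0 ≤ Real.exp (-(B + 1) * s) * w s x +
      ε * Real.exp ((2 * B + 10) * s) * (1 + x ^ 2) := by
  refine maxp_rect
    (v := fun s x => Real.exp (-(B + 1) * s) * w s x +
      ε * Real.exp ((2 * B + 10) * s) * (1 + x ^ 2))
    (vs := fun s x => Real.exp (-(B + 1) * s) * (-(B + 1)) * w s x +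
      Real.exp (-(B + 1) * s) * ws s x +
      ε * (Real.exp ((2 * B + 10) * s) * (2 * B + 10)) * (1 + x ^ 2))
    (vx := fun s x => Real.exp (-(B + 1) * s) * wx s x +
      ε * Real.exp ((2 * B + 10) * s) * (2 * x))
    (vxx := fun s x => Real.exp (-(B + 1) * s) * wxx s x +
      ε * Real.exp ((2 * B + 10) * s) * 2)
    (b := b) (c := fun s x => c s x - (B + 1)) ?_ ?_ ?_ ?_ ?_ ?_ ?_ hlo hhi
  · refine ContinuousOn.add (ContinuousOn.mul ?_ hw) ?_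
    · exact (Real.continuous_exp.comp (continuous_const.mul continuous_fst)).continuousOn
    · exact ((continuous_const.mul
        (Real.continuous_exp.comp (continuous_const.mul continuous_fst))).mul
        (continuous_const.add (continuous_snd.pow 2))).continuousOn
  · intro s hsT x hxI
    have e1 : HasDerivAt (fun s => Real.exp (-(B + 1) * s))
        (Real.exp (-(B + 1) * s) * (-(B + 1))) s := by
      have := ((hasDerivAt_id s).const_mul (-(B + 1))).exp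
      simpa using this
    have e2 : HasDerivAt (fun s => Real.exp ((2 * B + 10) * s))
        (Real.exp ((2 * B + 10) * s) * (2 * B + 10)) s := by
      have := ((hasDerivAt_id s).const_mul (2 * B + 10)).exp
      simpa using this
    exact (e1.mul (hs s hsT x hxI)).add ((e2.const_mul ε).mul_const (1 + x ^ 2))
  · intro s hsT x hxI
    have e1 : HasDerivAt (fun x : ℝ => 1 + x ^ 2) (2 * x) x := by
      have := (hasDerivAt_pow 2 x).const_add 1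
      simpa using this
    exact ((hx s hsT x hxI).const_mul _).add (e1.const_mul _)
  · intro s hsT x hxI
    have e1 : HasDerivAt (fun x : ℝ => 2 * x) 2 x := by
      have := (hasDerivAt_id x).const_mul 2
      simpa using this
    exact ((hxx s hsT x hxI).const_mul _).add (e1.const_mul _)
  · intro s hsT x hxI
    have := hc s hsT x hxI
    linarith
  · intro s hsT x hxI
    have h1 := hb s hsT x hxI
    have h2 := hc s hsT x hxI
    have h3 := hpde s hsT x hxI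
    have E1 : 0 < Real.exp (-(B + 1) * s) := Real.exp_pos _
    have E2 : 0 < ε * Real.exp ((2 * B + 10) * s) := mul_pos hε (Real.exp_pos _)
    have h4 : 0 < (2 * B + 10) * (1 + x ^ 2) - 1 - b s x * (2 * x) -
        (c s x - (B + 1)) * (1 + x ^ 2) := by
      have h5 : b s x * (2 * x) ≤ B * (1 + x ^ 2) := by
        have h6 : b s x * (2 * x) ≤ |b s x| * |2 * x| := by
          rw [← abs_mul]
          exact le_abs_self _
        have h7 : |2 * x| ≤ 1 + x ^ 2 := by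
          rw [abs_le]
          constructor <;> nlinarith [sq_nonneg (x - 1), sq_nonneg (x + 1)]
        exact h6.trans (mul_le_mul h1 h7 (abs_nonneg _) hB0)
      have h8 : (c s x - (B + 1)) * (1 + x ^ 2) ≤ 0 := by
        apply mul_nonpos_of_nonpos_of_nonneg <;> nlinarith [sq_nonneg x]
      nlinarith [sq_nonneg x, mul_nonneg hB0 (sq_nonneg x)]
    have h9 := mul_pos E2 h4
    have h10 := mul_le_mul_of_nonneg_left h3 E1.le
    nlinarith [h9, h10]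
  · intro x hxI
    have h1 := h0 x hxI
    have h2 : 0 ≤ ε * Real.exp ((2 * B + 10) * 0) * (1 + x ^ 2) := by positivity
    have h3 : 0 ≤ Real.exp (-(B + 1) * 0) * w 0 x := mul_nonneg (Real.exp_pos _).le h1
    linarith

/-- passing to the limit in the barrier. -/
theorem maxp_limit {y M N : ℝ} (hM : 0 < M) (h : ∀ ε : ℝ, 0 < ε → 0 ≤ M * y + ε * N) :
    0 ≤ y := by
  have h1 : 0 ≤ M * y := by
    by_contra hneg
    push Not at hneg
    by_cases hN : N ≤ 0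
    · have := h 1 one_pos
      linarith
    · push Not at hN
      have h2 := h (-(M * y) / (2 * N)) (by
        apply div_pos <;> linarith)
      have h3 : -(M * y) / (2 * N) * N = -(M * y) / 2 := by
        field_simp
      rw [h3] at h2
      linarith
  exact nonneg_of_mul_nonneg_right h1 hM

/-- passing to the limit at the final time. -/
theorem maxp_final {S : ℝ} {f : ℝ → ℝ} (hS : 0 < S) (hf : ContinuousOn f (Icc 0 S))
    (h : ∀ s, 0 ≤ s → s < S → 0 ≤ f s) : 0 ≤ f S := by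
  have h1 : Tendsto f (𝓝[<] S) (𝓝 (f S)) := by
    have h2 := hf S (right_mem_Icc.2 hS.le)
    refine h2.mono_left ?_
    rw [nhdsWithin_le_iff]
    filter_upwards [Ioo_mem_nhdsLT hS] with x hx
    exact ⟨hx.1.le, hx.2.le⟩
  refine ge_of_tendsto h1 ?_
  filter_upwards [Ioo_mem_nhdsLT hS] with x hx
  exact h x hx.1.le hx.2

/-- the barrier at a far point. -/
theorem maxp_far {B s y ε R : ℝ} (hB0 : 0 ≤ B) (hs : 0 ≤ s) (hε : 0 < ε) (hy : |y| ≤ B)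
    (hR : B / ε ≤ R ^ 2) : 0 ≤ Real.exp (-(B + 1) * s) * y +
      ε * Real.exp ((2 * B + 10) * s) * (1 + R ^ 2) := by
  have h1 : Real.exp (-(B + 1) * s) ≤ 1 := by
    rw [Real.exp_le_one_iff]
    nlinarith
  have h2 : 1 ≤ Real.exp ((2 * B + 10) * s) := by
    rw [Real.one_le_exp_iff]
    positivity
  have h3 : -B ≤ Real.exp (-(B + 1) * s) * y := by
    have h4 : |Real.exp (-(B + 1) * s) * y| ≤ 1 * B := by
      rw [abs_mul, abs_of_pos (Real.exp_pos _)]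
      exact mul_le_mul h1 hy (abs_nonneg _) zero_le_one
    have := (abs_le.1 h4).1
    linarith
  have h5 : B ≤ ε * (1 + R ^ 2) := by
    rw [div_le_iff₀ hε] at hR
    nlinarith
  have h6 : ε * (1 + R ^ 2) ≤ ε * Real.exp ((2 * B + 10) * s) * (1 + R ^ 2) := by
    have : 0 ≤ ε * (1 + R ^ 2) := by positivity
    nlinarith
  linarith

theorem maxp_line {S B : ℝ} {w ws wx wxx b c : ℝ → ℝ → ℝ} (hS : 0 < S)
    (hw : ContinuousOn (fun p : ℝ × ℝ => w p.1 p.2) (Icc 0 S ×ˢ univ))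
    (hB : ∀ s ∈ Icc 0 S, ∀ x, |w s x| ≤ B)
    (hs : ∀ s ∈ Ioo 0 S, ∀ x, HasDerivAt (fun s => w s x) (ws s x) s)
    (hx : ∀ s ∈ Ioo 0 S, ∀ x, HasDerivAt (w s) (wx s x) x)
    (hxx : ∀ s ∈ Ioo 0 S, ∀ x, HasDerivAt (wx s) (wxx s x) x)
    (hb : ∀ s ∈ Ioo 0 S, ∀ x, |b s x| ≤ B) (hc : ∀ s ∈ Ioo 0 S, ∀ x, c s x ≤ B)
    (hpde : ∀ s ∈ Ioo 0 S, ∀ x, 1 / 2 * wxx s x + b s x * wx s x + c s x * w s x ≤ ws s x)
    (h0 : ∀ x, 0 ≤ w 0 x) : ∀ s ∈ Icc 0 S, ∀ x, 0 ≤ w s x := by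
  have hB0 : 0 ≤ B := (abs_nonneg _).trans (hB 0 (left_mem_Icc.2 hS.le) 0)
  have key : ∀ T, 0 ≤ T → T < S → ∀ x, 0 ≤ w T x := by
    intro T hT0 hTS x
    refine maxp_limit (Real.exp_pos (-(B + 1) * T))
      (N := Real.exp ((2 * B + 10) * T) * (1 + x ^ 2)) fun ε hε => ?_
    rw [← mul_assoc]
    have hsub : ∀ s, s ∈ Ioc 0 T → s ∈ Ioo 0 S := fun s hs => ⟨hs.1, lt_of_le_of_lt hs.2 hTS⟩
    set R := |x| + B / ε + 1 with hR
    have hBe : 0 ≤ B / ε := div_nonneg hB0 hε.le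
    have hR1 : B / ε ≤ R ^ 2 := by nlinarith [abs_nonneg x]
    have hR2 : B / ε ≤ (-R) ^ 2 := by rw [neg_sq]; exact hR1
    refine maxp_mid (lo := -R) (hi := R) hB0 hε (hw.mono ?_)
      (fun s h y _ => hs s (hsub s h) y) (fun s h y _ => hx s (hsub s h) y)
      (fun s h y _ => hxx s (hsub s h) y) (fun s h y _ => hb s (hsub s h) y)
      (fun s h y _ => hc s (hsub s h) y) (fun s h y _ => hpde s (hsub s h) y)
      (fun y _ => h0 y) (fun s h => ?_) (fun s h => ?_) T (right_mem_Icc.2 hT0) x ?_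
    · exact prod_mono (Icc_subset_Icc le_rfl hTS.le) (subset_univ _)
    · exact maxp_far hB0 h.1 hε (hB s ⟨h.1, h.2.trans hTS.le⟩ _) hR2
    · exact maxp_far hB0 h.1 hε (hB s ⟨h.1, h.2.trans hTS.le⟩ _) hR1
    · constructor
      · have := neg_abs_le x
        linarith
      · have := le_abs_self x
        linarith
  intro s hsS x
  rcases eq_or_lt_of_le hsS.2 with h | h
  · rw [h]
    refine maxp_final (f := fun s => w s x) hS ?_ fun t ht ht' => key t ht ht' x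
    exact hw.comp (f := fun s => (s, x)) (by fun_prop) fun t ht => ⟨ht, mem_univ _⟩
  · exact key s hsS.1 h x

theorem maxp_half {S B a : ℝ} {w ws wx wxx b c : ℝ → ℝ → ℝ} (hS : 0 < S)
    (hw : ContinuousOn (fun p : ℝ × ℝ => w p.1 p.2) (Icc 0 S ×ˢ Ici a))
    (hB : ∀ s ∈ Icc 0 S, ∀ x, a ≤ x → |w s x| ≤ B)
    (hs : ∀ s ∈ Ioo 0 S, ∀ x, a < x → HasDerivAt (fun s => w s x) (ws s x) s)
    (hx : ∀ s ∈ Ioo 0 S, ∀ x, a < x → HasDerivAt (w s) (wx s x) x)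
    (hxx : ∀ s ∈ Ioo 0 S, ∀ x, a < x → HasDerivAt (wx s) (wxx s x) x)
    (hb : ∀ s ∈ Ioo 0 S, ∀ x, a < x → |b s x| ≤ B)
    (hc : ∀ s ∈ Ioo 0 S, ∀ x, a < x → c s x ≤ B)
    (hpde : ∀ s ∈ Ioo 0 S, ∀ x, a < x →
      1 / 2 * wxx s x + b s x * wx s x + c s x * w s x ≤ ws s x)
    (h0 : ∀ x, a ≤ x → 0 ≤ w 0 x) (ha : ∀ s ∈ Icc 0 S, 0 ≤ w s a) :
    ∀ s ∈ Icc 0 S, ∀ x, a ≤ x → 0 ≤ w s x := by
  have hB0 : 0 ≤ B := (abs_nonneg _).trans (hB 0 (left_mem_Icc.2 hS.le) a le_rfl)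
  have key : ∀ T, 0 ≤ T → T < S → ∀ x, a ≤ x → 0 ≤ w T x := by
    intro T hT0 hTS x hax
    refine maxp_limit (Real.exp_pos (-(B + 1) * T))
      (N := Real.exp ((2 * B + 10) * T) * (1 + x ^ 2)) fun ε hε => ?_
    rw [← mul_assoc]
    have hsub : ∀ s, s ∈ Ioc 0 T → s ∈ Ioo 0 S := fun s hs => ⟨hs.1, lt_of_le_of_lt hs.2 hTS⟩
    set R := |x| + B / ε + 1 with hR
    have hBe : 0 ≤ B / ε := div_nonneg hB0 hε.le
    have hR1 : B / ε ≤ R ^ 2 := by nlinarith [abs_nonneg x]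
    have hxR : x ≤ R := by
      have := le_abs_self x
      linarith
    refine maxp_mid (lo := a) (hi := R) hB0 hε (hw.mono ?_)
      (fun s h y hy => hs s (hsub s h) y hy.1) (fun s h y hy => hx s (hsub s h) y hy.1)
      (fun s h y hy => hxx s (hsub s h) y hy.1) (fun s h y hy => hb s (hsub s h) y hy.1)
      (fun s h y hy => hc s (hsub s h) y hy.1) (fun s h y hy => hpde s (hsub s h) y hy.1)
      (fun y hy => h0 y hy.1) (fun s h => ?_) (fun s h => ?_) T (right_mem_Icc.2 hT0) x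
      ⟨hax, hxR⟩
    · exact prod_mono (Icc_subset_Icc le_rfl hTS.le) Icc_subset_Ici_self
    · have h1 := ha s ⟨h.1, h.2.trans hTS.le⟩
      positivity
    · exact maxp_far hB0 h.1 hε (hB s ⟨h.1, h.2.trans hTS.le⟩ _ (hax.trans hxR)) hR1
  intro s hsS x hax
  rcases eq_or_lt_of_le hsS.2 with h | h
  · rw [h]
    refine maxp_final (f := fun s => w s x) hS ?_ fun t ht ht' => key t ht ht' x hax
    exact hw.comp (f := fun s => (s, x)) (by fun_prop) fun t ht => ⟨ht, hax⟩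
  · exact key s hsS.1 h x hax

end Vale.Agent.P146.Gap
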